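import Crest.Agent.N337.E.SM
import Crest.Agent.N337.W.TP
import Crest.Agent.N337.Gas.Bridge
import Crest.Agent.N337.Pc.Defs

/-!
# Row 337, ENG (helper86): ordered births of the loops of the space-time permutation

`bs b s` multiplies the field `b` by `s` at time `0`; `LD b Y` are the birth data of the loops,
`BM p b Y H` the mean of `H ξ (chronological list of the births)`.
`smL` : supermartingale lemma with the drift in the child models written with `WN.ls`.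
`BM_set`, `BM_aliv`, `mkE_eq`, `mkE_le` : the law of the set of births, of the marked loops.
-/

set_option autoImplicit false
set_option linter.unusedSectionVars false

namespace Crest.Agent.N337.Bi

open Finset Crest.Agent.N337.Rep Crest.Agent.N337.LY0 Crest.Agent.N337.Gas
open Crest.Agent.N337.WN (ls Zg lw)
open Crest.Agent.N337.Pc (bw mkE qP)

section marks
variable {Γ : Type} [Fintype Γ] [DecidableEq Γ]

lemma bw_nn {D : Γ → ℝ} {X B : Finset Γ} (hB : B ⊆ X) (h : ∀ g ∈ X, 0 ≤ D g ∧ D g ≤ 1) :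
    0 ≤ bw D X B :=
  mul_nonneg (prod_nonneg fun g hg => (h g (hB hg)).1)
    (prod_nonneg fun g hg => sub_nonneg.2 (h g (mem_sdiff.1 hg).1).2)

lemma sum_bw (D : Γ → ℝ) (X : Finset Γ) : ∑ B ∈ X.powerset, bw D X B = 1 := by
  simp only [bw]; rw [← prod_add]; simp

lemma bw_insert (D : Γ → ℝ) {X : Finset Γ} {g : Γ} (hg : g ∉ X) (f : Finset Γ → ℝ) :
    ∑ B ∈ (insert g X).powerset, bw D (insert g X) B * f B =
      ∑ B ∈ X.powerset, bw D X B * ((1 - D g) * f B + D g * f (insert g B)) := by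
  rw [sum_powerset_insert hg, ← sum_add_distrib]
  refine sum_congr rfl fun B hB => ?_
  have hB' : g ∉ B := fun k => hg (mem_powerset.1 hB k)
  simp only [bw]
  rw [insert_sdiff_of_notMem _ hB', prod_insert fun k => hg (mem_sdiff.1 k).1, prod_insert hB',
    insert_sdiff_insert, sdiff_insert_of_notMem hg]
  ring

/-- thinning. -/
theorem bw_thin {D W μ : Γ → ℝ} (X : Finset Γ) : (∀ g ∈ X, D g = W g * μ g) →
    ∀ f : Finset Γ → ℝ, ∑ B ∈ X.powerset, bw D X B * f B =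
      ∑ C ∈ X.powerset, bw W X C * ∑ B ∈ C.powerset, bw μ C B * f B := by
  induction X using Finset.induction_on with
  | empty => intro _ f; simp [bw]
  | insert g X hg ih =>
    intro h f
    rw [bw_insert D hg, bw_insert W hg, ih fun x hx => h x (mem_insert_of_mem hx)]
    refine sum_congr rfl fun C hC => congrArg _ ?_
    rw [bw_insert μ fun k => hg (mem_powerset.1 hC k), mul_sum, mul_sum, ← sum_add_distrib,
      h g (mem_insert_self _ _)]
    exact sum_congr rfl fun B _ => by ring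

/-- polymers of weight zero can be removed. -/
lemma bw_sdiff {W : Γ → ℝ} (X x : Finset Γ) (h : ∀ g ∈ x, W g = 0) (f : Finset Γ → ℝ) :
    ∑ C ∈ X.powerset, bw W X C * f C = ∑ C ∈ (X \ x).powerset, bw W (X \ x) C * f C := by
  symm
  refine (sum_congr rfl fun C _ => ?_).trans (sum_subset (powerset_mono.2 sdiff_subset)
    fun C hC hC' => ?_)
  · simp only [bw]
    rw [prod_subset (sdiff_subset_sdiff (sdiff_subset : X \ x ⊆ X) subset_rfl) fun g h1 h2 => ?_]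
    rw [h g (by simp only [mem_sdiff] at h1 h2; tauto), sub_zero]
  · obtain ⟨g, h1, h2⟩ := not_subset.1 (mem_powerset.not.1 hC')
    rw [bw, prod_eq_zero h1 (h g (by
      have := mem_powerset.1 hC h1; simp only [mem_sdiff] at h2; tauto))]
    ring

/-- all elements of `C` with property `Q` are marked. -/
lemma bw_all (μ : Γ → ℝ) (C : Finset Γ) (Q : Γ → Prop) [DecidablePred Q] :
    ∑ B ∈ C.powerset, bw μ C B * (if C.filter Q ⊆ B then 1 else 0) = ∏ g ∈ C with Q g, μ g := by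
  have h := prod_add (s := C) μ fun g => if Q g then 0 else 1 - μ g
  rw [prod_filter, prod_congr rfl fun g _ => (by split_ifs <;> ring :
    (if Q g then μ g else 1) = μ g + if Q g then 0 else 1 - μ g), h]
  refine sum_congr rfl fun B _ => ?_
  rw [bw, mul_assoc]
  congr 1
  split_ifs with k
  · rw [mul_one]
    exact prod_congr rfl fun g hg => (if_neg fun q =>
      (mem_sdiff.1 hg).2 (k (mem_filter.2 ⟨(mem_sdiff.1 hg).1, q⟩))).symm
  · obtain ⟨g, h1, h2⟩ := not_subset.1 k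
    rw [mul_zero, eq_comm]
    exact prod_eq_zero (f := fun g => if Q g then 0 else 1 - μ g)
      (mem_sdiff.2 ⟨(mem_filter.1 h1).1, h2⟩) (if_pos (mem_filter.1 h1).2)

end marks

variable {Λ : Type} [Fintype Λ] [DecidableEq Λ] {T : ℕ} [NeZero T] (ex ey : Fin T → Λ)

/-- the field at level `s`. -/
def bs (b : Fin T × Λ → ℝ) (s : ℝ) (v : Fin T × Λ) : ℝ := if v.1 = 0 then s * b v else b v

/-- birth data of the loops. -/
def LD (b : Fin T × Λ → ℝ) (Y : ℝ) : Dat (Lp T Λ) := ⟨ub b, wd, Y⟩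

/-- mean over the coins and the ordered births. -/
noncomputable def BM (p : Fin T → ℝ) (b : Fin T × Λ → ℝ) (Y : ℝ)
    (H : (Fin T → Bool) → List (Lp T Λ) → ℝ) : ℝ := (LD b Y).MM (Pw p) (L ex ey) H

variable {ex ey} {p : Fin T → ℝ} {b : Fin T × Λ → ℝ} {Y s : ℝ} {A : Finset (Lp T Λ)}
  {ξ : Fin T → Bool} {g : Lp T Λ}

lemma LD_ok (hb : ∀ v, 0 ≤ b v ∧ b v ≤ 1) (h0 : 0 ≤ Y) (h1 : Y ≤ 1) : (LD b Y).Ok :=
  ⟨ub_nn fun v => (hb v).1, ub_le_one hb, h0, h1⟩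

lemma bs_mem (hb : ∀ v, 0 ≤ b v ∧ b v ≤ 1) (h0 : 0 ≤ s) (h1 : s ≤ 1) (v : Fin T × Λ) :
    0 ≤ bs b s v ∧ bs b s v ≤ 1 := by
  unfold bs; split_ifs
  exacts [⟨mul_nonneg h0 (hb v).1, mul_le_one₀ h1 (hb v).1 (hb v).2⟩, hb v]

lemma bs_fld (hb : ∀ v, 0 ≤ b v ∧ b v ≤ 1) (h0 : 0 ≤ s) (h1 : s < 1) : Arc.Fld (bs b s) :=
  ⟨bs_mem hb h0 h1.le, fun x => by
    rw [bs, if_pos rfl]; exact (mul_le_of_le_one_right h0 (hb _).2).trans_lt h1⟩

lemma bs_mono (hb : ∀ v, 0 ≤ b v) {t : ℝ} (h : s ≤ t) (v : Fin T × Λ) : bs b s v ≤ bs b t v := by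
  unfold bs; split_ifs
  exacts [mul_le_mul_of_nonneg_right h (hb v), le_rfl]

lemma bs_one (b : Fin T × Λ → ℝ) : bs b 1 = b := by funext v; simp [bs]

lemma bs_kill (b : Fin T × Λ → ℝ) (s : ℝ) (U : Finset (Fin T × Λ)) :
    bs (kill b U) s = kill (bs b s) U := by
  funext v; unfold bs kill; by_cases h : v.1 = 0 <;> simp [h]

lemma kill_fld (h : Arc.Fld b) (U : Finset (Fin T × Λ)) : Arc.Fld (kill b U) := h.kill U

lemma ub_bs (b : Fin T × Λ → ℝ) (s : ℝ) (g : Lp T Λ) : ub (bs b s) g = ub b g * s ^ wd g := by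
  have e : wd g = (g.2.filter fun v => v.1 = 0).card := by
    refine card_bij (fun x _ => (0, x)) (by simp) (by simp) ?_
    rintro ⟨t, x⟩ h
    obtain ⟨h1, rfl⟩ := mem_filter.1 h
    exact ⟨x, by simpa using h1, rfl⟩
  rw [e, ub, ub, ← prod_const, prod_filter, ← prod_mul_distrib]
  exact prod_congr rfl fun v _ => by unfold bs; split_ifs <;> ring

lemma LD_w (b : Fin T × Λ → ℝ) (Y s : ℝ) (g : Lp T Λ) : (LD b Y).w s g = ub (bs b s) g :=
  (ub_bs b s g).symm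

lemma wd_ne (hg : g ∈ L ex ey ξ) : wd g ≠ 0 := by
  obtain ⟨v, rfl⟩ := mem_L.1 hg
  obtain ⟨x, hx⟩ := exists_time ex ey ξ (o _ v) 0
  exact card_ne_zero.2 ⟨x, mem_filter.2 ⟨mem_univ _, mem_obv.2 hx⟩⟩

lemma ub_kill_mem (hA : A ⊆ L ex ey ξ) (hg : g ∈ A) (b : Fin T × Λ → ℝ) :
    ub (kill b (pts A)) g = 0 := by
  obtain ⟨v, hv⟩ := L_nonempty (hA hg)
  exact prod_eq_zero hv (if_pos (mem_pts.2 ⟨g, hg, hv⟩))

lemma ub_kill_notMem (hA : A ⊆ L ex ey ξ) (hg : g ∈ L ex ey ξ) (hg' : g ∉ A)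
    (b : Fin T × Λ → ℝ) : ub (kill b (pts A)) g = ub b g :=
  prod_congr rfl fun v hv => if_neg fun k => by
    obtain ⟨g', h1, h2⟩ := mem_pts.1 k
    exact hg' (L_eq hg (hA h1) hv h2 ▸ h1)

lemma prod_kill (hA : A ⊆ L ex ey ξ) {B : Finset (Lp T Λ)} (hB : B ⊆ L ex ey ξ)
    (b : Fin T × Λ → ℝ) : ∏ g ∈ B \ A, (1 - ub b g) = ∏ g ∈ B, (1 - ub (kill b (pts A)) g) := by
  rw [← prod_subset (sdiff_subset : B \ A ⊆ B) fun g h1 h2 => by
    rw [ub_kill_mem hA (by simp only [mem_sdiff] at h2; tauto), sub_zero]]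
  exact prod_congr rfl fun g hg => by
    rw [ub_kill_notMem hA (hB (mem_sdiff.1 hg).1) (mem_sdiff.1 hg).2]

lemma sum_cond (hp : ∀ s, 0 ≤ p s ∧ p s ≤ 1) (A : Finset (Lp T Λ)) {F G : (Fin T → Bool) → ℝ}
    (h : ∀ ξ, A ⊆ L ex ey ξ → F ξ = G ξ) :
    ∑ ξ, (Pw p ξ * if A ⊆ L ex ey ξ then 1 else 0) * F ξ =
      qq ex ey p A * ∑ ξ, Pw (pin ex ey p A) ξ * G ξ := by
  rw [sum_congr rfl fun ξ _ => show _ = (Pw p ξ * if A ⊆ L ex ey ξ then 1 else 0) * G ξ by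
    split_ifs with k; exacts [by rw [h ξ k], by simp]]
  by_cases h0 : qq ex ey p A = 0
  · rw [h0, zero_mul]
    refine sum_eq_zero fun ξ _ => ?_
    rw [(sum_eq_zero_iff_of_nonneg fun ξ _ => mul_nonneg (Pw_nonneg hp ξ)
      (by split_ifs <;> norm_num)).1 h0 ξ (mem_univ _), zero_mul]
  · simp only [Pw_cond h0, mul_sum, mul_assoc]

theorem Z_eq (hp : ∀ s, 0 ≤ p s ∧ p s ≤ 1) (A : Finset (Lp T Λ)) (s : ℝ) :
    (LD b Y).Z (Pw p) (L ex ey) A s =
      qq ex ey p A * Zg ex ey (pin ex ey p A) (kill (bs b s) (pts A)) := by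
  rw [Dat.Z, ← WN.sum_gw]
  refine sum_cond hp A fun ξ hA => ?_
  simp only [LD_w]
  rw [prod_kill hA subset_rfl, prod_L]
  simp only [ub_lp]; rfl

theorem ls_eq (hp : ∀ s, 0 ≤ p s ∧ p s ≤ 1) (A : Finset (Lp T Λ)) (s : ℝ) (ψ : Lp T Λ → ℝ) :
    ∑ g ∈ Aᶜ, (LD b Y).w s g * (ψ g * (LD b Y).Z (Pw p) (L ex ey) (insert g A) s) =
      qq ex ey p A * ls ex ey (pin ex ey p A) (kill (bs b s) (pts A)) ψ := by
  simp only [← mul_assoc, Dat.Z]
  rw [← Dat.sum_ins (Pw p) (L ex ey) A _ fun _ _ B => ∏ g ∈ B, (1 - (LD b Y).w s g), ls]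
  refine sum_cond hp A fun ξ hA => ?_
  simp only [LD_w]
  have e : ∀ c : Orb (Sg ex ey ξ), lw (Sg ex ey ξ) (kill (bs b s) (pts A)) (bp c) =
      ub (kill (bs b s) (pts A)) (lp ex ey ξ (bp c)) * ∏ g ∈ (L ex ey ξ).erase (lp ex ey ξ (bp c)),
        (1 - ub (kill (bs b s) (pts A)) g) := fun c => by
    rw [lw, o_bp, ub_lp, L_eq_image, ← image_erase fun _ _ => lp_bp_inj,
      prod_image fun _ _ _ _ => lp_bp_inj]
    simp only [ub_lp]
  simp only [e]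
  rw [← sum_L ξ fun g => ψ g * (ub (kill (bs b s) (pts A)) g * ∏ g ∈ (L ex ey ξ).erase g,
    (1 - ub (kill (bs b s) (pts A)) g)), ← sum_subset (sdiff_subset : L ex ey ξ \ A ⊆ _)
    fun g h1 h2 => by
      rw [ub_kill_mem hA (by simp only [mem_sdiff] at h2; tauto)]; ring]
  refine sum_congr rfl fun g hg => ?_
  rw [ub_kill_notMem hA (mem_sdiff.1 hg).1 (mem_sdiff.1 hg).2, ← erase_sdiff_comm,
    prod_kill hA (erase_subset _ _)]
  ring

/-- **supermartingale lemma for the loops.** -/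
theorem smL (hp : ∀ s, 0 ≤ p s ∧ p s ≤ 1) (hb : ∀ v, 0 ≤ b v ∧ b v ≤ 1) (h0 : 0 ≤ Y) (h1 : Y ≤ 1)
    {φ ψ : List (Lp T Λ) → Lp T Λ → ℝ} (hφ : ∀ a g, 0 ≤ φ a g) (hψ : ∀ a g, 0 ≤ ψ a g)
    (hφψ : ∀ a g, φ a g ≤ 1 + ψ a g) {J : ℕ} (hJ : ∀ a g, ψ a g ≠ 0 → ub b g ≠ 0 → wd g < 2 ^ J)
    {C : ℕ → ℝ} (hC : ∀ j, 0 ≤ C j) {α : ℝ} (hα : 0 < α)
    (hr : ∀ l : List (Lp T Λ), l.Nodup → Ph φ [] l ≠ 0 → qq ex ey p l.toFinset ≠ 0 →
      ∀ s ∈ Set.Ioo 0 Y, ∀ j < J,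
        ls ex ey (pin ex ey p l.toFinset) (kill (bs b s) (pts l.toFinset))
          (fun g => if 2 ^ j ≤ wd g ∧ wd g < 2 ^ (j + 1) then ψ l g else 0) ≤
        C j * s ^ (α * 2 ^ j) * Zg ex ey (pin ex ey p l.toFinset) (kill (bs b s) (pts l.toFinset))) :
    BM ex ey p b Y (fun _ => Ph φ []) ≤ Real.exp (2 * (∑ j ∈ range J, C j) / α) := by
  refine Dat.sm (LD_ok hb h0 h1) (Pw_nonneg hp) (sum_Pw p).le hφ hψ hφψ hJ hC hα
    fun l hl hP s hs j hj => ?_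
  rw [sum_filter, sum_congr rfl fun g _ => show _ = (LD b Y).w s g *
    ((if 2 ^ j ≤ wd g ∧ wd g < 2 ^ (j + 1) then ψ l g else 0) *
      (LD b Y).Z (Pw p) (L ex ey) (insert g l.toFinset) s) by
        change (if 2 ^ j ≤ wd g ∧ wd g < 2 ^ (j + 1) then _ else _) = _
        split_ifs <;> simp, ls_eq hp, Z_eq hp, mul_left_comm]
  by_cases hq : qq ex ey p l.toFinset = 0
  · simp [hq]
  · exact mul_le_mul_of_nonneg_left (hr l hl hP hq s hs j hj) ((cpt_qq hp).nn _)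

/-- the law of the set of births. -/
theorem BM_set (p : Fin T → ℝ) (b : Fin T × Λ → ℝ) (Y : ℝ)
    (F : (Fin T → Bool) → Finset (Lp T Λ) → ℝ) : BM ex ey p b Y (fun ξ l => F ξ l.toFinset) =
      ∑ ξ, Pw p ξ * ∑ C ∈ (L ex ey ξ).powerset, bw (ub (bs b Y)) (L ex ey ξ) C * F ξ C :=
  sum_congr rfl fun ξ _ => by
    rw [(LD b Y).m_set0 fun g hg => wd_ne hg]
    simp only [LD_w]; rfl

/-- marked loops as thinned births in the child model. -/
theorem mkE_eq (hp : ∀ s, 0 ≤ p s ∧ p s ≤ 1) {x : Finset (Lp T Λ)} (hx : qq ex ey p x ≠ 0)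
    {D μ : Lp T Λ → ℝ} (hD : ∀ ξ, x ⊆ L ex ey ξ → ∀ g ∈ L ex ey ξ, g ∉ x →
      D g = ub (bs b Y) g * μ g) (f : Finset (Lp T Λ) → ℝ) :
    mkE (Pw p) (L ex ey) D x f = BM ex ey (pin ex ey p x) (kill b (pts x)) Y
      fun _ l => ∑ B ∈ l.toFinset.powerset, bw μ l.toFinset B * f B := by
  rw [BM_set _ _ _ fun _ C => ∑ B ∈ C.powerset, bw μ C B * f B, mkE,
    div_eq_iff (show qP (Pw p) (L ex ey) x ≠ 0 from hx), mul_comm]
  refine Eq.trans (sum_congr rfl fun ξ _ => ?_) (sum_cond hp x (F := fun ξ =>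
    ∑ B ∈ (L ex ey ξ \ x).powerset, bw D (L ex ey ξ \ x) B * f B) fun ξ hA => ?_)
  · split_ifs <;> simp
  · rw [bs_kill, bw_sdiff _ x fun g hg => ub_kill_mem hA hg _]
    exact bw_thin _ (fun g hg => by
      rw [ub_kill_notMem hA (mem_sdiff.1 hg).1 (mem_sdiff.1 hg).2,
        hD ξ hA g (mem_sdiff.1 hg).1 (mem_sdiff.1 hg).2]) f

/-- increasing functions of the marked loops are dominated by the births. -/
theorem mkE_le (hp : ∀ s, 0 ≤ p s ∧ p s ≤ 1) (hb : ∀ v, 0 ≤ b v ∧ b v ≤ 1) (h0 : 0 ≤ Y)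
    (h1 : Y ≤ 1) {x : Finset (Lp T Λ)} (hx : qq ex ey p x ≠ 0) {D : Lp T Λ → ℝ}
    (hD : ∀ g, 0 ≤ D g ∧ D g ≤ ub (bs b Y) g) {f : Finset (Lp T Λ) → ℝ}
    (hf : ∀ B C, B ⊆ C → f B ≤ f C) :
    mkE (Pw p) (L ex ey) D x f ≤
      BM ex ey (pin ex ey p x) (kill b (pts x)) Y fun _ l => f l.toFinset := by
  rw [mkE_eq (b := b) (Y := Y) hp hx (μ := fun g => D g / ub (bs b Y) g) fun ξ _ g _ _ => by
    by_cases k : ub (bs b Y) g = 0
    · rw [k, zero_mul]; exact le_antisymm (k ▸ (hD g).2) (hD g).1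
    · rw [mul_div_cancel₀ _ k]]
  refine Dat.MM_mono (LD_ok (kill_mem hb _) h0 h1) (Pw_nonneg (pin_mem hp x)) fun ξ l _ _ => ?_
  refine (sum_le_sum fun B hB => mul_le_mul_of_nonneg_left (hf B _ (mem_powerset.1 hB))
    (bw_nn (mem_powerset.1 hB) fun g _ => ⟨div_nonneg (hD g).1 ((hD g).1.trans (hD g).2),
      div_le_one_of_le₀ (hD g).2 ((hD g).1.trans (hD g).2)⟩)).trans ?_
  rw [← sum_mul, sum_bw, one_mul]

/-- alive point sets. -/
theorem BM_aliv (p : Fin T → ℝ) (b : Fin T × Λ → ℝ) (Y : ℝ)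
    (F : (Fin T → Bool) → Finset (Fin T × Λ) → ℝ) :
    BM ex ey p b Y (fun ξ l => F ξ (pts l.toFinset)) =
      ∑ ξ, Pw p ξ * ∑ D, Arc.aliv ex ey (bs b Y) ξ D * F ξ (Arc.on D) := by
  classical
  rw [BM_set _ _ _ fun ξ C => F ξ (pts C)]
  refine sum_congr rfl fun ξ _ => congrArg _ ?_
  rw [← sum_subset (subset_univ (univ.filter fun D : Fin T × Λ → Bool =>
    ∀ v, D (Sg ex ey ξ v) = D v)) fun D _ hD => by
      rw [Arc.aliv, if_neg (by simpa using hD), zero_mul]]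
  have hon : ∀ C : Finset (Lp T Λ), Arc.on (fun v => decide (v ∈ pts C)) = pts C := fun C => by
    ext v; simp [Arc.mem_on]
  have hcl : ∀ {D : Fin T × Λ → Bool}, (∀ v, D (Sg ex ey ξ v) = D v) → ∀ {u v},
      u ∈ (lp ex ey ξ v).2 → D u = D v := fun {D} h {u v} huv => by
    rw [lp_snd, obv, ob_eq] at huv
    obtain ⟨i, -, rfl⟩ := mem_image.1 huv
    exact Arc.inv_it h i v
  refine sum_nbij' (fun C v => decide (v ∈ pts C)) (fun D => (Arc.on D).image (lp ex ey ξ))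
    ?_ ?_ ?_ ?_ ?_
  · intro C hC
    refine mem_filter.2 ⟨mem_univ _, fun v => decide_eq_decide.2 ?_⟩
    simp only [mem_pts]
    refine exists_congr fun g => and_congr_right fun hg => ?_
    obtain ⟨u, rfl⟩ := mem_L.1 (mem_powerset.1 hC hg)
    simp only [lp_snd, mem_obv, o_apply]
  · intro D _
    exact mem_powerset.2 (image_subset_iff.2 fun v _ => lp_mem_L ξ v)
  · intro C hC
    rw [hon]; ext g
    simp only [mem_image, mem_pts]
    refine ⟨?_, fun hg => ?_⟩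
    · rintro ⟨v, ⟨g', h1, h2⟩, rfl⟩
      exact eq_lp (mem_powerset.1 hC h1) h2 ▸ h1
    · obtain ⟨v, hv⟩ := L_nonempty (mem_powerset.1 hC hg)
      exact ⟨v, ⟨g, hg, hv⟩, (eq_lp (mem_powerset.1 hC hg) hv).symm⟩
  · intro D hD
    funext v
    rw [Bool.eq_iff_iff, decide_eq_true_iff, mem_pts]
    refine ⟨?_, fun h => ⟨_, mem_image_of_mem _ (Arc.mem_on.2 h), self_mem_obv ξ v⟩⟩
    rintro ⟨g, h1, h2⟩
    obtain ⟨u, hu, rfl⟩ := mem_image.1 h1
    rw [hcl (mem_filter.1 hD).2 h2]; exact Arc.mem_on.1 hu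
  · intro C hC
    have hC' := mem_powerset.1 hC
    rw [hon, Arc.aliv, if_pos, hon, bw, prod_kill hC' subset_rfl, prod_L]
    · simp only [ub_lp]
      congr 2
      rw [zd, ← prod_filter, show (univ.filter fun v => decide (v ∈ pts C) = true) = pts C by
        ext v; simp, pts, prod_biUnion fun g hg g' hg' hne => disjoint_left.2 fun v h h' =>
          hne (L_eq (hC' hg) (hC' hg') h h')]
      rfl
    · intro v
      refine decide_eq_decide.2 ?_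
      simp only [mem_pts]
      refine exists_congr fun g => and_congr_right fun hg => ?_
      obtain ⟨u, rfl⟩ := mem_L.1 (hC' hg)
      simp only [lp_snd, mem_obv, o_apply]

end Crest.Agent.N337.Bi
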