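import Crest.Agent.N337.E.Step

/-!
# Row 337, ENG (helper30): the deterministic tree (`DetStmt`)
-/

set_option autoImplicit false
set_option linter.unusedSectionVars false

namespace Crest.Agent.N337.Tr

open Finset Crest.MathPhysics.SpinModel Sd Rg Free

variable {L : ℕ} [NeZero L] {α κ : Type} [SemilatticeSup α] [Preorder κ]
  {S : Sys (Tor 3 L) α κ} {G : Eg} {T n : ℕ} {Γ : Type} [DecidableEq Γ] {K : Cf L T n Γ}
  {g : ℕ → Γ} {nb : ℕ}

/-- a junk set covered by few balls near an isolated point gives a route datum.  `J ⊇ U m` may have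
further points, but within `kp m` only points that are not weakly isolated. -/
theorem Rt.of_iso (hO : Ok S G) {U : ℕ → Tor 3 L → Prop} {m : ℕ} (hm : m < G.mt) {x : V}
    (hx : S.Iso U m (tcast L x)) {J : Tor 3 L → Prop}
    (hJ : ∀ p, dist p x ≤ G.kp m → J (tcast L p) → U m (tcast L p) ∨ ¬ Is' S G U m (tcast L p))
    {F1 : Finset V} (c1 : F1.card ≤ G.N0 + 27 * S.a1)
    (h1 : ∀ p, G.kp m < dist p x → dist p x ≤ G.Rs m → J (tcast L p) →
      ∃ f ∈ F1, dist p f ≤ G.Sg m) : Rt S G m J x := by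
  classical
  obtain ⟨s, F, s1, s2, s3, s4, s5⟩ := hx
  simp only [hO.d] at s4 s5
  have hL1 : 1 ≤ Lm S G := by unfold Lm; omega
  have a1 : s ≤ Lm S G * s := Nat.le_mul_of_pos_left _ hL1
  have a2 : Lm S G * s ≤ G.Sg m := (Nat.mul_le_mul hO.Lm_le s2).trans (hO.Sg m).1
  refine ⟨(0, true), F.image (fun f => (lf x f, ((Lm S G * s : ℕ) : ℝ))) ∪
    (F1.filter fun f => (G.c : ℝ) * G.Sg m ≤ dist x f).image fun f => (f, (G.Sg m : ℝ)),
    (card_union_le _ _).trans (add_le_add (card_image_le.trans (s3.trans ?_))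
      (card_image_le.trans ((card_filter_le _ _).trans c1))), fun B hB => ?_, fun p hp h => .inr ?_⟩
  · have : S.N ≤ ar S * S.N := Nat.le_mul_of_pos_left _ (Nat.succ_pos _)
    omega
  · rcases mem_union.1 hB with h | h
    · obtain ⟨f, hf, rfl⟩ := mem_image.1 h
      refine ⟨Nat.cast_le.2 ((hO.σ_sep m).trans (s1.trans a1)),
        Nat.cast_le.2 (a2.trans (hO.Sg_W m)), ?_⟩
      have b1 := s5 f hf
      have b2 := Nat.mul_le_mul_right s hO.lam
      rw [dist_comm, dist_lf, tdist_comm]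
      have b3 : G.c * (Lm S G * s) ≤ tdist f (tcast L x) := by
        rw [add_mul, mul_assoc] at b2; omega
      exact (Nat.cast_mul _ _).ge.trans (Nat.cast_le.2 b3)
    · obtain ⟨f, hf, rfl⟩ := mem_image.1 h
      exact ⟨Nat.cast_le.2 ((hO.σ_sep m).trans (hO.sep_Sg m)), Nat.cast_le.2 (hO.Sg_W m),
        (mem_filter.1 hf).2⟩
  by_cases hk : dist p x ≤ G.kp m
  · have b1 : tdist (tcast L x) (tcast L p) ≤ G.kp m := tdist_le_of (by rwa [dist_comm])
    have : ∃ f ∈ F, tdist f (tcast L p) ≤ Lm S G * s := by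
      rcases hJ p hk hp with h | h
      · obtain ⟨f, hf, h⟩ := s4 _ h (by have := hO.H m; omega)
        exact ⟨f, hf, h.trans a1⟩
      · by_contra hn
        push Not at hn
        refine h ⟨s, F, s1, s2, s3, fun u hu h => s4 u hu ?_, hn⟩
        have := tdist_triangle (tcast L x) (tcast L p) u
        have := hO.H m
        omega
    obtain ⟨f, hf, h⟩ := this
    exact ⟨_, mem_union_left _ (mem_image_of_mem _ hf), dist_lf_le hk h (by
      have := hO.hL m hm; have := hO.Sg_ρ m; have := (hO.kp m).2; omega)⟩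
  · obtain ⟨f, hf, h⟩ := h1 p (not_le.1 hk) h hp
    refine ⟨_, mem_union_right _ (mem_image_of_mem _ (mem_filter.2 ⟨hf, ?_⟩)), h⟩
    have b1 : (((G.c + 1) * G.Sg m : ℕ) : ℝ) ≤ G.kp m := Nat.cast_le.2 (hO.kp m).1
    have b2 := dist_triangle p f x
    rw [dist_comm f x] at b2
    push_cast at b1
    linarith [not_le.1 hk]

lemma iso_clean (hO : Ok S G) {U : ℕ → Tor 3 L → Prop} {m : ℕ} {z p : V}
    (h : S.Iso U m (tcast L z)) (hp : U m (tcast L p)) : (G.σ m : ℝ) < dist p z := by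
  obtain ⟨s, F, s1, -, -, s4, s5⟩ := h
  simp only [hO.d] at s4 s5
  by_contra hn
  have a1 : tdist (tcast L z) (tcast L p) ≤ G.σ m := tdist_le_of (by rw [dist_comm]; linarith)
  have a2 := hO.σ_sep m
  obtain ⟨f, hf, h⟩ := s4 _ hp (by
    have := hO.sep_Sg m; have := (hO.kp m).1; have := hO.H m; rw [add_mul] at *; omega)
  have a3 := s5 f hf
  have a4 := tdist_triangle f (tcast L p) (tcast L z)
  have a5 := tdist_comm (tcast L z) (tcast L p)
  have a6 : 2 * s ≤ S.Lam * s := Nat.mul_le_mul_right _ (by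
    have := hO.Lm_le; unfold Lm at this; omega)
  omega

/-- **isolation at all levels gives tube data** (static junk `U`). -/
theorem TB.of_iso (hO : Ok S G) {U : ℕ → Tor 3 L → Prop} (hU : UC S G U)
    (top : ∀ y, ¬ U G.mt y) {lo : ℕ} {x : V}
    (h : ∀ l, lo ≤ l → l < G.mt → ∃ z, dist x z ≤ G.rr l ∧ S.Iso U l (tcast L z)) :
    TB S G lo U x := fun l h1 h2 => by
  obtain ⟨z, z1, z2⟩ := h l h1 h2
  have nf : ∀ m y, ¬ S.Fl U (fun _ => False) m y := fun m => by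
    induction m with
    | zero => exact fun _ h => h
    | succ m ih =>
      rintro y ⟨Y, h1, h2, -⟩
      obtain ⟨y, hy⟩ := card_pos.1 (by omega : 0 < Y.card)
      exact ih y (h2 y hy).2.2
  obtain ⟨-, F1, -, c1, -, c2⟩ := cover hO hU (Lf := fun _ => False) h2 (b := z) fun p hp hu => by
    have hu := hu.resolve_right (nf _ _)
    rcases (show l + 1 ≤ G.mt from h2).eq_or_lt with e | e
    · exact top _ (e ▸ hu)
    obtain ⟨z', a1, a2⟩ := h (l + 1) (by omega) e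
    have a3 := iso_clean hO a2 hu
    have a4 : ((4 * S.ρ (l + 1) + G.rr l + G.rr (l + 1) : ℕ) : ℝ) ≤ G.σ (l + 1) := Nat.cast_le.2 (by
      have := hO.A_σ (l + 1); have := (hO.A (l + 1)).2.1; have := hO.rrσ (l + 1)
      have := hO.rr l; omega)
    have a5 := dist_triangle4 p z x z'
    rw [dist_comm z x] at a5
    push_cast at a4 hp
    linarith
  exact ⟨z, z1, Rt.of_iso hO h2 z2 (fun _ _ hp => .inl hp) c1 fun p _ b1 hp => c2 p
    (b1.trans (Nat.cast_le.2 (by have := (hO.room l).2.1; omega))) (.inl hp)⟩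

/-! ### time -/

lemma St_mono {i j : ℕ} (h : i ≤ j) : St g i ⊆ St g j := image_subset_image (range_subset_range.2 h)

lemma Dyn.fl (h : Dyn S G K g nb) {i j m : ℕ} {y : Tor 3 L} (hij : i ≤ j)
    (hy : S.Fl K.U (K.Lf (St g i)) m y) : S.Fl K.U (K.Lf (St g j)) m y :=
  hy.mono (fun _ _ h => h) fun y => h.mono _ _ y (St_mono hij)

lemma Dyn.jc (h : Dyn S G K g nb) {i j : ℕ} (hij : i ≤ j) (l : ℕ) (y : Tor 3 L)
    (hy : Jc S K.U K.Lf (St g i) l y) : Jc S K.U K.Lf (St g j) l y := hy.imp_right (h.fl hij)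

lemma Dyn.fl0 (h : Dyn S G K g nb) (m : ℕ) (y : Tor 3 L) : ¬ S.Fl K.U (K.Lf (St g 0)) m y := by
  induction m generalizing y with
  | zero => exact h.zero y
  | succ m ih =>
    rintro ⟨Y, h1, h2, -⟩
    obtain ⟨y, hy⟩ := card_pos.1 (by omega : 0 < Y.card)
    exact ih y (h2 y hy).2.2

lemma Dyn.hit (hO : Ok S G) (h : Dyn S G K g nb) {i m : ℕ} (hi : i < nb) {y : Tor 3 L}
    (h1 : S.Fl K.U (K.Lf (St g (i + 1))) m y) (h2 : ¬ S.Fl K.U (K.Lf (St g i)) m y) :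
    ∃ v ∈ K.pts (g i), tdist y v.2.1 ≤ S.loc m := by
  induction m generalizing y with
  | zero => exact h.loc i hi y h1 h2
  | succ m ih =>
    obtain ⟨Y, a1, a2, a3⟩ := h1
    by_contra hn
    refine h2 ⟨Y, a1, fun y' hy => ⟨(a2 y' hy).1, (a2 y' hy).2.1, ?_⟩, a3⟩
    by_contra hf
    obtain ⟨v, hv, h⟩ := ih (a2 y' hy).2.2 hf
    refine hn ⟨v, hv, ?_⟩
    have := (a2 y' hy).1
    have := tdist_triangle y y' v.2.1
    rw [hO.d] at *
    simp only [Sys.loc]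
    omega

variable (S K g) in
/-- time of failure. -/
noncomputable def τ (m : ℕ) (p : V) : ℕ := sInf {i | S.Fl K.U (K.Lf (St g i)) m (tcast L p)}

lemma Dyn.τ_spec (h : Dyn S G K g nb) (m i : ℕ) (p : V)
    (hp : S.Fl K.U (K.Lf (St g i)) m (tcast L p)) : (1 ≤ τ S K g m p ∧ τ S K g m p ≤ i) ∧
      S.Fl K.U (K.Lf (St g (τ S K g m p))) m (tcast L p) ∧
      ¬ S.Fl K.U (K.Lf (St g (τ S K g m p - 1))) m (tcast L p) := by
  have a1 : S.Fl K.U (K.Lf (St g (τ S K g m p))) m (tcast L p) :=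
    Nat.sInf_mem (s := {i | S.Fl K.U (K.Lf (St g i)) m (tcast L p)}) ⟨i, hp⟩
  have a2 : 1 ≤ τ S K g m p := Nat.pos_of_ne_zero fun e => h.fl0 m _ (e ▸ a1)
  refine ⟨⟨a2, Nat.sInf_le hp⟩, a1, fun h' => ?_⟩
  have : τ S K g m p ≤ τ S K g m p - 1 := Nat.sInf_le h'
  omega

/-! ### terminals -/

variable {t hi : ℕ} {𝒮 : Finset (Term T n)}

lemma RR.empty {lo hi : ℕ} {J : ℕ → Tor 3 L → Prop} {x : V} (h : hi ≤ lo) : RR S G lo hi J x :=
  fun _ h1 h2 => absurd (lt_of_lt_of_le h2 h) (not_lt.2 h1)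

lemma Real.pr1 {u l : ℕ} {z : V} (h1 : K.Ev l z) (h2 : Fre G K.U (l - 1) z) :
    Real S G K g t hi {⟨u, l, .pr z⟩} := by
  refine ⟨fun u l x h => by simp at h, fun u l x h => by simp at h, fun u' l' z' h => ?_⟩
  simp only [mem_singleton, Term.mk.injEq, Dt.pr.injEq] at h
  obtain ⟨-, rfl, rfl⟩ := h
  exact ⟨h1, h2⟩

lemma Real.tgs {u l N : ℕ} {f : Fin N → Pv T n} {β : Fin N → ℕ} (h1 : ∀ j, β j < t)
    (h2 : ∀ j, pj L (f j) ∈ K.pts (g (β j))) (h3 : l ≠ 0 → ∀ j, Lng G K (l - 1) (g (β j)) (f j))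
    (h4 : l ≠ 0 → ∀ i j, pj L (f i) ∈ K.pts (g (β j)) → i = j) :
    Real S G K g t l (tgs T n u l f) := by
  refine ⟨fun u' l' x h => ?_, fun u l x h => ?_, fun u' l' z' h => ?_⟩
  · obtain ⟨j, e⟩ := mem_tgs.1 h
    simp only [Term.mk.injEq, Dt.tg.injEq] at e
    obtain ⟨rfl, rfl, rfl⟩ := e
    refine ⟨β j, h1 j, h2 j, RR.empty le_rfl, fun h => h3 h j, fun u' x' h hl _ hx => ?_,
      fun _ => .inr (RR.empty (le_max_left _ _))⟩
    obtain ⟨i, e⟩ := mem_tgs.1 h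
    simp only [Term.mk.injEq, Dt.tg.injEq] at e
    rw [e.1, h4 hl i j (e.2.2 ▸ hx)]
  · obtain ⟨j, e⟩ := mem_tgs.1 h
    simp at e
  · obtain ⟨j, e⟩ := mem_tgs.1 h
    simp at e

theorem leaf_term (h : Dyn S G K g nb) (ht : t ≤ nb) (k : ℕ) {s : V}
    (h1 : K.Lf (St g t) (tcast L s)) (h2 : Fre G K.U 0 s) :
    ∃ 𝒮 ∈ Tm S G T n 0 k s, Real S G K g t 0 𝒮 := by
  rcases h.leaf t ht s h1 with h3 | ⟨f, hf, h3⟩
  · exact ⟨_, mem_insert_self _ _, Real.pr1 h3 h2⟩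
  · choose β b1 b2 using h3
    exact ⟨_, mem_insert_of_mem (mem_image_of_mem _ hf),
      Real.tgs b1 b2 (fun h => absurd rfl h) fun h => absurd rfl h⟩

theorem chain_term (hO : Ok S G) (h : Dyn S G K g nb)
    (hd : ∀ i < nb, ∀ j < nb, i ≠ j → Disjoint (K.pts (g i)) (K.pts (g j))) (ht : t ≤ nb)
    (m k : ℕ) {b : V} {z : ℕ → V}
    (z1 : ∀ i ≤ G.Ns m * G.jl m, dist (z i) b ≤ (2 * S.ρ (m + 1) : ℕ) ∧
      S.Fl K.U (K.Lf (St g t)) m (tcast L (z i)) ∧ Fre G K.U m (z i))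
    (z2 : ∀ i < G.Ns m * G.jl m, τ S K g m (z (i + 1)) < τ S K g m (z i))
    (z3 : 2 * ∑ i ∈ range (G.Ns m * G.jl m), dist (z i) (z (i + 1)) ≤ G.σ m) :
    ∃ 𝒮 ∈ Tm S G T n (m + 1) k b, Real S G K g t (m + 1) 𝒮 := by
  classical
  set N := G.Ns m * G.jl m with hN
  by_cases hE : ∃ i ≤ N, K.Ev (m + 1) (z i)
  · obtain ⟨i, hi, hE⟩ := hE
    exact ⟨_, mem_biUnion.2 ⟨z i, mem_box.2 (z1 i hi).1, mem_insert_self _ _⟩,
      Real.pr1 hE (z1 i hi).2.2⟩
  push Not at hE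
  set β : ℕ → ℕ := fun i => τ S K g m (z i) - 1 with hβ
  have sp := fun i hi => h.τ_spec m t (z i) (z1 i hi).2.1
  have b1 : ∀ i ≤ N, β i < t := fun i hi => by have := (sp i hi).1; simp only [hβ]; omega
  have b2 : ∀ j ≤ N, ∀ i < j, β j < β i := fun j hj i hij => by
    have key : ∀ j ≤ N, ∀ i < j, τ S K g m (z j) < τ S K g m (z i) := fun j hj i hij => by
      induction j, hij using Nat.le_induction with
      | base => exact z2 i (by omega)
      | succ j hij ih => exact (z2 j (by omega)).trans (ih (by omega))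
    have := key j hj i hij
    have := (sp _ hj).1
    simp only [hβ]
    omega
  have b3 : ∀ i ≤ N, ∃ x ∈ gp T n G.D (z i) (G.lo m), pj L x ∈ K.pts (g (β i)) := fun i hi => by
    obtain ⟨⟨a1, a2⟩, a3, a4⟩ := sp i hi
    obtain ⟨v, hv, a5⟩ := h.hit hO (i := β i) (by have := b1 i hi; omega)
      (by simp only [hβ]; rwa [Nat.sub_add_cancel a1]) a4
    exact h.fast m _ (hE i hi) _ (by have := b1 i hi; omega) v hv a5
  have hne : Nonempty (Pv T n) := ⟨(b3 0 (Nat.zero_le _)).choose⟩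
  choose! x x1 x2 using b3
  have b4 : ∀ i ≤ N, ∀ j ≤ N, pj L (x i) ∈ K.pts (g (β j)) → i = j := fun i hi j hj hx => by
    by_contra hne
    have : β i ≠ β j := by
      rcases Nat.lt_or_gt_of_ne hne with e | e
      exacts [(b2 j hj i e).ne', (b2 i hi j e).ne]
    exact disjoint_left.1 (hd _ (by have := b1 i hi; omega) _ (by have := b1 j hj; omega) this)
      (x2 i hi) hx
  have hA : ((4 * G.A m : ℕ) : ℝ) ≤ G.σ m := Nat.cast_le.2 (hO.A_σ m)
  have hlo : (G.lo m : ℝ) ≤ G.A m := Nat.cast_le.2 (hO.A m).2.2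
  push_cast at hA
  have b5 : ∀ i ≤ N, x i ∈ gp T n G.D (z 0) (G.σ m) := fun i hi => by
    obtain ⟨a1, a2⟩ := mem_gp.1 (x1 i hi)
    have a3 : dist (z 0) (z i) ≤ ∑ i ∈ range N, dist (z i) (z (i + 1)) :=
      (dist_le_range_sum_dist z i).trans (sum_le_sum_of_subset_of_nonneg
        (range_subset_range.2 hi) fun _ _ _ => dist_nonneg)
    have a4 := dist_triangle (x i).2.1 (z i) (z 0)
    rw [dist_comm (z i)] at a4
    exact mem_gp.2 ⟨a1, by linarith [Nat.cast_nonneg (α := ℝ) (G.lo m)]⟩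
  have z0 := mem_box.2 (z1 0 (Nat.zero_le _)).1
  have blk : ∀ c < G.jl m, ∀ j < G.Ns m, c * G.Ns m + j < N := fun c hc j hj => by
    have := Nat.mul_le_mul_right (G.Ns m) (Nat.succ_le_of_lt hc)
    rw [Nat.succ_mul, mul_comm (G.jl m)] at this
    omega
  by_cases hl : ∀ c : Fin (G.jl m), ∃ j < G.Ns m,
      Lng G K m (g (β (c * G.Ns m + j))) (x (c * G.Ns m + j))
  · choose j j1 j2 using hl
    have a1 := fun c : Fin (G.jl m) => (blk c c.2 _ (j1 c)).le
    have a2 : ∀ c c' : Fin (G.jl m), c * G.Ns m + j c = c' * G.Ns m + j c' → c = c' :=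
      fun c c' e => Fin.ext (by rw [← div_code (k := c) (j1 c), e, div_code (j1 c')])
    refine ⟨_, mem_biUnion.2 ⟨z 0, z0, mem_insert_of_mem (mem_union_right _ (mem_image_of_mem _
      (a := fun c => x (c * G.Ns m + j c)) (mem_filter.2 ⟨Fintype.mem_piFinset.2 fun c =>
        b5 _ (a1 c), fun c c' e => a2 c c' (b4 _ (a1 c) _ (a1 c') ?_)⟩)))⟩,
      Real.tgs (β := fun c => β (c * G.Ns m + j c)) (fun c => b1 _ (a1 c)) (fun c => x2 _ (a1 c))
        (fun _ c => j2 c) fun _ c c' e => a2 c c' (b4 _ (a1 c) _ (a1 c') e)⟩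
    rw [show x (c * G.Ns m + j c) = x (c' * G.Ns m + j c') from e]
    exact x2 _ (a1 c')
  push Not at hl
  obtain ⟨c, hc⟩ := hl
  have hs := (hO.jl m).1
  have a1 : ∀ j : ℕ, c * G.Ns m + (G.Ns m - 1 - j) < N := fun j => blk c c.2 _ (by omega)
  refine ⟨_, mem_biUnion.2 ⟨z 0, z0, mem_insert_of_mem (mem_union_left _ (mem_image_of_mem _
    (a := fun j : Fin (G.Ns m) => x (c * G.Ns m + (G.Ns m - 1 - j))) (mem_filter.2
      ⟨Fintype.mem_piFinset.2 fun j => b5 _ (a1 j).le, ?_⟩)))⟩,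
    fun u l x h => by simp at h, fun u l xs h => ?_, fun u l x h => by simp at h⟩
  · rw [sum_comm]
    have a2 : ∀ j : Fin (G.Ns m), ∑ i : Fin (G.Ns m), (if j.val = i.val + 1 then
        dist (x (c * G.Ns m + (G.Ns m - 1 - i))).2.1 (x (c * G.Ns m + (G.Ns m - 1 - j))).2.1
          else 0) ≤ dist (z (c * G.Ns m + (G.Ns m - 1 - j)))
            (z (c * G.Ns m + (G.Ns m - 1 - j) + 1)) + 2 * G.A m := fun j => by
      by_cases hj : ∃ i : Fin (G.Ns m), j.val = i.val + 1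
      · obtain ⟨i, hi⟩ := hj
        rw [sum_eq_single i (fun i' _ hne => if_neg fun e => hne (Fin.ext (by omega))) (by simp),
          if_pos hi, show c * G.Ns m + (G.Ns m - 1 - j) + 1 = c * G.Ns m + (G.Ns m - 1 - i) by
            have := j.2; omega]
        have e1 := (mem_gp.1 (x1 _ (a1 i).le)).2
        have e2 := (mem_gp.1 (x1 _ (a1 j).le)).2
        have e3 := dist_triangle4 (x (c * G.Ns m + (G.Ns m - 1 - i))).2.1
          (z (c * G.Ns m + (G.Ns m - 1 - i))) (z (c * G.Ns m + (G.Ns m - 1 - j)))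
          (x (c * G.Ns m + (G.Ns m - 1 - j))).2.1
        rw [dist_comm (z _) (x _).2.1, dist_comm (z _) (z _)] at e3
        linarith
      · rw [sum_eq_zero fun i _ => if_neg fun e => hj ⟨i, e⟩]
        positivity
    refine (sum_le_sum fun j _ => a2 j).trans ?_
    rw [sum_add_distrib, sum_const, card_univ, Fintype.card_fin, nsmul_eq_mul,
      ← sum_image (s := univ) (g := fun j : Fin (G.Ns m) => c * G.Ns m + (G.Ns m - 1 - j))
        (f := fun i => dist (z i) (z (i + 1))) fun i _ j _ e => Fin.ext (by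
          have := i.2; have := j.2; simp only at e; omega)]
    have a3 := sum_le_sum_of_subset_of_nonneg (f := fun i => dist (z i) (z (i + 1)))
      (s := univ.image fun j : Fin (G.Ns m) => c * G.Ns m + (G.Ns m - 1 - j)) (t := range N)
      (fun i hi => by
        obtain ⟨j, -, rfl⟩ := mem_image.1 hi
        exact mem_range.2 (a1 j)) fun _ _ _ => dist_nonneg
    have a4 : ((4 * G.A m * G.Ns m : ℕ) : ℝ) ≤ G.σ m :=
      Nat.cast_le.2 (Nat.mul_le_mul_left _ (Nat.le_mul_of_pos_right _ (hO.jl m).2.1))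
    push_cast at a4
    linarith
  · simp only [mem_singleton, Term.mk.injEq, Dt.sc.injEq] at h
    obtain ⟨-, rfl, rfl⟩ := h
    refine ⟨fun j => β (c * G.Ns m + (G.Ns m - 1 - j)), fun i j hij => b2 _ (a1 i).le _ ?_,
      fun j => ⟨b1 _ (a1 j).le, ?_⟩⟩
    · have := j.2
      have : i.val < j.val := hij
      simp only [List.length_ofFn] at *
      omega
    · simp only [Fin.getElem_fin, List.getElem_ofFn, Nat.add_sub_cancel]
      exact ⟨x2 _ (a1 j).le, hc _ (by omega)⟩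

/-! ### nodes -/

lemma RR.succ {lo hi : ℕ} {J : ℕ → Tor 3 L → Prop} {x s : V} (h : RR S G lo hi J x)
    (h1 : dist x s ≤ G.rr hi) (h2 : Rt S G hi (J hi) s) : RR S G lo (hi + 1) J x := fun l a b => by
  rcases (Nat.lt_succ_iff.1 b).eq_or_lt with rfl | e
  exacts [⟨s, h1, h2⟩, h l a e]

/-- the route of the node itself, and its free tag. -/
theorem close (hO : Ok S G) (h : Dyn S G K g nb) {m k : ℕ} {s : V} (H : Shp G m k s 𝒮)
    (R : Real S G K g t m 𝒮) (hs : Rt S G m (Jc S K.U K.Lf (St g (t - 1)) m) s) :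
    ∃ 𝒯 ∈ Tg G T n m k, Real S G K g t (m + 1) (𝒯 ∪ 𝒮) := by
  classical
  obtain ⟨𝒯, h1, h2⟩ : ∃ 𝒯 ∈ Tg G T n m k, ∀ u l x, ⟨u, l, .tg x⟩ ∈ 𝒮 →
      pj L x ∈ K.pts (g (t - 1)) → (∀ u' l' x', ⟨u', l', .tg x'⟩ ∈ 𝒮 →
        pj L x' ∈ K.pts (g (t - 1)) → u ≤ u') → ⟨u, m, .fr⟩ ∈ 𝒯 := by
    by_cases e : ∃ u, ∃ l x, ⟨u, l, .tg x⟩ ∈ 𝒮 ∧ pj L x ∈ K.pts (g (t - 1))
    · obtain ⟨l0, x0, a1, a2⟩ := Nat.find_spec e
      refine ⟨{⟨Nat.find e, m, .fr⟩}, mem_insert_of_mem (mem_image.2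
        ⟨Nat.find e % G.Q ^ (m + 1), mem_range.2 (Nat.mod_lt _ (hO.Qpos _)), ?_⟩),
        fun u l x b1 b2 b3 => ?_⟩
      · have := (H.cd _ a1).1
        simp only at this
        rw [← this, Nat.div_add_mod']
      · rw [le_antisymm (b3 _ _ _ a1 a2) (Nat.find_min' e ⟨l, x, b1, b2⟩)]
        exact mem_singleton_self _
    · exact ⟨∅, mem_insert_self _ _, fun u l x b1 b2 _ => absurd ⟨u, l, x, b1, b2⟩ e⟩
  have key : ∀ t ∈ 𝒯 ∪ 𝒮, t.dt ≠ .fr → t ∈ 𝒮 := fun t ht hne =>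
    (mem_union.1 ht).resolve_left fun h' => hne (mem_Tg h1 h').2.2
  refine ⟨𝒯, h1, fun u l x hx => ?_, fun u l xs hx => R.sc u l xs (key _ hx (by simp)),
    fun u l xs hx => R.pr u l xs (key _ hx (by simp))⟩
  have hx := key _ hx (by simp)
  obtain ⟨i, i1, i2, i3, i4, i5, i6⟩ := R.tg u l x hx
  have hd := H.loc _ hx x.2.1 rfl
  refine ⟨i, i1, i2, i3.succ hd (hs.anti (h.jc (by omega) m)), i4,
    fun u' x' hx' => i5 u' x' (key _ hx' (by simp)), fun hf => ?_⟩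
  have hf' := fun u' l' x' hx' => hf u' l' x' (mem_union_right _ hx')
  rcases i6 hf' with ⟨l', a1, a2⟩ | a
  · exact .inl ⟨l', mem_union_right _ a1, a2⟩
  by_cases e : i + 1 < t
  · exact .inr (a.succ hd (hs.anti (h.jc (by omega) m)))
  obtain rfl : i = t - 1 := by omega
  by_cases e : K.lk (g (t - 1)) ≤ m
  · exact .inl ⟨m, mem_union_left _ (h2 u l x hx i2 hf'), e⟩
  · exact .inr (RR.empty (le_max_of_le_right (by omega)))

lemma Real.time {t' : ℕ} (R : Real S G K g t hi 𝒮) (h : t ≤ t') : Real S G K g t' hi 𝒮 :=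
  ⟨fun u l x hx => (R.tg u l x hx).imp fun _ a => ⟨lt_of_lt_of_le a.1 h, a.2⟩,
    fun u l x hx => (R.sc u l x hx).imp fun _ a =>
      ⟨a.1, fun j => ⟨lt_of_lt_of_le (a.2 j).1 h, (a.2 j).2⟩⟩, R.pr⟩

theorem Real.union {m : ℕ} {ι : Type} [Fintype ι] {s : ι → V} {c : ι → ℕ}
    (hc : Function.Injective c) {f : ι → Finset (Term T n)} (H : ∀ j, Shp G m (c j) (s j) (f j))
    (R : ∀ j, Real S G K g t hi (f j)) : Real S G K g t hi (univ.biUnion f) := by
  have mem : ∀ t ∈ univ.biUnion f, ∃ j, t ∈ f j := fun t ht => by simpa using ht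
  have mem' : ∀ j, ∀ t ∈ f j, t ∈ univ.biUnion f := fun j t ht => mem_biUnion.2 ⟨j, mem_univ _, ht⟩
  refine ⟨fun u l x hx => ?_, fun u l x hx => ?_, fun u l x hx => ?_⟩
  · obtain ⟨j, hj⟩ := mem _ hx
    obtain ⟨i, i1, i2, i3, i4, i5, i6⟩ := (R j).tg u l x hj
    refine ⟨i, i1, i2, i3, i4, fun u' x' hx' a1 a2 => ?_, fun hf =>
      (i6 fun u' l' x' hx' => hf u' l' x' (mem' j _ hx')).imp_left
        fun ⟨l', a1, a2⟩ => ⟨l', mem' j _ a1, a2⟩⟩
    obtain ⟨j', hj'⟩ := mem _ hx'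
    obtain rfl := Shp.same hc H hj' hj (Nat.succ_le_succ ((H j).cd _ hj).2) a2
    exact i5 u' x' hj' a1 a2
  · obtain ⟨j, hj⟩ := mem _ hx
    exact (R j).sc u l x hj
  · obtain ⟨j, hj⟩ := mem _ hx
    exact (R j).pr u l x hj

/-- **the tree below a seed.** -/
theorem node (hO : Ok S G) (h : Dyn S G K g nb)
    (hd : ∀ i < nb, ∀ j < nb, i ≠ j → Disjoint (K.pts (g i)) (K.pts (g j))) {m : ℕ}
    (hm : m < G.mt) (k : ℕ) {s : V} (ht : t ≤ nb)
    (h1 : S.Fl K.U (K.Lf (St g t)) m (tcast L s))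
    (h2 : Rt S G m (Jc S K.U K.Lf (St g (τ S K g m s - 1)) m) s) :
    ∃ 𝒮 ∈ Fam S G T n m k s, Real S G K g t (m + 1) 𝒮 := by
  classical
  induction m generalizing k s t with
  | zero =>
    obtain ⟨⟨-, a1⟩, a2, -⟩ := h.τ_spec 0 t s h1
    obtain ⟨𝒮, b1, b2⟩ := leaf_term h (a1.trans ht) k a2 fun p hp => h2.clean hO (.inl hp)
    obtain ⟨𝒯, c1, c2⟩ := close hO h (shp_Tm hO b1) b2 h2
    exact ⟨_, mem_image₂_of_mem c1 b1, c2.time a1⟩
  | succ m ih =>
    obtain ⟨⟨a0, a1⟩, ⟨Y, y1, y2, y3⟩, -⟩ := h.τ_spec (m + 1) t s h1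
    simp only [hO.d] at y2 y3
    have hA : ((5 * S.ρ (m + 1) : ℕ) : ℝ) ≤ G.A (m + 1) := Nat.cast_le.2 (hO.A (m + 1)).2.1
    rcases step hO h.uc (Lf := fun i => K.Lf (St g i))
      (fun i j y hij => h.mono _ _ y (St_mono hij)) (by omega : m < G.mt) (τ := τ S K g m)
      (fun i p hp => (h.τ_spec m i p hp).1) (b := s) (t := τ S K g (m + 1) s)
      (t' := τ S K g (m + 1) s - 1) (by omega) (fun p hp hJ => by
        have := h2.clean hO hJ
        push_cast at hA hp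
        linarith [Nat.cast_nonneg (α := ℝ) (S.ρ (m + 1))]) (Y := Y) y1.le
      (fun y hy => ⟨(y2 y hy).1, Is'.of hO (y2 y hy).2.1, (y2 y hy).2.2⟩) y3
      with ⟨z, z1, z2, z3⟩ | ⟨P, p1, p2, p3⟩
    · obtain ⟨𝒮, b1, b2⟩ := chain_term hO h hd (a1.trans ht) m k z1 z2 z3
      obtain ⟨𝒯, c1, c2⟩ := close hO h (shp_Tm hO b1) b2 h2
      exact ⟨_, mem_image₂_of_mem c1 (mem_union_left _ b1), c2.time a1⟩
    · set e := (P.equivFinOfCardEq (p1.trans y1 : P.card = ar S)).symm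
      have hs : (fun j => (e j : V)) ∈ Ps S G m s := mem_Ps.2 ⟨fun j => (p2 _ (e j).2).1,
        fun i j hij => p3 _ (e i).2 _ (e j).2 fun e' => hij (e.injective (Subtype.ext e'))⟩
      choose f f1 f2 using fun j : Fin (ar S) => ih (by omega) (k * G.Q + j.val) (a1.trans ht)
        (p2 _ (e j).2).2.1 (p2 _ (e j).2).2.2
      have hH := fun j => shp_Fam hO (f1 j)
      obtain ⟨𝒯, c1, c2⟩ := close hO h
        (Shp.union hO hO.Q1.1 (mem_Ps.1 hs).1 (mem_Ps.1 hs).2 hH)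
        (Real.union (fun i j e => Fin.ext (by simpa using e)) hH f2) h2
      exact ⟨_, mem_image₂_of_mem c1 (mem_union_right _ (mem_biUnion.2
        ⟨_, hs, mem_image_of_mem _ (Fintype.mem_piFinset.2 f1)⟩)), c2.time a1⟩

/-- the levels above the tree are clean in the final state. -/
lemma Real.top (h : Dyn S G K g nb) (R : Real S G K g nb hi 𝒮)
    (H : ∀ u l x, ⟨u, l, .tg x⟩ ∈ 𝒮 → TB S G hi (Jc S K.U K.Lf (St g nb)) x.2.1) :
    Real S G K g nb G.mt 𝒮 := by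
  refine ⟨fun u l x hx => ?_, R.sc, R.pr⟩
  obtain ⟨i, i1, i2, i3, i4, i5, i6⟩ := R.tg u l x hx
  have key : ∀ lo j, j ≤ nb → RR S G lo hi (Jc S K.U K.Lf (St g j)) x.2.1 →
      RR S G lo G.mt (Jc S K.U K.Lf (St g j)) x.2.1 := fun lo j hj a l' b1 b2 => by
    by_cases e : l' < hi
    · exact a l' b1 e
    · exact RR.anti (H u l x hx) (h.jc hj) l' (not_lt.1 e) b2
  exact ⟨i, i1, i2, key _ _ i1.le i3, i4, i5, fun hf => (i6 hf).imp_right (key _ _ i1)⟩

variable (S G K) in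
/-- **(Det)** -/
theorem det : DetStmt S G K := by
  classical
  intro g nb hO h hd m hm x hx h1
  set Fa : ℕ → Prop := fun l => m ≤ l ∧ l < G.mt ∧ ∃ y ∈ box x (G.kp l),
    S.Fl K.U (K.Lf (St g nb)) l (tcast L y) ∧ Is' S G K.U l (tcast L y) with hFa
  have hm' : Fa m := ⟨le_rfl, hm, x, mem_box.2 (by simp), h1, Is'.of hO (hx m le_rfl hm)⟩
  obtain ⟨l1, l2, y, y1, y2, y3⟩ := Nat.findGreatest_spec hm.le hm'
  set l := Nat.findGreatest Fa G.mt with hl
  have hJ : ∀ l', l < l' → l' < G.mt → ∀ p, dist p x ≤ G.kp l' →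
      Jc S K.U K.Lf (St g nb) l' (tcast L p) →
        K.U l' (tcast L p) ∨ ¬ Is' S G K.U l' (tcast L p) := fun l' a1 a2 p a3 a4 =>
    a4.imp_right fun a4 a5 => Nat.findGreatest_is_greatest a1 a2.le
      ⟨by omega, a2, p, mem_box.2 a3, a4, a5⟩
  have cl : ∀ l', l < l' → l' ≤ G.mt → ∀ p, dist p x ≤ (5 * S.ρ l' : ℕ) →
      ¬ Jc S K.U K.Lf (St g nb) l' (tcast L p) := fun l' a1 a2 p a3 a4 => by
    rcases a2.eq_or_lt with rfl | a2
    · exact h.top _ a4
    have b1 : ((5 * S.ρ l' : ℕ) : ℝ) ≤ G.A l' := Nat.cast_le.2 (hO.A l').2.1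
    have b2 : (G.A l' : ℝ) ≤ G.kp l' := Nat.cast_le.2 (by
      have := hO.A_σ l'; have := hO.σ_sep l'; have := hO.sep_Sg l'; have := (hO.kp l').1
      rw [add_mul] at this; omega)
    have := (Rt.of_iso hO a2 (hx l' (by omega) a2) (J := fun y => y = tcast L p)
      (fun q b3 b4 => by
        rw [b4]
        exact hJ l' a1 a2 p (by linarith) a4) (F1 := ∅) (by simp) fun q b3 b4 b5 => by
        exfalso
        have c1 : (G.Rs l' : ℝ) ≤ S.ρ (l' + 1) := Nat.cast_le.2 (hO.room l').2.1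
        have c2 : (G.kp l' : ℝ) ≤ S.ρ (l' + 1) := Nat.cast_le.2 (hO.kp l').2
        have c3 : ((20 * S.ρ (l' + 1) : ℕ) : ℝ) < L := Nat.cast_lt.2 (hO.hL l' a2)
        have c4 := dist_triangle q x p
        rw [dist_comm x p] at c4
        push_cast at c3
        have c5 := dist_le_tdist (L := L) (u := q) (v := p) (by linarith)
        rw [b5, tdist_self, Nat.cast_zero, dist_le_zero] at c5
        rw [c5] at b3
        linarith).clean hO (p := p) rfl
    linarith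
  have tb : ∀ v, dist v x ≤ G.rr (l + 1) → TB S G (l + 1) (Jc S K.U K.Lf (St g nb)) v :=
    fun v hv l' a1 a2 => by
      obtain ⟨-, F1, -, c1, -, c2⟩ := cover hO h.uc a2 (b := x) fun p hp =>
        cl (l' + 1) (by omega) a2 p (hp.trans (Nat.cast_le.2 (by omega)))
      exact ⟨x, hv.trans (Nat.cast_le.2 (hO.rr_mono a1)), Rt.of_iso hO a2 (hx l' (by omega) a2)
        (hJ l' a1 a2) c1 fun p _ b1 => c2 p (b1.trans (Nat.cast_le.2 (by
          have := (hO.room l').2.1; omega)))⟩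
  have hy := mem_box.1 y1
  have hr : ((G.rr l + 2 * S.ρ (l + 1) + G.kp l + G.σ l : ℕ) : ℝ) ≤ G.rr (l + 1) :=
    Nat.cast_le.2 (hO.rr l)
  have hk : (G.kp l : ℝ) ≤ S.ρ (l + 1) := Nat.cast_le.2 (hO.kp l).2
  push_cast at hr
  refine ⟨l, l1, l2, y, y1, ?_⟩
  rcases step hO h.uc (Lf := fun i => K.Lf (St g i))
    (fun i j y hij => h.mono _ _ y (St_mono hij)) l2 (τ := τ S K g l)
    (fun i p hp => (h.τ_spec l i p hp).1) (b := y) (t := nb) (t' := nb) (by omega)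
    (fun p hp => cl (l + 1) (by omega) l2 p (by
      have := dist_triangle p y x
      push_cast at hp ⊢
      linarith)) (Y := {tcast L y}) (by simp [ar])
    (fun y' hy' => by rw [mem_singleton.1 hy', tdist_self]; exact ⟨Nat.zero_le _, y3, y2⟩)
    (by simp) with ⟨z, z1, z2, z3⟩ | ⟨P, p1, p2, -⟩
  · obtain ⟨𝒮, b1, b2⟩ := chain_term hO h hd le_rfl l 0 z1 z2 z3
    refine ⟨𝒮, mem_union_left _ b1, b2.top h fun u l' v hv => tb _ ?_⟩
    obtain ⟨z', c1, c2⟩ := mem_biUnion.1 b1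
    rw [mem_box] at c1
    rcases mem_insert.1 c2 with rfl | c2
    · simp at hv
    rcases mem_union.1 c2 with c2 | c2 <;> obtain ⟨f, hf, rfl⟩ := mem_image.1 c2
    · simp at hv
    obtain ⟨j, e⟩ := mem_tgs.1 hv
    simp only [Term.mk.injEq, Dt.tg.injEq] at e
    have := (mem_gp.1 (Fintype.mem_piFinset.1 (mem_filter.1 hf).1 j)).2
    have := dist_triangle4 (f j).2.1 z' y x
    rw [e.2.2]
    push_cast at c1
    linarith [Nat.cast_nonneg (α := ℝ) (G.rr l)]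
  · obtain ⟨s, hs⟩ := card_pos.1 (by rw [p1]; simp : 0 < P.card)
    obtain ⟨c1, c2, c3⟩ := p2 s hs
    obtain ⟨𝒮, b1, b2⟩ := node hO h hd l2 0 le_rfl c2 c3
    refine ⟨𝒮, mem_union_right _ (mem_biUnion.2 ⟨s, mem_box.2 c1, b1⟩),
      b2.top h fun u l' v hv => tb _ ?_⟩
    have := (shp_Fam hO b1).loc _ hv v.2.1 rfl
    have := dist_triangle4 v.2.1 s y x
    push_cast at c1
    linarith [Nat.cast_nonneg (α := ℝ) (G.σ l)]

end Crest.Agent.N337.Tr
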