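import Crest.Agent.N337.E.TDefs
import Crest.Agent.N337.W.TP2
import Crest.Agent.N337.I.Defs

/-!
# Row 337, ENG (helper14): the analytic inputs and the numbers of the engine

`HT` = Green bounds from tube data, `HP` = product bound for the coin events, `Pz` = prices,
`Nm` = all numerical side conditions, `EngStmt` = the rarity of failing cells.
-/

set_option autoImplicit false
set_option linter.unusedSectionVars false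

namespace Crest.Agent.N337.En

open Finset Crest.MathPhysics.SpinModel Crest.Agent.N337.Rep Sd Rg Tr
open Crest.Agent.N337.Gas (Lp pts wd ub)

variable {L n T : ℕ} [NeZero L] [NeZero T] (ex ey : Fin T → Tor 3 L × Fin n)
  {α κ : Type} [SemilatticeSup α] [Preorder κ] (S : Sys (Tor 3 L) α κ) (G : Eg)

/-- prices and scales of the probabilistic part. -/
structure Pz where
  /-- number of grid slices -/
  B : ℕ
  /-- number of winding classes, their levels -/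
  J : ℕ
  lev : ℕ → ℕ
  /-- `G ≤ γ l` at distance `≥ dd l` with tube data from level `l`; `G - δ ≤ γ0` at lag `T` -/
  dd : ℕ → ℕ
  γ : ℕ → ℝ
  γ0 : ℝ
  /-- multipliers and weights of the targets of level `l` -/
  th : ℕ → ℝ
  aa : ℕ → ℝ
  /-- probabilities of the coin events -/
  η : ℕ → ℝ
  /-- cube roots of the prices of targets, tags, short chains, coin events -/
  wt : ℕ → ℝ
  wf : ℕ → ℝ
  ws : ℕ → ℝ
  wp : ℕ → ℝ
  /-- total weight of the skeletons of a node -/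
  φ : ℕ → ℝ

variable (P : Pz)

/-- **Green bounds from tube data** (`b` = the top field). -/
structure HT (p : Fin T → ℝ) (b : Fin T × (Tor 3 L × Fin n) → ℝ)
    (J : Finset (Lp T (Tor 3 L × Fin n)) → ℕ → Tor 3 L → Prop) : Prop where
  far : ∀ ξ C O l x v u, Pw p ξ ≠ 0 → C ⊆ Gas.L ex ey ξ → O ⊆ pts C → Arc.ends ex ey ξ O ≤ 1 →
    l ≤ G.mt → TB S G l (J C) x → v.2.1 = tcast L x → b v ≠ 0 → b u ≠ 0 →
    P.dd l ≤ tdist v.2.1 u.2.1 → WN.Gc ex ey p b O ξ v u ≤ P.γ l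
  lag : ∀ ξ C x v u, Pw p ξ ≠ 0 → C ⊆ Gas.L ex ey ξ → TB S G 0 (J C) x → v.2.1 = tcast L x →
    v.1 = u.1 → WN.Gc ex ey p b (pts C) ξ v u - (if v = u then 1 else 0) ≤ P.γ0

open Classical in
/-- **product bound for the coin events.** -/
def HP (p : Fin T → ℝ) (U : ℕ → Tor 3 L → Prop) (Ev : (Fin T → Bool) → ℕ → V → Prop) : Prop :=
  ∀ I : Finset (ℕ × V), (∀ t ∈ I, t.1 ≤ G.mt ∧ Fre G U (t.1 - 1) t.2) →
    (∀ t ∈ I, ∀ t' ∈ I, t ≠ t' → G.σ t.1 < 4 * tdist (tcast L t.2) (tcast L t'.2)) →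
    ∑ ξ, Pw p ξ * (if ∀ t ∈ I, Ev ξ t.1 t.2 then 1 else 0) ≤ ∏ t ∈ I, P.η t.1

/-- volume of a box. -/
def vol (r : ℕ) : ℕ := (2 * r + 1) ^ 3

/-- one-point rate of a regular first target. -/
noncomputable def Pz.g1 (l : ℕ) : ℝ := if l = 0 then P.γ0 else 2 * P.γ l

/-- number of classes of level `≤ l`. -/
def Pz.nc (l : ℕ) : ℕ := ((range P.J).filter fun j => P.lev j ≤ l).card

/-- weight of the terminals of a node of level `m + 1`. -/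
noncomputable def tm (n m : ℕ) : ℝ := vol (2 * S.ρ (m + 1)) * (P.wp (m + 1) +
  P.B * n * vol (G.σ m) * (10 ^ 5 * P.B * n * (G.A m * G.jl m) ^ 3) ^ G.Ns m * P.ws (m + 1) +
  (P.B * n * vol (G.σ m) * P.wt (m + 1)) ^ G.jl m)

/-- **numerical side conditions.** -/
structure Nm (L n T : ℕ) : Prop where
  hn : 0 < n
  hL : ∀ m ≤ G.mt, 4 * G.rr m < L
  hB : (univ.filter fun s : Fin T => G.D ∣ s.val).card ≤ P.B
  lev : ∀ j, P.lev j ≤ G.mt ∧ (P.lev j ≠ 0 → n * (2 * P.dd (P.lev j)) ^ 3 < 2 ^ j)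
  dd : ∀ l, 1 ≤ P.dd l ∧ 4 * P.dd l ≤ G.σ l ∧ P.dd (l + 1) ≤ G.Rl l ∧ 4 * G.Rl l ≤ G.σ (l + 1)
  γ : ∀ l, 0 ≤ P.γ l ∧ P.γ l ≤ 1 / 2
  γ0 : 0 ≤ P.γ0 ∧ P.γ0 ≤ 1
  aa : 6 ≤ P.aa 0 ∧ Monotone P.aa
  th : 1 ≤ P.th 0 ∧ Monotone P.th ∧ ∀ l, P.th l * (6 / P.aa l) ^ (1 / 4 : ℝ) ≤ 1 / 2
  pair0 : P.aa 0 ^ 2 * P.γ0 ≤ (1 / (2 * G.Q)) ^ 4 ^ 2
  pair : ∀ l < G.mt, P.aa l ^ 2 * P.γ l ≤ (1 / (2 * G.Q)) ^ 4 ^ (l + 3)
  one : ∀ l ≤ G.mt, P.th l * ∑ j ∈ range P.J, (2 * P.g1 (max l (P.lev j))) ^ (1 / 8 : ℝ) ≤ 1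
  wt : ∀ l, 0 ≤ P.wt l ∧ Real.exp 32 ≤ P.th l * P.wt l ^ 3
  wf : ∀ l, 0 ≤ P.wf l ∧ P.th l * Real.exp (64 * P.nc l) ≤ P.wf l ^ 3
  ws : ∀ l, 0 ≤ P.ws l ∧ (1 + Real.log (n * vol (G.Rl l) : ℕ)) ^ G.Ns l ≤
    (G.Ns l).factorial * P.ws (l + 1) ^ 3
  wp : ∀ l, 0 ≤ P.wp l ∧ P.η l ≤ P.wp l ^ 3
  φ0 : (1 + G.Q * P.wf 0) * (P.wp 0 + P.B * (n * vol G.r0 * P.wt 0) ^ G.n1) ≤ P.φ 0
  φ1 : ∀ m, m + 1 < G.mt → (1 + G.Q ^ (m + 2) * P.wf (m + 1)) *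
    (tm S G P n m + (vol (2 * S.ρ (m + 1)) * P.φ m) ^ ar S) ≤ P.φ (m + 1)

/-- the data of the configuration `ξ`. -/
def cf (U : ℕ → Tor 3 L → Prop) (Lf : Finset (Lp T (Tor 3 L × Fin n)) → Tor 3 L → Prop)
    (Ev : (Fin T → Bool) → ℕ → V → Prop) (ξ : Fin T → Bool) : Cf L T n (Lp T (Tor 3 L × Fin n)) :=
  ⟨Prod.snd, fun g => P.lev (Nat.log 2 (wd g)), U, Lf, Ev ξ⟩

/-- the births as a sequence. -/
def sq {Γ : Type} [Inhabited Γ] (l : List Γ) (i : ℕ) : Γ := l.getD i default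

/-- everything the engine needs in the model `(p, b, Y)`. -/
structure Inp (p : Fin T → ℝ) (b : Fin T × (Tor 3 L × Fin n) → ℝ) (Y : ℝ)
    (U : ℕ → Tor 3 L → Prop) (Lf : Finset (Lp T (Tor 3 L × Fin n)) → Tor 3 L → Prop)
    (Ev : (Fin T → Bool) → ℕ → V → Prop) : Prop where
  hp : ∀ s, 0 ≤ p s ∧ p s ≤ 1
  hb : ∀ v, 0 ≤ b v ∧ b v ≤ 1
  hY : 0 < Y ∧ Y < 1
  ok : Tr.Ok S G
  nm : Nm S G P L n T
  hJ : ∀ g, ub b g ≠ 0 → wd g < 2 ^ P.J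
  ht : HT ex ey S G P p (Bi.bs b Y) (Jc S U Lf)
  pr : HP G P p U Ev
  dyn : ∀ ξ (l : List (Lp T (Tor 3 L × Fin n))), Pw p ξ ≠ 0 → l.Nodup →
    (∀ g ∈ l, g ∈ Gas.L ex ey ξ ∧ ub b g ≠ 0) → Dyn S G (cf P U Lf Ev ξ) (sq l) l.length

/-- the bound of the engine. -/
noncomputable def eps (n m : ℕ) : ℝ :=
  ∑ l ∈ Ico m G.mt, vol (G.kp l) * (tm S G P n l + vol (2 * S.ρ (l + 1)) * P.φ l)

open Classical in
/-- **ENG**: failing isolated cells are rare. -/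
def EngStmt : Prop :=
  ∀ p b Y U Lf Ev, Inp ex ey S G P p b Y U Lf Ev → ∀ m < G.mt, ∀ y : Tor 3 L,
    (∀ l, m ≤ l → l < G.mt → S.Iso U l y) →
    Bi.BM ex ey p b Y (fun _ l => if S.Fl U (Lf l.toFinset) m y then 1 else 0) ≤ eps S G P n m

end Crest.Agent.N337.En
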