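import Crest.Agent.N337.E.Shape
import Crest.Agent.N337.Rg.Step

/-!
# Row 337, ENG (helper30): charts, covers, and one step of the tree (free shell + seeds)
-/

set_option autoImplicit false
set_option linter.unusedSectionVars false

namespace Crest.Agent.N337.Tr

open Finset Crest.MathPhysics.SpinModel Sd Rg Free

/-! ### charts -/

section chart
variable {L : ℕ} [NeZero L]

/-- the lift of `y` next to `z`. -/
def lf (z : V) (y : Tor 3 L) : V := fun a => z a + (y a - tcast L z a).valMinAbs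

lemma tcast_lf (z : V) (y : Tor 3 L) : tcast L (lf z y) = y := by
  funext a
  simp [tcast, lf]

lemma dist_le_iff {u v : V} {r : ℕ} : dist u v ≤ r ↔ ∀ a, (u a - v a).natAbs ≤ r := by
  rw [dist_pi_le_iff (Nat.cast_nonneg r)]
  refine forall_congr' fun a => ?_
  rw [Int.dist_eq, ← Int.cast_sub, ← Int.cast_abs, ← Int.natCast_natAbs]
  exact_mod_cast Iff.rfl

lemma exists_nat (u v : V) : ∃ r : ℕ, dist u v = r := by
  obtain ⟨e, he⟩ := exists_hgt u v
  have : ∃ k : ℤ, dist u v = k := by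
    rw [← he]
    unfold hgt
    split_ifs
    · exact ⟨u e.1 - v e.1, by push_cast; ring⟩
    · exact ⟨-u e.1 + v e.1, by push_cast; ring⟩
  obtain ⟨k, hk⟩ := this
  have h0 : (0 : ℝ) ≤ k := hk ▸ dist_nonneg
  refine ⟨k.toNat, ?_⟩
  rw [hk]
  exact_mod_cast (Int.toNat_of_nonneg (by exact_mod_cast h0)).symm

lemma tdist_le_dist (u v : V) : (tdist (tcast L u) (tcast L v) : ℝ) ≤ dist u v := by
  obtain ⟨r, hr⟩ := exists_nat v u
  rw [dist_comm, hr, Nat.cast_le]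
  refine tdist_le_iff.2 fun a => le_trans ?_ (dist_le_iff.1 hr.le a)
  exact ZMod.natAbs_min_of_le_div_two L _ _ (by simp [tcast]) (ZMod.natAbs_valMinAbs_le _)

lemma dist_lf (z : V) (y : Tor 3 L) : dist (lf z y) z = tdist (tcast L z) y := by
  refine le_antisymm (dist_le_iff.2 fun a => ?_) ?_
  · simpa [lf] using le_tdist (tcast L z) y a
  · have := tdist_le_dist (L := L) z (lf z y)
    rwa [tcast_lf, dist_comm] at this

lemma dist_le_tdist {u v : V} (h : 2 * dist u v < L) :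
    dist u v ≤ tdist (tcast L u) (tcast L v) := by
  obtain ⟨r, hr⟩ := exists_nat v u
  have h2 : 2 * r < L := by
    rw [dist_comm, hr] at h
    exact_mod_cast h
  rw [dist_comm]
  refine dist_le_iff.2 fun a => le_trans (le_of_eq ?_) (le_tdist _ _ a)
  have h3 := dist_le_iff.1 hr.le a
  have : ((v a - u a : ℤ) : ZMod L).valMinAbs = v a - u a :=
    (ZMod.valMinAbs_spec _ _).2 ⟨rfl, by constructor <;> omega⟩
  rw [← this]
  simp [tcast]

/-- balls lift. -/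
lemma dist_lf_le {p z : V} {f : Tor 3 L} {R r : ℕ} (h1 : dist p z ≤ R)
    (h2 : tdist f (tcast L p) ≤ r) (h3 : 2 * (2 * R + r) < L) : dist p (lf z f) ≤ r := by
  have a1 := tdist_le_dist (L := L) z p
  have a2 : (tdist (tcast L z) f : ℝ) ≤ tdist (tcast L z) (tcast L p) + tdist f (tcast L p) := by
    rw [tdist_comm f]; exact_mod_cast tdist_triangle _ _ _
  have a3 : (tdist f (tcast L p) : ℝ) ≤ r := by exact_mod_cast h2
  have a4 := dist_triangle p z (lf z f)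
  have a5 : (2 * (2 * R + r) : ℝ) < L := by exact_mod_cast h3
  rw [dist_comm z (lf z f), dist_lf] at a4
  rw [dist_comm z p] at a1
  refine (dist_le_tdist (L := L) (by linarith)).trans ?_
  rwa [tcast_lf, tdist_comm]

lemma tdist_le_of {u v : V} {r : ℕ} (h : dist u v ≤ r) : tdist (tcast L u) (tcast L v) ≤ r := by
  exact_mod_cast (tdist_le_dist (L := L) u v).trans h

/-- 27 balls cover the triple ball. -/
lemma cover27 (b : V) (r : ℕ) : ∃ P : Finset V, P.card ≤ 27 ∧ (∀ c ∈ P, dist c b ≤ (2 * r : ℕ)) ∧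
    ∀ p, dist p b ≤ (3 * r : ℕ) → ∃ c ∈ P, dist c p ≤ r := by
  classical
  refine ⟨(box 0 1).image fun v a => b a + 2 * r * v a, card_image_le.trans (card_box 0 1).le,
    fun c hc => ?_, fun p hp => ?_⟩
  · obtain ⟨v, hv, rfl⟩ := mem_image.1 hc
    refine dist_le_iff.2 fun a => ?_
    have := dist_le_iff.1 (mem_box.1 hv) a
    have h : v a = -1 ∨ v a = 0 ∨ v a = 1 := by simp only [Pi.zero_apply] at this; omega
    rcases h with h | h | h <;> rw [h] <;> omega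
  · refine ⟨_, mem_image_of_mem _ (a := fun a => if p a - b a < -r then -1 else
      if r < p a - b a then 1 else 0) (mem_box.2 (dist_le_iff.2 fun a => ?_)),
      dist_le_iff.2 fun a => ?_⟩
    · simp only [Pi.zero_apply]
      split_ifs <;> simp
    · have := dist_le_iff.1 hp a
      beta_reduce
      split_ifs <;> omega

end chart

variable {L : ℕ} [NeZero L] {α κ : Type} [SemilatticeSup α] [Preorder κ]
  {S : Sys (Tor 3 L) α κ} {G : Eg}

/-! ### inequalities between the scales -/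

lemma one_le_Cm : 1 ≤ Cm S G := Nat.one_le_pow _ _ (by omega)

lemma Ok.A_σ (h : Ok S G) (m : ℕ) : 4 * G.A m ≤ G.σ m :=
  Nat.le_mul_of_pos_right _ (Nat.mul_pos (h.jl m).1 (h.jl m).2.1)

lemma Ok.σ_sep (h : Ok S G) (m : ℕ) : G.σ m ≤ S.sep m :=
  le_trans (Nat.le_mul_of_pos_left _ (by have := one_le_Cm (S := S) (G := G); omega)) (h.sep m)

lemma Ok.Lm_le (h : Ok S G) : Lm S G ≤ S.Lam := by
  have := h.lam
  have := Nat.mul_le_mul_right (Lm S G) h.c2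
  omega

lemma Ok.Sx_Sg (h : Ok S G) (m : ℕ) : S.Sx m ≤ G.Sg m :=
  le_trans (Nat.le_mul_of_pos_left _ (by have := h.lam; omega)) (h.Sg m).1

lemma Ok.sep_Sg (h : Ok S G) (m : ℕ) : S.sep m ≤ G.Sg m := (h.Sg m).2.trans (h.Sx_Sg m)

lemma Ok.Sg_W (h : Ok S G) (m : ℕ) : G.Sg m ≤ G.W m :=
  le_trans (le_trans (Nat.le_add_right _ _) (Nat.le_mul_of_pos_left _ one_le_Cm)) (h.W m)

lemma Ok.Sg_ρ (h : Ok S G) (m : ℕ) : G.Sg m ≤ S.ρ (m + 1) :=
  le_trans (le_trans (Nat.le_mul_of_pos_left _ (by omega)) (h.kp m).1) (h.kp m).2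

/-! ### routes -/

lemma Rt.anti {l : ℕ} {J J' : Tor 3 L → Prop} {s : V} (h : Rt S G l J s) (hJ : ∀ y, J' y → J y) :
    Rt S G l J' s := by
  obtain ⟨e, F, h1, h2, h3⟩ := h
  exact ⟨e, F, h1, h2, fun p hp => h3 p (hJ _ hp)⟩

lemma RR.anti {lo hi : ℕ} {J J' : ℕ → Tor 3 L → Prop} {x : V} (h : RR S G lo hi J x)
    (hJ : ∀ l y, J' l y → J l y) : RR S G lo hi J' x := fun l h1 h2 =>
  (h l h1 h2).imp fun _ hs => ⟨hs.1, hs.2.anti (hJ l)⟩

lemma RR.mono {lo lo' hi hi' : ℕ} {J : ℕ → Tor 3 L → Prop} {x : V} (h : RR S G lo hi J x)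
    (h1 : lo ≤ lo') (h2 : hi' ≤ hi) : RR S G lo' hi' J x := fun l a b =>
  h l (h1.trans a) (lt_of_lt_of_le b h2)

lemma Rt.clean (hO : Ok S G) {l : ℕ} {J : Tor 3 L → Prop} {s p : V} (h : Rt S G l J s)
    (hp : J (tcast L p)) : (G.A l : ℝ) < dist p s := by
  obtain ⟨e, F, -, h2, h3⟩ := h
  by_contra hn
  have a1 : (G.A l : ℝ) ≤ G.Rs l := by exact_mod_cast (hO.room l).2.2.1
  rcases h3 p hp (by linarith) with h | ⟨B, hB, h⟩
  · exact hn h.1
  · obtain ⟨b1, -, b2⟩ := h2 B hB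
    have a2 : ((4 * G.A l : ℕ) : ℝ) ≤ G.σ l := by exact_mod_cast hO.A_σ l
    have a3 : (1 : ℝ) ≤ G.A l := by exact_mod_cast (hO.A l).1
    have a4 : (2 : ℝ) ≤ G.c := by exact_mod_cast hO.c2
    have a5 := dist_triangle s p B.1
    rw [dist_comm s p] at a5
    push_cast at a2
    nlinarith

/-- weak isolation. -/
def Is' (S : Sys (Tor 3 L) α κ) (G : Eg) (U : ℕ → Tor 3 L → Prop) (m : ℕ) (y : Tor 3 L) : Prop :=
  ∃ (s : ℕ) (F : Finset (Tor 3 L)), S.sep m ≤ s ∧ s ≤ S.Sx m ∧ F.card ≤ S.N ∧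
    (∀ u, U m u → tdist y u ≤ Lm S G * G.Sg m → ∃ f ∈ F, tdist f u ≤ s) ∧
    ∀ f ∈ F, Lm S G * s < tdist f y

lemma Is'.of (hO : Ok S G) {U : ℕ → Tor 3 L → Prop} {m : ℕ} {y : Tor 3 L} (h : S.Iso U m y) :
    Is' S G U m y := by
  obtain ⟨s, F, h1, h2, h3, h4, h5⟩ := h
  simp only [hO.d] at h4 h5
  exact ⟨s, F, h1, h2, h3, fun u hu h => h4 u hu (by have := hO.H m; omega), fun f hf =>
    lt_of_le_of_lt (Nat.mul_le_mul_right _ hO.Lm_le) (h5 f hf)⟩

/-- below a clean cell the junk is covered. -/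
theorem cover (hO : Ok S G) {U : ℕ → Tor 3 L → Prop} (hU : UC S G U) {Lf : Tor 3 L → Prop} {m : ℕ}
    (hm : m < G.mt) {b : V} (hcl : ∀ p, dist p b ≤ (4 * S.ρ (m + 1) : ℕ) →
      ¬ (U (m + 1) (tcast L p) ∨ S.Fl U Lf (m + 1) (tcast L p))) :
    ∃ F0 F1 : Finset V, F0.card ≤ G.N0 ∧ F1.card ≤ G.N0 + 27 * S.a1 ∧
      (∀ p, dist p b ≤ (3 * S.ρ (m + 1) : ℕ) → U m (tcast L p) → ∃ f ∈ F0, dist p f ≤ G.Sg m) ∧
      ∀ p, dist p b ≤ (3 * S.ρ (m + 1) : ℕ) → U m (tcast L p) ∨ S.Fl U Lf m (tcast L p) →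
        ∃ f ∈ F1, dist p f ≤ G.Sg m := by
  classical
  obtain ⟨F, c1, h1⟩ := hU m hm (tcast L b) fun y hy hu => hcl (lf b y)
    (by rw [dist_lf]; exact_mod_cast hy) (.inl (by rwa [tcast_lf]))
  obtain ⟨P, c2, p1, p2⟩ := cover27 b (S.ρ (m + 1))
  have h2 : ∀ c ∈ P, ∃ F : Finset (Tor 3 L), F.card ≤ S.a1 ∧ ∀ y, S.Off F (S.sep m) y →
      ¬ (S.d (tcast L c) y ≤ S.ρ (m + 1) ∧ S.Iso U m y ∧ S.Fl U Lf m y) := fun c hc =>
    Sys.cover_of_not_sepd fun h => hcl c ((p1 c hc).trans (by exact_mod_cast (by omega))) (.inr h)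
  choose! Fc c3 h3 using h2
  have hL : 2 * (2 * (3 * S.ρ (m + 1)) + G.Sg m) < L := by
    have := hO.hL m hm; have := hO.Sg_ρ m; omega
  have k0 : ∀ p, dist p b ≤ (3 * S.ρ (m + 1) : ℕ) → U m (tcast L p) ∨ ¬ S.Iso U m (tcast L p) →
      ∃ f ∈ F.image (lf b), dist p f ≤ G.Sg m := fun p hp hu => by
    obtain ⟨f, hf, h⟩ := h1 _ (tdist_le_of (by rwa [dist_comm])) hu
    exact ⟨_, mem_image_of_mem _ hf, dist_lf_le hp h hL⟩
  refine ⟨F.image (lf b), F.image (lf b) ∪ (P.biUnion Fc).image (lf b), card_image_le.trans c1,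
    (card_union_le _ _).trans (add_le_add (card_image_le.trans c1) (card_image_le.trans
      ((card_biUnion_le_card_mul _ _ _ c3).trans (Nat.mul_le_mul_right _ c2)))),
    fun p hp hu => k0 p hp (.inl hu), fun p hp hu => ?_⟩
  by_cases hi : U m (tcast L p) ∨ ¬ S.Iso U m (tcast L p)
  · obtain ⟨f, hf, h⟩ := k0 p hp hi
    exact ⟨f, mem_union_left _ hf, h⟩
  · push Not at hi
    obtain ⟨c, hc, h⟩ := p2 p hp
    have := h3 c hc (tcast L p)
    by_cases ho : S.Off (Fc c) (S.sep m) (tcast L p)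
    · exact absurd ⟨by rw [hO.d]; exact tdist_le_of h, hi.2, hu.resolve_left hi.1⟩ (this ho)
    · simp only [Sys.Off, not_forall, not_lt, hO.d] at ho
      obtain ⟨f, hf, ho⟩ := ho
      exact ⟨_, mem_union_right _ (mem_image_of_mem _ (mem_biUnion.2 ⟨c, hc, hf⟩)),
        dist_lf_le hp (ho.trans (hO.sep_Sg m)) hL⟩

/-- a free shell. -/
lemma shell (F : Finset V) (b : V) (r w : ℝ) (hw : 0 ≤ w) {q : ℕ} (hq : F.card ≤ q) :
    ∃ j ≤ q, ∀ f ∈ F, r + j * w < dist f b → r + (j + 1) * w < dist f b := by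
  by_contra hn
  push Not at hn
  choose! f h1 h2 h3 using hn
  obtain ⟨i, hi, j, hj, hij, e⟩ := exists_ne_map_eq_of_card_lt_of_maps_to
    (s := range (q + 1)) (t := F) (f := f) (by rw [card_range]; omega)
    fun i hi => h1 i (Nat.lt_succ_iff.1 (mem_range.1 hi))
  wlog hlt : i < j generalizing i j
  · exact this j hj i hi hij.symm e.symm (by omega)
  have a1 := h3 i (Nat.lt_succ_iff.1 (mem_range.1 hi))
  have a2 := h2 j (Nat.lt_succ_iff.1 (mem_range.1 hj))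
  have a3 : (i : ℝ) + 1 ≤ j := by exact_mod_cast hlt
  rw [e] at a1
  nlinarith

/-- balls that are far from all targets cover the static junk. -/
theorem combine (hO : Ok S G) {U : ℕ → Tor 3 L → Prop} {m : ℕ} (hm : m < G.mt) {b : V}
    {F0 : Finset V} (c0 : F0.card ≤ G.N0)
    (h0 : ∀ p, dist p b ≤ (3 * S.ρ (m + 1) : ℕ) → U m (tcast L p) → ∃ f ∈ F0, dist p f ≤ G.Sg m)
    {Y : Finset (Tor 3 L)} (hc : Y.card ≤ ar S) (hY : ∀ y ∈ Y, Is' S G U m y) :
    ∃ F : Finset (V × ℝ), F.card ≤ G.N0 + ar S * S.N ∧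
      (∀ B ∈ F, (G.σ m : ℝ) ≤ B.2 ∧ B.2 ≤ G.Sg m ∧
        ∀ y ∈ Y, 4 * Cm S G * B.2 < dist (lf b y) B.1) ∧
      ∀ p, dist p b ≤ (3 * S.ρ (m + 1) : ℕ) → U m (tcast L p) → ∃ B ∈ F, dist p B.1 ≤ B.2 := by
  classical
  choose! s Fy s1 s2 s3 s4 s5 using hY
  set 𝓑 : Finset (V × ℝ) := F0.image (fun f => (f, (G.Sg m : ℝ))) ∪
    Y.biUnion fun y => (Fy y).image fun f => (lf b f, (s y : ℝ)) with h𝓑
  have hB : ∀ B ∈ 𝓑, (G.σ m : ℝ) ≤ B.2 ∧ B.2 ≤ G.Sg m := fun B hB => by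
    rcases mem_union.1 hB with h | h
    · obtain ⟨f, -, rfl⟩ := mem_image.1 h
      exact ⟨Nat.cast_le.2 ((hO.σ_sep m).trans (hO.sep_Sg m)), le_rfl⟩
    · obtain ⟨y, hy, h⟩ := mem_biUnion.1 h
      obtain ⟨f, -, rfl⟩ := mem_image.1 h
      exact ⟨Nat.cast_le.2 ((hO.σ_sep m).trans (s1 y hy)),
        Nat.cast_le.2 ((s2 y hy).trans (hO.Sx_Sg m))⟩
  refine ⟨𝓑.filter fun B => ∀ y ∈ Y, 4 * Cm S G * B.2 < dist (lf b y) B.1,
    (card_filter_le _ _).trans ((card_union_le _ _).trans (add_le_add (card_image_le.trans c0)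
      ((card_biUnion_le_card_mul _ _ _ fun y hy => card_image_le.trans (s3 y hy)).trans
        (Nat.mul_le_mul_right _ hc)))), fun B h => ?_, fun p hp hu => ?_⟩
  · exact ⟨(hB B (mem_filter.1 h).1).1, (hB B (mem_filter.1 h).1).2, (mem_filter.1 h).2⟩
  obtain ⟨B, h1, hmin⟩ := exists_min_image (𝓑.filter fun B => dist p B.1 ≤ B.2) Prod.snd (by
    obtain ⟨f, hf, h⟩ := h0 p hp hu
    exact ⟨_, mem_filter.2 ⟨mem_union_left _ (mem_image_of_mem _ hf), h⟩⟩)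
  obtain ⟨h1, h2⟩ := mem_filter.1 h1
  refine ⟨B, mem_filter.2 ⟨h1, fun y hy => ?_⟩, h2⟩
  have a0 : (Lm S G : ℝ) = 4 * Cm S G + 2 := by simp [Lm]
  have a1 := dist_triangle (lf b y) B.1 p
  have a2 := tdist_le_dist (L := L) (lf b y) p
  have a3 : (0 : ℝ) ≤ B.2 := le_trans (Nat.cast_nonneg _) (hB B h1).1
  have a4 : (0 : ℝ) ≤ Cm S G := Nat.cast_nonneg _
  rw [tcast_lf] at a2
  rw [dist_comm B.1 p] at a1
  by_cases hn : tdist y (tcast L p) ≤ Lm S G * G.Sg m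
  · obtain ⟨f, hf, h⟩ := s4 y hy _ hu hn
    have b1 : B.2 ≤ s y := hmin (lf b f, (s y : ℝ)) (mem_filter.2 ⟨mem_union_right _
      (mem_biUnion.2 ⟨y, hy, mem_image_of_mem _ hf⟩), dist_lf_le hp h (by
        have := hO.hL m hm; have := hO.Sg_ρ m; have := hO.Sx_Sg m; have := s2 y hy; omega)⟩)
    have b2 : Lm S G * s y < s y + tdist y (tcast L p) := by
      have := s5 y hy f hf
      have := tdist_triangle f (tcast L p) y
      have := tdist_comm y (tcast L p)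
      omega
    have b3 : (Lm S G : ℝ) * s y < s y + tdist y (tcast L p) := by exact_mod_cast b2
    nlinarith
  · have b3 : (Lm S G : ℝ) * G.Sg m < tdist y (tcast L p) := by exact_mod_cast not_le.1 hn
    nlinarith [(hB B h1).2]

/-- **one step**: `F i` = failing cells of level `m` at time `i`, `τ` = time of failure. -/
theorem step (hO : Ok S G) {U : ℕ → Tor 3 L → Prop} (hU : UC S G U) {Lf : ℕ → Tor 3 L → Prop}
    (hmono : ∀ i j y, i ≤ j → Lf i y → Lf j y) {m : ℕ} (hm : m < G.mt) {τ : V → ℕ}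
    (hτ : ∀ i p, S.Fl U (Lf i) m (tcast L p) → 1 ≤ τ p ∧ τ p ≤ i) {b : V} {t t' : ℕ}
    (ht : t ≤ t' + 1) (hcl : ∀ p, dist p b ≤ (4 * S.ρ (m + 1) : ℕ) →
      ¬ (U (m + 1) (tcast L p) ∨ S.Fl U (Lf t') (m + 1) (tcast L p)))
    {Y : Finset (Tor 3 L)} (hc : Y.card ≤ ar S)
    (hY : ∀ y ∈ Y, tdist (tcast L b) y ≤ S.ρ (m + 1) ∧ Is' S G U m y ∧ S.Fl U (Lf t) m y)
    (hs : ∀ y ∈ Y, ∀ y' ∈ Y, y ≠ y' → S.sep m < tdist y y') :
    (∃ z : ℕ → V, (∀ i ≤ G.Ns m * G.jl m, dist (z i) b ≤ (2 * S.ρ (m + 1) : ℕ) ∧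
        S.Fl U (Lf t) m (tcast L (z i)) ∧ Fre G U m (z i)) ∧
        (∀ i < G.Ns m * G.jl m, τ (z (i + 1)) < τ (z i)) ∧
        2 * ∑ i ∈ range (G.Ns m * G.jl m), dist (z i) (z (i + 1)) ≤ G.σ m) ∨
      ∃ T : Finset V, T.card = Y.card ∧ (∀ s ∈ T, dist s b ≤ (2 * S.ρ (m + 1) : ℕ) ∧
        S.Fl U (Lf t) m (tcast L s) ∧
          Rt S G m (fun y => U m y ∨ S.Fl U (Lf (τ s - 1)) m y) s) ∧
        ∀ s ∈ T, ∀ s' ∈ T, s ≠ s' → (G.σ m : ℝ) / 2 < dist s s' := by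
  classical
  have fm : ∀ i j y, i ≤ j → S.Fl U (Lf i) m y → S.Fl U (Lf j) m y := fun i j y h hy =>
    hy.mono (fun _ _ h => h) fun y => hmono i j y h
  obtain ⟨F0, F1, c0, c1, h0, h1⟩ := cover hO hU hm hcl
  obtain ⟨F, cF, f1, f2⟩ := combine hO hm c0 h0 hc fun y hy => (hY y hy).2.1
  obtain ⟨j, hj, hsh⟩ := shell F1 b (S.ρ (m + 1)) ((G.c + 1) * G.Sg m) (by positivity) c1
  set R : ℕ := S.ρ (m + 1) + j * ((G.c + 1) * G.Sg m) + G.Sg m with hR
  have hR2 : R ≤ 2 * S.ρ (m + 1) := by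
    have a1 := (hO.room m).1
    have a2 := Nat.mul_le_mul_right ((G.c + 1) * G.Sg m) hj
    have a3 : G.Sg m ≤ (G.c + 1) * G.Sg m := Nat.le_mul_of_pos_left _ (by omega)
    rw [add_mul, one_mul] at a1
    omega
  have hR2' : (R : ℝ) ≤ (2 * S.ρ (m + 1) : ℕ) := by exact_mod_cast hR2
  have hR3 : ∀ p s, dist s b ≤ R → dist p s ≤ G.Rs m → dist p b ≤ (3 * S.ρ (m + 1) : ℕ) :=
    fun p s a1 a2 => by
      have a3 : (G.Rs m : ℝ) ≤ S.ρ (m + 1) := by exact_mod_cast (hO.room m).2.1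
      have := dist_triangle p s b
      push_cast at hR2' ⊢
      linarith
  have outer : ∀ p s, dist s b ≤ R → R < dist p b → dist p s ≤ G.Rs m →
      U m (tcast L p) ∨ S.Fl U (Lf t') m (tcast L p) →
      ∃ f ∈ F1, dist p f ≤ G.Sg m ∧ (G.c : ℝ) * G.Sg m ≤ dist s f := fun p s a1 a2 a3 a4 => by
    obtain ⟨f, hf, h⟩ := h1 p (hR3 p s a1 a3) a4
    have b1 := dist_triangle p f b
    have b2 := dist_triangle f s b
    rw [hR] at a1 a2
    push_cast at a1 a2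
    have := hsh f hf (by linarith)
    rw [dist_comm f s] at b2
    exact ⟨f, hf, h, by linarith⟩
  have hA : ((4 * G.A m : ℕ) : ℝ) ≤ G.σ m := by exact_mod_cast hO.A_σ m
  have hA1 : (1 : ℝ) ≤ G.A m := by exact_mod_cast (hO.A m).1
  have hσS : (G.σ m : ℝ) ≤ G.Sg m := by exact_mod_cast (hO.σ_sep m).trans (hO.sep_Sg m)
  have hc2 : (2 : ℝ) ≤ G.c := by exact_mod_cast hO.c2
  have hσ : (G.σ m : ℝ) = 4 * G.A m * (G.Ns m * G.jl m : ℕ) := by simp [Eg.σ]
  have hC : (2 * (G.c : ℝ) + 4) ^ (G.N0 + ar S * S.N + (ar S - Y.card) + Y.card) = Cm S G := by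
    rw [add_assoc, Nat.sub_add_cancel hc]; simp [Cm]
  have hinj : Function.Injective (lf (L := L) b) := fun y y' e => by
    rw [← tcast_lf b y, e, tcast_lf]
  push_cast at hA
  have hP : ∀ p, p ∈ (box b R).filter (fun p => S.Fl U (Lf t) m (tcast L p)) ↔
      dist p b ≤ R ∧ S.Fl U (Lf t) m (tcast L p) := fun p => by rw [mem_filter, mem_box]
  rcases seeds' (O := {p | dist p b ≤ R ∧ U m (tcast L p)})
    (P := (box b R).filter fun p => S.Fl U (Lf t) m (tcast L p)) (τ := τ) (A := G.A m)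
    (σ := G.σ m) (c := G.c) (S := G.Sg m) (N := G.Ns m * G.jl m)
    (q0 := G.N0 + ar S * S.N + (ar S - Y.card)) (a := Y.card) (F0 := F) (Y := Y.image (lf b))
    (by positivity) (by positivity) (by positivity) hσ.ge (by omega)
    (fun B hB => ⟨le_trans (Nat.cast_nonneg _) (f1 B hB).1, (f1 B hB).2.1⟩)
    (fun p hp => f2 p (hp.1.trans (by exact_mod_cast (by omega))) hp.2)
    (fun p hp => by
      obtain ⟨y, hy, rfl⟩ := mem_image.1 hp
      rw [hP, dist_lf, tcast_lf]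
      exact ⟨by exact_mod_cast (hY y hy).1.trans (by omega), (hY y hy).2.2⟩)
    (card_image_of_injective _ hinj).ge
    (fun p hp p' hp' hne => by
      obtain ⟨y, hy, rfl⟩ := mem_image.1 hp
      obtain ⟨y', hy', rfl⟩ := mem_image.1 hp'
      have a1 := tdist_le_dist (L := L) (lf b y) (lf b y')
      have a2 : ((4 * Cm S G * G.σ m : ℕ) : ℝ) < tdist y y' := by
        exact_mod_cast lt_of_le_of_lt (hO.sep m) (hs y hy y' hy' fun e => hne (by rw [e]))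
      rw [tcast_lf, tcast_lf] at a1
      rw [hC]
      push_cast at a2
      linarith)
    (fun p hp B hB => by
      obtain ⟨y, hy, rfl⟩ := mem_image.1 hp
      have a1 : (0 : ℝ) ≤ Cm S G := Nat.cast_nonneg _
      rw [hC]
      nlinarith [(f1 B hB).2.2 y hy, (f1 B hB).1])
    with ⟨z, ⟨z1, z2, z3⟩, z4⟩ | ⟨T, t1, t2, t3, t4⟩
  · refine .inl ⟨z, fun i hi => ?_, z2, by rw [hσ]; linarith⟩
    obtain ⟨a1, a2⟩ := (hP _).1 (z1 i hi).1
    refine ⟨a1.trans hR2', a2, fun p hp => ?_⟩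
    by_contra hn
    by_cases hb : dist p b ≤ R
    · have b1 := z4 p ⟨hb, hp⟩
      have b2 : dist (z 0) (z i) ≤ ∑ i ∈ range (G.Ns m * G.jl m), dist (z i) (z (i + 1)) :=
        (dist_le_range_sum_dist z i).trans (sum_le_sum_of_subset_of_nonneg
          (range_subset_range.2 hi) fun _ _ _ => dist_nonneg)
      have b3 := dist_triangle p (z i) (z 0)
      rw [dist_comm (z i)] at b3
      linarith
    · have b0 : (G.A m : ℝ) ≤ G.Rs m := by exact_mod_cast (hO.room m).2.2.1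
      obtain ⟨f, -, b1, b2⟩ := outer p (z i) a1 (not_le.1 hb) (by linarith) (.inl hp)
      have b3 := dist_triangle (z i) p f
      rw [dist_comm (z i) p] at b3
      nlinarith
  · refine .inr ⟨T, t2, fun s hs' => ?_, t4⟩
    obtain ⟨a1, a2⟩ := (hP _).1 (t1 hs')
    obtain ⟨⟨e, F', e1, e2, e3⟩, -⟩ := t3 s hs'
    obtain ⟨a3, a4⟩ := hτ t s a2
    have hW : (Cm S G : ℝ) * (G.Sg m + G.σ m) ≤ G.W m := by exact_mod_cast hO.W m
    rw [hC] at e2 e3
    refine ⟨a1.trans hR2', a2, e, F' ∪ (F1.filter fun f => (G.c : ℝ) * G.Sg m ≤ dist s f).image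
      fun f => (f, (G.Sg m : ℝ)), (card_union_le _ _).trans (add_le_add (by omega)
        (card_image_le.trans ((card_filter_le _ _).trans c1))), fun B hB => ?_, fun p hp h => ?_⟩
    · rcases mem_union.1 hB with h | h
      · exact ⟨(e2 B h).1, (e2 B h).2.1.trans hW, (e2 B h).2.2⟩
      · obtain ⟨f, hf, rfl⟩ := mem_image.1 h
        exact ⟨hσS, Nat.cast_le.2 (hO.Sg_W m), (mem_filter.1 hf).2⟩
    · by_cases hb : dist p b ≤ R
      · have : Old {p | dist p b ≤ R ∧ U m (tcast L p)}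
            ((box b R).filter fun p => S.Fl U (Lf t) m (tcast L p)) τ s p :=
          hp.imp (fun h => ⟨hb, h⟩) fun h => ⟨(hP _).2 ⟨hb, fm _ _ _ (by omega) h⟩,
            by have := (hτ _ p h).2; omega⟩
        rcases e3 p this with h | ⟨B, hB, h⟩
        · exact .inl ⟨h.1, h.2.1, h.2.2.trans (by gcongr)⟩
        · exact .inr ⟨B, mem_union_left _ hB, h⟩
      · obtain ⟨f, hf, b1, b2⟩ := outer p s a1 (not_le.1 hb) h
          (hp.imp_right (fm _ _ _ (by omega)))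
        exact .inr ⟨_, mem_union_right _ (mem_image_of_mem _ (mem_filter.2 ⟨hf, b2⟩)), b1⟩

end Crest.Agent.N337.Tr
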