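import Crest.Agent.N337.E.J3
import Crest.Agent.N337.E.Step
import Crest.Agent.N337.E.MDefs
import Crest.Agent.N337.C9.Ins

/-!
# Row 337, ENG leaves (helper86): the coin events of the engine

`Evt` = the events; `hp` = `En.HP`, `leaf`, `fast` = the fields of `Tr.Dyn`.
-/

set_option autoImplicit false
set_option linter.unusedSectionVars false

namespace Crest.Agent.N337.Wk

open Finset Equiv Crest.Agent.N337.Rep Crest.Agent.N337.Arc Free KV Geo I Tr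
open Crest.MathPhysics.SpinModel
open Crest.Agent.N337.Gas (pts ub)

variable {L n T : ℕ} [NeZero L] [NeZero T] (ex ey : Fin T → Tor 3 L × Fin n)

/-- numbers of the coin events: base leaf, free jumps and rates at the levels `m`. -/
structure Lv extends Lq where
  fm : ℕ → ℕ
  cm : ℕ → ℝ

/-- distance needed to pass the dirty balls of a scale `< m`. -/
def hx (P : I.Num) : ℕ → ℕ
  | 0 => 0
  | m + 1 => P.N * (2 * P.Sx m + 1) + hx P m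

/-- speed of the pins, displacement in one window, local radius at level `m`. -/
def Lv.v (N : Lv) (P : I.Num) (m : ℕ) : ℕ := 2 * N.t * P.j1 + P.lw N.t m + hx P m
def Lv.Wm (N : Lv) (P : I.Num) (x0 m : ℕ) : ℕ := (N.fm m + x0) * (N.v P m + 1) + N.v P m
def Lv.ρm (N : Lv) (P : I.Num) (x0 m lo : ℕ) : ℕ := lo + N.Wm P x0 m + 1

/-- **side conditions of the coin events** (`lo m` = range of the rung of scale `m`). -/
structure NmE (N : Lv) (P : I.Num) (G : Eg) (η : ℕ → ℝ) (lo : ℕ → ℕ) (p0 : Fin T → ℝ)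
    (d Es w B x0 : ℕ) (θ : ℝ) : Prop where
  n0 : Nm0 ex ey N.toLq P.toLf p0 Es w B x0 θ
  hG : 0 < G.mt ∧ G.D = P.D ∧ G.n1 ≤ N.m ∧ N.R P.toLf ≤ G.r0
  r0 : 2 * P.r0 + 1 ≤ G.A 0 ∧ 8 * N.ρ P.toLf ≤ G.σ 0
  ht : P.k0 + 27 + d ≤ N.t ∧ 2 * N.t * P.j1 ≤ P.r0
  hρ : ∀ m, (N.t + 1) * P.a * (2 * P.rad m N.t + 1) + 3 * N.t * P.H m ≤ P.ρ (m + 1)
  rm : ∀ m < G.mt, lo m + N.Wm P x0 m ≤ G.lo m ∧ N.ρm P x0 m (lo m) ≤ G.A m ∧
    8 * N.ρm P x0 m (lo m) ≤ G.σ (m + 1)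
  cm : ∀ m < G.mt, 7 * (θ * (2 * N.v P m + 1) ^ 3) ≤ 1 ∧
    7 * (θ * (2 * N.v P m + 1) ^ 3) * (w + x0) ≤ N.cm m
  η0 : 0 ≤ N.Γ ∧ (B * (n * (2 * N.ρ P.toLf + 1) ^ 3) : ℕ) * Real.exp (N.c - N.f) +
    (B * ((P.r0 + 1) * (N.m * (n * (2 * N.R P.toLf + 1) ^ 3 + 1) ^ N.m *
      (n * (2 * N.R P.toLf + 1) ^ 3))) : ℕ) * ((N.τ * 2 ^ (P.l / N.τ + 1) : ℕ) * (2 * N.Γ ^ N.k)) ≤ η 0
  ηm : ∀ m < G.mt, (B * (n * (2 * N.ρm P x0 m (lo m) + 1) ^ 3) : ℕ) * Real.exp (N.cm m - N.fm m) ≤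
    η (m + 1)

variable (N : Lv) (P : I.Num) (G : Eg) (lo : ℕ → ℕ) (p p0 : Fin T → ℝ) (E : Ev L n T)
  (Z : Finset (Tor 3 L)) (B x0 : ℕ)

/-- the events on the torus and their radii. -/
def Ev1 (ξ : Fin T → Bool) : ℕ → Tor 3 L → Prop
  | 0, x => Ev0 ex ey N.toLq P.toLf p p0 E Z B x ξ
  | m + 1, x => FE ex ey p0 (Fr ex ey E) (loc ex ey Z x (N.ρm P x0 m (lo m))) B P.D
      (N.ρm P x0 m (lo m)) (N.cm m) (N.fm m) x ξ

def rad : ℕ → ℕ
  | 0 => N.ρ P.toLf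
  | m + 1 => N.ρm P x0 m (lo m)

/-- **the coin events of the engine.** -/
def Evt (U : ℕ → Tor 3 L → Prop) (ξ : Fin T → Bool) (l : ℕ) (z : Sd.V) : Prop :=
  l ≤ G.mt → Fre G U (l - 1) z → Ev1 ex ey N P lo p p0 E Z B x0 ξ l (tcast L z)

variable {ex ey N P G lo p p0 E Z B x0} {η : ℕ → ℝ} {d Es w : ℕ} {θ : ℝ} {X0 : Finset (V L n T)}
  {U : ℕ → Tor 3 L → Prop} {ξ ξ' : Fin T → Bool} {z0 x : Tor 3 L} {b : V L n T → ℝ}

lemma loc_sub (ρ : ℕ) : loc ex ey Z x ρ ⊆ nr ex x ρ := fun _ h =>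
  mem_filter.2 ⟨mem_univ _, (mem_loc.1 h).1.1⟩

lemma Ev1_congr (l : ℕ) (h : ∀ s ∈ nr ex x (rad N P lo x0 l), ξ' s = ξ s) :
    Ev1 ex ey N P lo p p0 E Z B x0 ξ' l x ↔ Ev1 ex ey N P lo p p0 E Z B x0 ξ l x := by
  cases l with
  | zero =>
    simp only [rad] at h
    simp only [Ev1, Ev0, FE, RE, lc_congr (loc_sub _) h, lc_congr Subset.rfl h]
  | succ m =>
    simp only [rad] at h
    simp only [Ev1, FE, lc_congr (loc_sub _) h]

lemma pr_Ev1 (M : Md ex ey P.toLf p p0 E X0 Es w B x0 θ)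
    (H : NmE ex ey N P G η lo p0 d Es w B x0 θ) {l : ℕ} (hl : l ≤ G.mt) (x : Tor 3 L) :
    Pe p (fun ξ => Ev1 ex ey N P lo p p0 E Z B x0 ξ l x) ≤ η l := by
  have k := fun ρ c f => pr_FE (ex := ex) (ey := ey) (B := B) (A := loc ex ey Z x ρ) (ρ := ρ) (c := c)
    (f := f) (x := x) M.hp (fun s => (M.word.hp s).1) (fun s _ h => (M.fr s h).le) M.DT.2
  cases l with
  | zero => exact ((Pe_or M.hp _ _).trans (add_le_add (k _ _ _)
      (pr_RE M.hp _ _ _ _ _ _ _ _ _ H.η0.1 x))).trans H.η0.2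
  | succ m => exact (k _ _ _).trans (H.ηm m hl)

/-- **product bound.** -/
theorem hp (M : Md ex ey P.toLf p p0 E X0 Es w B x0 θ) {Pz : En.Pz}
    (H : NmE ex ey N P G Pz.η lo p0 d Es w B x0 θ) :
    En.HP G Pz p U (Evt ex ey N P G lo p p0 E Z B x0 U) := by
  classical
  intro I h1 h2
  have hr : ∀ l ≤ G.mt, 8 * rad N P lo x0 l ≤ G.σ l := fun l hl => by
    cases l with
    | zero => exact H.r0.2
    | succ m => exact (H.rm m hl).2.2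
  have := Top.Kill.indep_prod (I := I) (pr_pb M.hp) (fun t => nr ex (tcast L t.1.2)
    (rad N P lo x0 t.1.1)) (fun t t' s a a' => ?_) (f := fun t ξ =>
      if Ev1 ex ey N P lo p p0 E Z B x0 ξ t.1.1 (tcast L t.1.2) then 1 else 0)
    (fun t ξ ξ' h => by simp only [Ev1_congr _ h]) univ
  · rw [← prod_attach I]
    refine le_trans ((pr_pb M.hp).ex_mono fun ξ => ?_) (this.le.trans (prod_le_prod
      (fun t _ => Pe_nonneg M.hp _) fun t _ => pr_Ev1 M H (h1 _ t.2).1 _))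
    split_ifs with h
    · exact (prod_eq_one fun t _ => if_pos (h _ t.2 (h1 _ t.2).1 (h1 _ t.2).2)).ge
    · exact prod_nonneg fun _ _ => by split_ifs <;> norm_num
  by_contra hne
  have e : t.1 ≠ t'.1 := fun e => hne (Subtype.ext e)
  have a1 := h2 _ t.2 _ t'.2 e
  have a2 := h2 _ t'.2 _ t.2 e.symm
  have a3 := hr _ (h1 _ t.2).1
  have a4 := hr _ (h1 _ t'.2).1
  have a5 := (mem_filter.1 a).2
  have a6 := (mem_filter.1 a').2
  have := tdist_triangle (tcast L t.1.2) (ex s).1 (tcast L t'.1.2)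
  rw [tdist_comm (tcast L t'.1.2)] at a2 a6
  omega

lemma al_of {C : Finset (Gas.Lp T (Tor 3 L × Fin n))} (hξ : Pw p ξ ≠ 0)
    (hC : ∀ g ∈ C, g ∈ Gas.L ex ey ξ ∧ ub b g ≠ 0) (hE : ∀ v ∈ E.1, b v = 0)
    (hZ : ∀ v, v.2.1 ∈ Z → b v = 0) : Al ex ey p E Z ξ (pts C) := by
  have k : ∀ v ∈ pts C, b v ≠ 0 := fun v hv => by
    obtain ⟨g, h1, h2⟩ := Gas.mem_pts.1 hv
    exact prod_ne_zero_iff.1 (hC g h1).2 v h2
  exact ⟨hξ, pts_inv fun g hg => (hC g hg).1, fun v hv a => k v hv (hE v a),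
    fun v hv a => k v hv (hZ v a)⟩

lemma Fre_not {m : ℕ} {z : Sd.V} (h : Fre G U m z) {y : Tor 3 L} (hy : tdist (tcast L z) y ≤ G.A m) :
    ¬ U m y := fun k => (h (lf z y) (by rwa [tcast_lf])).not_ge (by rw [dist_lf]; exact_mod_cast hy)

lemma grid_mem (hT : T = B * G.D) (i : ℕ) {z : Sd.V} {y : Tor 3 L × Fin n} {r : ℕ}
    (h : tdist (tcast L z) y.1 ≤ r) : (tm T (i * G.D), lf z y.1, y.2) ∈ gp T n G.D z r :=
  mem_gp.2 ⟨(Nat.dvd_mod_iff (hT ▸ Dvd.intro_left B rfl)).2 (Dvd.intro_left i rfl),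
    by rw [dist_lf]; exact_mod_cast h⟩

/-- one window, through the balls of a cover. -/
theorem slow_hole {τ m R nc : ℕ} {Al : Fin T → Prop} {W : V L n T → Prop} {F : Finset (Tor 3 L)}
    (hnn : ∀ s, tdist (ex s).1 (ey s).1 ≤ 1) (hl : 1 ≤ P.l) (hτ : P.k0 + 27 + d ≤ τ)
    (hρ : ∀ m, (τ + 1) * P.a * (2 * P.rad m τ + 1) + 3 * τ * P.H m ≤ P.ρ (m + 1))
    (hJ : 2 * τ * P.j1 ≤ P.r0)
    (hAl : ∀ r y, Al r → tdist (ex r).1 (ey r).1 ≠ 0 → (y = ex r ∨ y = ey r) → W (r, y) →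
      (r, y) ∈ E.2) (hW : ∀ u, W u → ¬ dead Z u.2.1) (hF : F.card ≤ nc)
    (hG : ∀ y, (∀ f ∈ F, R < tdist f y) → (sys n T P z0).Good d E Z m τ y) (i : ℕ) :
    A.Slow ex ey (fun x y => tdist x.1 y.1) (fun r => Al r ∧ r.val ∈ Ico (i * P.D) ((i + 1) * P.D)) W
      (2 * τ * P.j1 + P.lw τ m + nc * (2 * R + 1)) := by
  classical
  intro a b γ hs ht hγ
  by_contra k
  rw [← lw_sys (n := n) (T := T) P z0] at k
  have st : ∀ r, a ≤ r → r < b → tdist (γ r).1 (γ (r + 1)).1 ≤ 1 := fun r h1 h2 => by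
    rcases (hγ ⟨r, h2.trans_le ht⟩ h1 h2).2 with e | ⟨-, e⟩ <;> rw [show γ (r + 1) = _ from e]
    · rw [tdist_self]; omega
    · rw [Equiv.swap_apply_def]
      split_ifs with h3 h4
      · rw [h3]; exact hnn _
      · rw [h4, tdist_comm]; exact hnn _
      · rw [tdist_self]; omega
  obtain ⟨r, r1, r2, r3, r4⟩ := C9.exists_off (S := sys n T P z0) (R := R) (γ := fun r => (γ r).1)
    hF hs st (show _ ≤ tdist _ _ by beta_reduce at k; omega)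
  have a1 := tdist_triangle (γ a).1 (γ r).1 (γ b).1
  obtain ⟨q, q1, q2, q3, q4⟩ := exists_base (S := sys n T P z0) (γ := fun r => (γ r).1)
    (J := 2 * τ * P.j1) hτ hρ m r r2 (fun u h1 h2 => st u (r1.trans h1) h2) (hG _ r3)
    (show _ < tdist _ _ by change tdist _ _ ≤ _ at r4; beta_reduce at k r4 ⊢; omega)
  refine absurd (A.path_le_count (d := fun x y => tdist x.1 y.1)
    ⟨fun _ => tdist_self _, fun _ _ => tdist_comm _ _, fun _ _ _ => tdist_triangle _ _ _, hnn⟩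
    q2 ht (hγ.sub (r1.trans q1) le_rfl)
    (I := univ.filter fun u : Fin T => u.val ∈ Ico (i * P.D) ((i + 1) * P.D) ∧
      1 ≤ cnt (vis Z E.2) u (γ q).1 P.r0) (le_trans ?_ (G0.chg_le q3 hl i))
    fun u y h1 h2 h3 h4 h5 => mem_filter.2 ⟨mem_univ _, h1.2, card_pos.2 ⟨y, mem_filter.2
      ⟨mem_univ _, ?_, h5.trans hJ⟩⟩⟩) (not_le.2 q4)
  · rw [← card_image_of_injective _ Fin.val_injective]
    refine le_trans (card_le_card (t := (Ico (i * P.D) ((i + 1) * P.D)).filter fun k =>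
      1 ≤ cnt (vis Z E.2) k (γ q).1 P.r0) fun k hk => ?_) ?_
    · obtain ⟨u, hu, rfl⟩ := mem_image.1 hk
      exact mem_filter.2 (mem_filter.1 hu).2
    · rw [card_filter]
      exact sum_le_sum fun k _ => by split_ifs with h; exacts [h, Nat.zero_le _]
  · rw [tm_fin]
    exact mem_vis.2 ⟨hAl u y h1.1 h2 h3 h4, hW _ h4⟩

lemma v_ge {M m R : ℕ} (h : M < m) (hR : R ≤ P.Sx M) :
    2 * N.t * P.j1 + P.lw N.t M + P.N * (2 * R + 1) ≤ N.v P m := by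
  induction m, h using Nat.le_induction with
  | base =>
    have := Nat.mul_le_mul_left P.N (show 2 * R + 1 ≤ 2 * P.Sx M + 1 by omega)
    simp only [Lv.v, Num.lw, hx]
    omega
  | succ m _ ih =>
    simp only [Lv.v, Num.lw, hx] at ih ⊢
    omega

section dyn
variable {Mx : ℕ} (M : Md ex ey P.toLf p p0 E X0 Es w B x0 θ)
  (H : NmE ex ey N P G η lo p0 d Es w B x0 θ)
  (hU : ∀ m ≤ Mx, ∀ y, ¬ U m y → (sys n T P z0).Good d E Z m N.t y)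
  (hC : ∃ (F : Finset (Tor 3 L)) (R : ℕ), F.card ≤ P.N ∧ R ≤ P.Sx Mx ∧
    ∀ y, (∀ f ∈ F, R < tdist f y) → (sys n T P z0).Good d E Z Mx N.t y) (hE : ∀ v ∈ E.1, b v = 0)
  (hZ : ∀ v, v.2.1 ∈ Z → b v = 0) (hξ : Pw p ξ ≠ 0) {g : ℕ → Gas.Lp T (Tor 3 L × Fin n)} {nb : ℕ}
  (hg : ∀ i < nb, g i ∈ Gas.L ex ey ξ ∧ ub b (g i) ≠ 0)
include M H hU hC hE hZ hξ hg

/-- **`Dyn.leaf`.** -/
theorem leaf (i : ℕ) (hi : i ≤ nb) (z : Sd.V)
    (h : W0 P.toLf (I.ev ex ey (St g i)) E Z (tcast L z)) : Evt ex ey N P G lo p p0 E Z B x0 U ξ 0 z ∨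
      ∃ f ∈ dJ G T n z, ∀ j, ∃ i' < i, pj L (f j) ∈ (g i').2 := by
  classical
  replace hC : ∀ a ∈ St g i, a ∈ Gas.L ex ey ξ ∧ ub b a ≠ 0 := fun a ha => by
    obtain ⟨j, hj, rfl⟩ := mem_image.1 ha
    exact hg j ((mem_range.1 hj).trans_le hi)
  by_cases hF : Fre G U 0 z
  swap; · exact .inl fun _ k => absurd k hF
  rw [I.ev_eq (ξ := ξ) (show St g i ⊆ _ from fun a ha => (hC a ha).1)] at h
  refine (leaf0 M H.n0 (al_of hξ hC hE hZ) (fun y hy => hU 0 (Nat.zero_le _) y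
    (Fre_not hF (hy.trans H.r0.1))) h).imp (fun k _ _ => k) fun ⟨a, ha⟩ => ?_
  obtain ⟨S, h1, h2⟩ := exists_subset_card_eq (H.hG.2.2.1.trans ha)
  set e : Fin G.n1 → Tor 3 L × Fin n := fun j => (S.equivFinOfCardEq h2).symm j with he
  have h3 := fun j => (mem_filter.1 (h1 ((S.equivFinOfCardEq h2).symm j).2)).2
  refine ⟨fun j => (tm T (a * G.D), lf z (e j).1, (e j).2), mem_filter.2 ⟨Fintype.mem_piFinset.2
    fun j => grid_mem (H.hG.2.1 ▸ M.hT) a ((h3 j).2.trans H.hG.2.2.2), fun j j' k => ?_,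
    fun _ _ => rfl⟩, fun j => ?_⟩
  · have := congrArg (fun x => (pj L x).2) k
    simp only [pj, tcast_lf] at this
    exact (S.equivFinOfCardEq h2).symm.injective (Subtype.ext this)
  · obtain ⟨_, h4, h5⟩ := Gas.mem_pts.1 (h3 j).1
    obtain ⟨i', h6, rfl⟩ := mem_image.1 h4
    exact ⟨i', mem_range.1 h6, by simpa only [pj, tcast_lf, H.hG.2.1] using h5⟩

/-- **`Dyn.fast`.** -/
theorem fast (m : ℕ) (z : Sd.V) (h : ¬ Evt ex ey N P G lo p p0 E Z B x0 U ξ (m + 1) z) (i : ℕ)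
    (hi : i < nb) (v : V L n T) (hv : v ∈ (g i).2) (hd : tdist (tcast L z) v.2.1 ≤ lo m) :
    ∃ x ∈ gp T n G.D z (G.lo m), pj L x ∈ (g i).2 := by
  simp only [Evt, not_forall, Nat.add_sub_cancel] at h
  obtain ⟨hm, hF, h⟩ := h
  have A := al_of (p := p) (C := {g i}) hξ (fun a ha => mem_singleton.1 ha ▸ hg i hi) hE hZ
  have hD := D_pos M.hT
  have hA : ∀ r y, ((ex r).1 = (ey r).1 ∨ ((r, ex r) ∈ E.2 ∧ (r, ey r) ∈ E.2)) →
      tdist (ex r).1 (ey r).1 ≠ 0 → (y = ex r ∨ y = ey r) →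
      y.1 ∉ Z ∧ tdist (tcast L z) y.1 ≤ N.ρm P x0 m (lo m) → (r, y) ∈ E.2 := fun r y a1 a2 a3 _ => by
    have := a1.resolve_left fun e => a2 (by rw [e, tdist_self])
    rcases a3 with rfl | rfl
    exacts [this.1, this.2]
  have hS : SL ex ey E Z P.D (tcast L z) (N.ρm P x0 m (lo m)) (N.v P m) := fun j a c γ h1 h2 h3 => by
    rcases le_or_gt m Mx with k | k
    · exact (slow_win' M.word.nn M.hl.1 H.ht.1 H.hρ H.ht.2 hA (fun u hu => ⟨fun k => hu.1 k.mem,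
        hU m k _ (Fre_not hF (hu.2.trans (H.rm m hm).2.1))⟩) j a c γ h1 h2 h3).trans
        (Nat.le_add_right _ _)
    · obtain ⟨F, R, c1, c2, c3⟩ := hC
      exact (slow_hole M.word.nn M.hl.1 H.ht.1 H.hρ H.ht.2 hA (fun u hu k => hu.1 k.mem) c1 c3 j a c
        γ h1 h2 h3).trans (v_ge k c2)
  have hM := mvm (r := lo m) M A hS le_rfl le_rfl (H.cm m hm).1 (H.cm m hm).2 h
  obtain ⟨y, a1, -, a2, -⟩ := back1 (i := v.1.val / P.D) (k := v.1.val) (y := v.2) A.inv hM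
    (Nat.div_mul_le_self _ _) (by rw [add_mul, one_mul]; exact (Nat.lt_div_mul_add hD).le)
    (by rw [tm_fin]; simpa [pts] using hv) hd
  refine ⟨_, grid_mem (y := y) (H.hG.2.1 ▸ M.hT) (v.1.val / P.D) ((tdist_triangle _ v.2.1 _).trans
    ((add_le_add hd a2).trans (H.rm m hm).1)), ?_⟩
  simpa [pj, tcast_lf, pts, H.hG.2.1] using a1

end dyn

end Crest.Agent.N337.Wk
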