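import Crest.Agent.N337.E.Tube
import Crest.Agent.N337.E.MDefs
import Crest.Agent.N337.I.Geom
import Crest.Agent.N337.G1.Short
import Crest.Agent.N337.W.Env

/-!
# Row 337, ENG (helper92): Green bounds from route data (`Tr.TB`) on the concrete rung system
-/

set_option autoImplicit false
set_option linter.unusedSectionVars false

namespace Crest.Agent.N337.Tb

open Finset Crest.MathPhysics.SpinModel Crest.Agent.N337.Rep Sd Tr Rg G1 Geo Free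
open Crest.Agent.N337.I (Ev Rp bE vis acp opn)

variable {L n T : ℕ} [NeZero L] [NeZero T] {α κ' : Type} [SemilatticeSup α] [Preorder κ']
  (S : Sys (Tor 3 L) α κ') (G : Eg) (P : Scales) (k k' th : ℕ → ℕ)

/-- volume of the last ball of the tube. -/
def vT : ℕ := (2 * (2 ^ k G.mt / 4) + 1) ^ 3

/-- capacity constant along the tube. -/
noncomputable def Ct (A lo nmax : ℕ) : ℝ := 16 * A +
  2 * (10 ^ 9 * (P.K lo * (1 + (Nat.log 2 nmax : ℝ)) ^ 2 + nmax * tau S G P k k' lo G.mt ^ 2))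

/-- price of a crossing of length `d` with route data from the level `lo` on. -/
noncomputable def cr (A lo d : ℕ) : ℝ := Ct S G P k k' A lo (d / (4 * P.η lo)) * P.η lo / d

/-- a junk family for G1: no top, sparse, inside the neighbourhood of `J`, leaves off level one. -/
def JF (J : ℕ → Tor 3 L → Prop) (F : I.Lf) (t : ℕ) (E : Ev L n T) (Z : Finset (Tor 3 L)) : Prop :=
  ∃ U : ℕ → Finset (Tor 3 L), U P.mt = ∅ ∧ (∀ m, 1 ≤ m → m < P.mt → CovIn P U m) ∧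
    (∀ l < G.mt, ∀ u ∈ U (l + 1), ∃ u', tdist u u' ≤ th l ∧ J l u') ∧ ∀ c ∉ U 1, I.G0 F t E Z c

/-- the top level: zero mode, or everything is killed off a ball. -/
def TopH (Z : Finset (Tor 3 L)) (Y : ℝ) (vol : ℕ) (μ : ℝ) : Prop :=
  4 / (1 - Y) / vol ≤ μ ∨
    (0 ≤ μ ∧ ∃ x r, (∀ z ∉ Z, tdist x z ≤ r) ∧ 4 * (2 * r + 1) ^ 3 ≤ vol)

variable (ex ey : Fin T → Tor 3 L × Fin n)

/-- the word and the numbers of the leaves (`t` = rung, `x0` = unrecorded changes). -/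
structure Wv (p0 b0 : Fin T → ℝ) (Y : ℝ) (F : I.Lf) (t x0 j E0 w B : ℕ) (q κ : ℝ)
    (Bd : Finset ℕ) : Prop where
  nn : ∀ s, tdist (ex s).1 (ey s).1 ≤ 1
  clock : Clock ex ey p0 b0 E0 w B q κ Bd
  pers : Pers ex ey p0 b0 E0 w κ
  hD : F.D = w * E0
  fine : 2 * (Bd.card + L ^ 3 * j + 1) ≤ w
  hY : 0 ≤ Y ∧ Y < 1
  b00 : b0 0 ≤ Y
  ok : P.Ok L
  hm : 2 * t * F.n1 ≤ P.a 0
  hj : P.a 0 + 2 * (2 * t * F.j1 + x0) ≤ j
  hr : 8 * P.η 0 ≤ F.r0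
  hA : 11 * P.ρ 0 + 6 ≤ F.A ∧ F.A ≤ P.η 0
  ht : 2 * t * F.l1 < F.l
  h1 : (F.l + 1) * (j * (2 * F.A + 1)) + F.A < P.η 0
  h2 : (F.l + 1) * (j * (2 * F.A + 1)) + F.A ≤ F.r3

/-- a model: `R` pinned and killed with changes `X`, the sites of `Z` killed. -/
structure Md (p0 b0 p : Fin T → ℝ) (b : I.V L n T → ℝ) (R X : Finset (I.V L n T))
    (Z : Finset (Tor 3 L)) : Prop where
  hp : ∀ s, 0 ≤ p s ∧ p s ≤ 1
  rp : Rp ex ey p R X
  fr : ∀ s, ¬ Gas.tch ex ey R s → p s = p0 s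
  hb : ∀ v, 0 ≤ b v ∧ b v ≤ b0 v.1
  bR : ∀ v ∈ R, b v = 0
  bZ : ∀ v, v.2.1 ∈ Z → b v = 0

variable {S G P k k' th ex ey} {p0 b0 p : Fin T → ℝ} {b : I.V L n T → ℝ}
  {R X X0 : Finset (I.V L n T)} {Z : Finset (Tor 3 L)} {Y q κ μ : ℝ} {F : I.Lf}
  {t x0 j E0 w B lo d : ℕ} {Bd : Finset ℕ} {J : ℕ → Tor 3 L → Prop} {E : Ev L n T} {x : V}
  {u v : I.V L n T}

lemma Ct_nn (A lo nmax : ℕ) : 0 ≤ Ct S G P k k' A lo nmax := by
  have := one_le_K P lo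
  unfold Ct; positivity

/-- a clean form of the price. -/
lemma cr_le (A lo d : ℕ) : cr S G P k k' A lo d ≤
    (16 * A + 2 * 10 ^ 9 * P.K lo * (1 + (Nat.log 2 d : ℝ)) ^ 2) * P.η lo / d +
      10 ^ 9 * tau S G P k k' lo G.mt ^ 2 := by
  rcases Nat.eq_zero_or_pos d with rfl | hd
  · simp only [cr, Nat.cast_zero, div_zero, zero_add]; positivity
  have h0 := zero_le_one.trans (one_le_K P lo)
  have h1 : (0 : ℝ) < d := by exact_mod_cast hd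
  have h2 : ((d / (4 * P.η lo) : ℕ) : ℝ) * (4 * P.η lo) ≤ d := by
    exact_mod_cast Nat.div_mul_le_self d (4 * P.η lo)
  have h3 : (1 + (Nat.log 2 (d / (4 * P.η lo)) : ℝ)) ^ 2 ≤ (1 + (Nat.log 2 d : ℝ)) ^ 2 := by
    have : (Nat.log 2 (d / (4 * P.η lo)) : ℝ) ≤ Nat.log 2 d := by
      exact_mod_cast Nat.log_mono_right (Nat.div_le_self _ _)
    gcongr
  have h4 := mul_le_mul_of_nonneg_right (mul_le_mul_of_nonneg_left h3 h0) (Nat.cast_nonneg (P.η lo))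
  have h5 := mul_le_mul_of_nonneg_right h2 (sq_nonneg (tau S G P k k' lo G.mt))
  have h6 := mul_nonneg h1.le (sq_nonneg (tau S G P k k' lo G.mt))
  rw [cr, Ct, div_add' _ _ _ h1.ne', div_le_div_iff_of_pos_right h1]
  nlinarith

theorem Md.child (h : Md ex ey p0 b0 p b R X Z) (O : Finset (I.V L n T)) (ξ : Fin T → Bool) :
    Md ex ey p0 b0 (Arc.pin p (Arc.tch ex ey O) ξ) (Arc.kill b O) (R ∪ O)
      (X ∪ acp ex ey ξ O ∪ opn ex ey ξ O) Z where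
  hp := Arc.pin_mem h.hp _ ξ
  rp := h.rp.child O ξ
  fr s hs := by
    rw [I.tch_union', not_or] at hs
    rw [← h.fr s hs.1]
    exact if_neg fun k => hs.2 (by simpa [Arc.tch, Gas.tch] using k)
  hb v := by
    unfold Arc.kill; split_ifs
    exacts [⟨le_rfl, (h.hb v).1.trans (h.hb v).2⟩, h.hb v]
  bR v hv := by
    unfold Arc.kill; split_ifs with k
    exacts [rfl, h.bR v ((mem_union.1 hv).resolve_right k)]
  bZ v hv := by
    unfold Arc.kill; split_ifs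
    exacts [rfl, h.bZ v hv]

/-- everything G1 needs, from route data. -/
theorem pack (W : Wv P ex ey p0 b0 Y F t x0 j E0 w B q κ Bd) (N : Nu S G P k k' th)
    (M : Md ex ey p0 b0 p b R X Z) (hR : R ⊆ E.1) (hX : X ⊆ E.2 ∪ X0) (h0 : X0.card ≤ x0)
    (hJ : JF G P th J F t E Z) (top : TopH Z Y (vT G k) μ) (H : TB S G lo J x) (hlo : lo ≤ G.mt)
    (u : I.V L n T) : 0 ≤ μ ∧ ∃ (U : ℕ → Finset (Tor 3 L)) (g : I.V L n T → ℝ),
      Grn ex ey p (bE b0 Z R) u Y g ∧ (∀ v, WN.Gi ex ey p b v u ≤ g v) ∧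
      Data ex ey p p0 (bE b0 Z R) b0 (vis Z R) Z E0 w B q κ Bd P U j F.A ∧
      Data3 ex ey p0 b0 (vis Z R) E0 w κ P U j F.A F.l F.r3 ∧
      Top (fun v => bE b0 Z R v * g v) (vT G k) μ ∧
      Near P U (tcast L x) (lo + 1) (2 ^ k lo) ∧ ∀ d nmax, 2 * (d + F.A) ≤ 2 ^ k lo →
        CapH P U (tcast L x) d F.A nmax (vT G k) (Ct S G P k k' F.A lo nmax) := by
  obtain ⟨U, u1, u2, u3, u4⟩ := hJ
  have hc : ∀ m, 1 ≤ m → m < P.mt → CovIn P (Us S G P k' U (tcast L x) lo) m :=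
    fun m a c => cov_Us N c (u2 m a c)
  have hU : ∀ c ∉ Us S G P k' U (tcast L x) lo 1, I.G0 F t E Z c :=
    fun c h => u4 c fun a => h (sub_Us a)
  have hb := fun s => W.pers.hb0 s
  have e1 := I.bE_mem (Z := Z) (R := R) fun s => (hb s).1
  have fl : ∀ b' : I.V L n T → ℝ, (∀ v, 0 ≤ b' v ∧ b' v ≤ b0 v.1) → Arc.Fld b' := fun b' h =>
    ⟨fun v => ⟨(h v).1, (h v).2.trans (hb _).2⟩, fun y => ((h _).2.trans W.b00).trans_lt W.hY.2⟩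
  have g1 := WN.grn ex ey M.hp (fl _ e1) W.hY (fun y => (e1 _).2.trans W.b00) u
  have hT : T = B * F.D := by rw [W.hD, ← mul_assoc]; exact W.clock.hT
  have hv : 1 ≤ vT G k := Nat.one_le_pow _ _ (by omega)
  refine ⟨?_, _, _, g1, fun v => WN.Gi_mono ex ey M.hp (fl _ M.hb) (fl _ e1)
    (I.le_bE (fun v => (M.hb v).2) M.bR M.bZ) v u, ⟨I.env_vis W.nn M.fr b0 Z, W.clock,
      W.hD ▸ I.geom_of W.ok hc hU hT (by have := W.ht; omega) M.rp hR hX h0 W.hm W.hj W.hr W.hA,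
      W.fine⟩, I.data3_of W.hD W.pers hU W.ht hR W.h1 W.h2, ?_,
    (tube (d := 0) N u1 u3 H hlo (Nat.zero_le _)).1, fun d nmax hd => ?_⟩
  · have := sub_pos.2 W.hY.2
    exact top.elim (le_trans (by positivity)) And.left
  · rcases top with h | ⟨h, y, r, h1, h2⟩
    · exact fun lam hl => top_mass g1 hv lam (h.trans_lt hl)
    · have k1 : ∀ v : I.V L n T, r < tdist y v.2.1 → bE b0 Z R v = 0 := fun v hv =>
        if_pos (.inr (by by_contra k; exact hv.not_ge (h1 _ k)))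
      exact fun lam hl => top_supp (b := bE b0 Z R) (g := fun v => WN.Gi ex ey p (bE b0 Z R) v u)
        k1 h2 lam (h.trans_lt hl)
  · obtain ⟨-, N', z, c, s, r, m, a1, a2, a3⟩ := tube N u1 u3 H hlo hd
    have := capH_tube (nmax := nmax) W.ok hc W.hA a3
    rwa [a1, a2] at this

/-- **far pairs.** -/
theorem far (W : Wv P ex ey p0 b0 Y F t x0 j E0 w B q κ Bd) (N : Nu S G P k k' th)
    (M : Md ex ey p0 b0 p b R X Z) (hR : R ⊆ E.1) (hX : X ⊆ E.2 ∪ X0) (h0 : X0.card ≤ x0)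
    (hJ : JF G P th J F t E Z) (top : TopH Z Y (vT G k) μ) (H : TB S G lo J x) (hlo : lo ≤ G.mt)
    (hx : tcast L x = u.2.1 ∨ tcast L x = v.2.1) (h1 : 4 * P.η lo ≤ d)
    (h2 : 2 * (d + F.A) ≤ 2 ^ k lo) (hd : d ≤ tdist u.2.1 v.2.1) :
    WN.Gi ex ey p b v u ≤ Cg κ * (μ + cr S G P k k' F.A lo d + err q Y L n B) := by
  obtain ⟨a0, U, g, a1, a2, a3, a4, a5, a6, a7⟩ := pack W N M hR hX h0 hJ top H hlo u
  have hm := N.mt
  have := G1d a1 a3 a4 (by omega) (by omega) (a6.mono (by omega)) (Ct_nn _ _ _) (a7 d _ h2) le_rfl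
    a0 a5 hx hd h1
  rw [if_neg, sub_zero] at this
  · exact (a2 v).trans this
  · rintro rfl
    have b1 := W.ok.ρη lo (by omega)
    have b2 := one_le_tS
    rw [tdist_self] at hd
    unfold Scales.ρ at b1
    omega

/-- **long lags.** -/
theorem lagT (W : Wv P ex ey p0 b0 Y F t x0 j E0 w B q κ Bd) (N : Nu S G P k k' th)
    (M : Md ex ey p0 b0 p b R X Z) (hR : R ⊆ E.1) (hX : X ⊆ E.2 ∪ X0) (h0 : X0.card ≤ x0)
    (hJ : JF G P th J F t E Z) (top : TopH Z Y (vT G k) μ) (H : TB S G 0 J x)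
    (hx : tcast L x = u.2.1 ∨ tcast L x = v.2.1) (h1 : 4 * P.η 0 ≤ d)
    (h2 : 2 * (d + P.η 0 + F.A) ≤ 2 ^ k 0) {Nb : ℕ} (hN : 1 ≤ Nb)
    (hl : Nb * (F.l + 2) * (w * E0) ≤ lag u.1 v.1) :
    (WN.Gi ex ey p b v u - if v = u then 1 else 0) ≤
      Cg κ * (μ + (Ct S G P k k' F.A 0 1 / Nb + cr S G P k k' F.A 0 d) + err q Y L n B) := by
  obtain ⟨a0, U, g, a1, a2, a3, a4, a5, a6, a7⟩ := pack W N M hR hX h0 hJ top H (Nat.zero_le _) u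
  exact (sub_le_sub_right (a2 v) _).trans (G1t a1 a3 a4 (a6.mono (by omega)) (Ct_nn _ _ _)
    (a7 d _ (by omega)) le_rfl (Ct_nn _ _ _) (a7 _ 1 h2) a0 a5 hx h1 hN hl)

/-- **cluster free windows.** -/
theorem win (W : Wv P ex ey p0 b0 Y F t x0 j E0 w B q κ Bd) (N : Nu S G P k k' th)
    (M : Md ex ey p0 b0 p b R X Z) (hR : R ⊆ E.1) (hX : X ⊆ E.2 ∪ X0) (h0 : X0.card ≤ x0)
    (hJ : JF G P th J F t E Z) (top : TopH Z Y (vT G k) μ) (H : TB S G 0 J x)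
    (hx : tcast L x = u.2.1 ∨ tcast L x = v.2.1) (h1 : 4 * P.η 0 ≤ d)
    (h2 : 2 * (d + F.A) ≤ 2 ^ k 0) (I : Finset ℕ) (hI : I.Nonempty)
    (hI' : ∀ i ∈ I, NoCl (vis Z R) (w * E0) F.A d (tcast L x) i ∧ u.1.val ≤ i * (w * E0) ∧
      (i + 1) * (w * E0) ≤ u.1.val + lag u.1 v.1) :
    (WN.Gi ex ey p b v u - if v = u then 1 else 0) ≤
      Cg κ * (μ + (Ct S G P k k' F.A 0 1 / I.card + cr S G P k k' F.A 0 d) + err q Y L n B) := by
  obtain ⟨a0, U, g, a1, a2, a3, a4, a5, a6, a7⟩ := pack W N M hR hX h0 hJ top H (Nat.zero_le _) u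
  exact (sub_le_sub_right (a2 v) _).trans (G1w a1 a3 a4 (a6.mono (by omega)) (Ct_nn _ _ _)
    (a7 d _ h2) le_rfl (Ct_nn _ _ _) (a7 d 1 h2) a0 a5 hx h1 I hI hI')

/-- **short lags.** -/
theorem short (W : Wv P ex ey p0 b0 Y F t x0 j E0 w B q κ Bd) (N : Nu S G P k k' th)
    (M : Md ex ey p0 b0 p b R X Z) (hR : R ⊆ E.1) (hX : X ⊆ E.2 ∪ X0) (h0 : X0.card ≤ x0)
    (hJ : JF G P th J F t E Z) (top : TopH Z Y (vT G k) μ) (H : TB S G 0 J x)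
    (hx : tcast L x = u.2.1 ∨ tcast L x = v.2.1) (h2 : 2 * (d + F.A) ≤ 2 ^ k 0) {M' τ : ℕ}
    (hM : 1 ≤ M') (hd : 2 * (M' + τ) * ((j + 1) * (2 * F.A + 1)) ≤ d)
    (hτ : lag u.1 v.1 ≤ τ * (w * E0)) (I : Finset ℕ) (hI : I.Nonempty)
    (hI' : ∀ i ∈ I, NoCl (vis Z R) (w * E0) F.A d (tcast L x) i ∧ u.1.val ≤ i * (w * E0) ∧
      (i + 1) * (w * E0) ≤ u.1.val + lag u.1 v.1) :
    (WN.Gi ex ey p b v u - if v = u then 1 else 0) ≤ Cg κ * (μ + (Ct S G P k k' F.A 0 1 / I.card +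
      Ct S G P k k' F.A 0 M' / M') + err q Y L n B) := by
  obtain ⟨a0, U, g, a1, a2, a3, a4, a5, a6, a7⟩ := pack W N M hR hX h0 hJ top H (Nat.zero_le _) u
  exact (sub_le_sub_right (a2 v) _).trans (G1s a1 a3 W.pers (a6.mono (by omega)) (Ct_nn _ _ _)
    (a7 d _ h2) (Ct_nn _ _ _) (a7 d 1 h2) hM le_rfl a0 a5 hx (by have := W.h1; rw [add_mul, one_mul] at this; omega) hd hτ
    I hI hI')

/-- the data of the child model of `(O, ξ)`. -/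
lemma child_sub (hR : R ⊆ E.1) (hX : X ⊆ E.2 ∪ X0) {O : Finset (I.V L n T)} {ξ : Fin T → Bool}
    {E' : Ev L n T} (h1 : E ≤ E') (h2 : I.evp ex ey ξ O ≤ E') {e : ℕ}
    (he : Arc.ends ex ey ξ O ≤ e) (h0 : X0.card + 2 * e ≤ x0) :
    R ∪ O ⊆ E'.1 ∧ X ∪ acp ex ey ξ O ∪ opn ex ey ξ O ⊆ E'.2 ∪ (X0 ∪ opn ex ey ξ O) ∧
      (X0 ∪ opn ex ey ξ O).card ≤ x0 := by
  refine ⟨union_subset (hR.trans h1.1) h2.1, fun v hv => ?_, (card_union_le _ _).trans ?_⟩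
  · simp only [mem_union] at hv ⊢
    rcases hv with (hv | hv) | hv
    · exact (mem_union.1 (hX hv)).imp (h1.2 ·) .inl
    · exact .inl (h2.2 hv)
    · exact .inr (.inr hv)
  · have := I.card_opn (ex := ex) (ey := ey) (ξ := ξ) (O := O)
    omega

/-- the numbers of `HT`. -/
structure NH (S : Sys (Tor 3 L) α κ') (G : Eg) (P : Scales) (k k' : ℕ → ℕ) (Pz : En.Pz) (F : I.Lf)
    (B : ℕ) (κ μ e : ℝ) (d0 Nb : ℕ) : Prop where
  far : ∀ l ≤ G.mt, 4 * P.η l ≤ Pz.dd l ∧ 2 * (Pz.dd l + F.A) ≤ 2 ^ k l ∧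
    Cg κ * (μ + cr S G P k k' F.A l (Pz.dd l) + e) ≤ Pz.γ l
  hd : 4 * P.η 0 ≤ d0 ∧ 2 * (d0 + P.η 0 + F.A) ≤ 2 ^ k 0
  hN : 1 ≤ Nb ∧ Nb * (F.l + 2) ≤ B
  lag : Cg κ * (μ + (Ct S G P k k' F.A 0 1 / Nb + cr S G P k k' F.A 0 d0) + e) ≤ Pz.γ0

/-- **the Green input of the engine.** -/
theorem ht (W : Wv P ex ey p0 b0 Y F t x0 j E0 w B q κ Bd) (N : Nu S G P k k' th)
    (M : Md ex ey p0 b0 p b R X Z) (hR : R ⊆ E.1) (hX : X ⊆ E.2 ∪ X0) (h0 : X0.card + 2 ≤ x0)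
    (top : TopH Z Y (vT G k) μ) {Pz : En.Pz} {e : ℝ} {d0 Nb : ℕ} (he : err q Y L n B ≤ e)
    (H : NH S G P k k' Pz F B κ μ e d0 Nb)
    {J : Finset (Gas.Lp T (Tor 3 L × Fin n)) → ℕ → Tor 3 L → Prop}
    (hJ : ∀ ξ C, Pw p ξ ≠ 0 → C ⊆ Gas.L ex ey ξ → JF G P th (J C) F t (E ⊔ I.ev ex ey C) Z) :
    En.HT ex ey S G Pz p b J := by
  have hC := Cg_nonneg W.clock.hκ
  refine ⟨fun ξ C O l x v u a1 a2 a3 a4 a5 a6 a7 _ _ a8 => ?_, fun ξ C x v u a1 a2 a3 a4 a5 => ?_⟩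
  · obtain ⟨c1, c2, c3⟩ := child_sub (E' := E ⊔ I.ev ex ey C) hR hX le_sup_left
      (le_sup_of_le_right (I.ev_eq a2 ▸ I.evp_mono a3)) a4 h0
    obtain ⟨d1, d2, d3⟩ := H.far l a5
    exact (far W N (M.child O ξ) c1 c2 c3 (hJ ξ C a1 a2) top a6 a5 (.inr a7.symm) d1 d2
      (by rwa [tdist_comm])).trans (le_trans (by gcongr) d3)
  · obtain ⟨c1, c2, c3⟩ := child_sub (E' := E ⊔ I.ev ex ey C) (e := 0) (x0 := x0) hR hX le_sup_left
      (le_sup_of_le_right (I.ev_eq a2).ge) (le_of_eq (card_eq_zero.2 (filter_eq_empty_iff.2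
        fun v hv h => h ((I.pts_inv a2 v).2 hv)))) (by omega)
    refine (lagT W N (M.child _ ξ) c1 c2 c3 (hJ ξ C a1 a2) top a3 (.inr a4.symm) H.hd.1 H.hd.2
      H.hN.1 ?_).trans (le_trans (by gcongr) H.lag)
    rw [lag, if_pos a5]
    exact (Nat.mul_le_mul_right _ H.hN.2).trans (by rw [← mul_assoc]; exact W.clock.hT.ge)

end Crest.Agent.N337.Tb
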