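import Crest.Agent.N337.E.Main
import Crest.Agent.N337.E.Dyn
import Crest.Agent.N337.Gl.Ht
import Crest.Agent.N337.C9.Ins

/-!
# Row 337, ENG (helper30): the engine on the classes of the chain

`Uc` = junk family of the class `Cls d E Z M tm F R`; `Lc` = locally covered families; from `Lc`:
`UC` of the engine and `CovIn` of G1 (static junk, and junk with the failing cells of a state).
`core`, `f2a`, `n2` : the cell claims from `eng`, `Gl.ht` and the leaf events of `E/Dyn`.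
-/

set_option autoImplicit false
set_option linter.unusedSectionVars false

namespace Crest.Agent.N337.En

open Finset Crest.MathPhysics.SpinModel Crest.Agent.N337.Rep Crest.Agent.N337.Free Sd Rg Tr
open Crest.Agent.N337.Gas (Lp pts wd ub kill Hit)
open Crest.Agent.N337.Ld (Cls pb PC Ad)

section abs
variable {X α κ : Type} [Fintype X] [SemilatticeSup α] [Preorder κ] (S : Sys X α κ)

/-- off the junk of level `l + 1` the junk of level `l` is covered by few balls. -/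
def Lc (U : ℕ → X → Prop) : Prop :=
  ∀ l c, ¬ U (l + 1) c → ∃ k ≤ S.tm, ∃ (F : Finset X) (s : ℕ),
    F.card ≤ S.N ∧ S.sep l ≤ s ∧ s ≤ S.Sx l ∧ S.Cv (U l) l k c F s 0

/-- the junk family of the class `Cls d E Z M tm F R`. -/
def Uc (d : ℕ) (E : α) (Z : κ) (M : ℕ) (F : Finset X) (R l : ℕ) (y : X) : Prop :=
  (l < M ∧ S.Jk d E Z l y) ∨ (l = M ∧ ¬ S.Off F R y)

variable {S} {d M R R1 l m : ℕ} {E : α} {Z : κ} {F : Finset X} {y : X} {U U' : ℕ → X → Prop}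
  {Lf : X → Prop}

lemma sep_Sx (S : Sys X α κ) (l : ℕ) : S.sep l ≤ S.Sx l :=
  (S.sep_le_rad l 0).trans (by simpa using Sys.rad_Sx (S := S) (m := l) (Nat.zero_le _) 0 (by omega))

lemma Uc_lt (h : l < M) : Uc S d E Z M F R l y ↔ S.Jk d E Z l y :=
  ⟨fun k => k.elim (·.2) fun k => absurd k.1 h.ne, fun k => .inl ⟨h, k⟩⟩

lemma Uc_eq : Uc S d E Z M F R M y ↔ ¬ S.Off F R y :=
  ⟨fun k => k.elim (fun k => absurd k.1 (lt_irrefl _)) (·.2), fun k => .inr ⟨rfl, k⟩⟩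

lemma Uc_gt (h : M < l) : ¬ Uc S d E Z M F R l y := fun k =>
  k.elim (fun k => absurd k.1 (by omega)) fun k => absurd k.1 (by omega)

/-- off the junk the cells are good. -/
theorem Uc.good (hc : Cls S d E Z M S.tm F R) (hd : S.k0 + S.oc + d ≤ S.tm) (hl : l ≤ M)
    (h : ¬ Uc S d E Z M F R l y) : S.Good d E Z l S.tm y := by
  rcases hl.eq_or_lt with rfl | hl
  · exact hc y (not_not.1 fun k => h (Uc_eq.2 k))
  · exact Sys.Good.up (not_not.1 fun k => h ((Uc_lt hl).2 k)) hd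

lemma cv_nil {k s h : ℕ} {c : X} (hU : ∀ y, ¬ U l y) : S.Cv (U l) l k c ∅ s h :=
  fun u _ hu => absurd hu (hU u)

theorem lc_Uc (hc : Cls S d E Z M S.tm F R) (hd : S.k0 + S.oc + d ≤ S.tm) (hF : F.card ≤ S.N)
    (hR : F.Nonempty → R ≤ S.Sx M) : Lc S (Uc S d E Z M F R) := fun l c h => by
  rcases lt_trichotomy l M with hl | rfl | hl
  · have hg := Uc.good hc hd hl h
    have := hg.card_N le_rfl
    exact ⟨_, hg.rk_le, _, _, by omega, S.sep_le_rad _ _,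
      by simpa using Sys.rad_Sx hg.rk_le 0 (by omega), hg.cv.mono fun u hu => (Uc_lt hl).1 hu⟩
  · rcases F.eq_empty_or_nonempty with rfl | h1
    · exact ⟨0, Nat.zero_le _, ∅, _, hF, le_rfl, sep_Sx S l,
        cv_nil fun y k => Uc_eq.1 k fun f hf => absurd hf (notMem_empty f)⟩
    · refine ⟨0, Nat.zero_le _, F, max R (S.sep l), hF, le_max_right _ _,
        max_le (hR h1) (sep_Sx S l), fun u _ hu => ?_⟩
      have := Uc_eq.1 hu
      simp only [Sys.Off, not_forall, not_lt] at this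
      obtain ⟨f, hf, h2⟩ := this
      exact ⟨f, hf, h2.trans (le_max_left _ _)⟩
  · exact ⟨0, Nat.zero_le _, ∅, _, by simp, le_rfl, sep_Sx S l, cv_nil fun y => Uc_gt hl⟩

lemma iso_nil (hU : ∀ y, ¬ U l y) (y : X) : S.Iso U l y :=
  ⟨_, ∅, le_rfl, sep_Sx S l, by simp, fun u hu => absurd hu (hU u), by simp⟩

/-- cells far from the cover are isolated at all levels `≥ M`. -/
theorem Uc.iso (hF : F.card ≤ S.N)
    (hR : F.Nonempty → R ≤ S.Sx M ∧ S.Lam * max R (S.sep M) ≤ R1) (hy : S.Off F R1 y)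
    (hl : M ≤ l) : S.Iso (Uc S d E Z M F R) l y := by
  rcases hl.eq_or_lt with rfl | hl
  · rcases F.eq_empty_or_nonempty with rfl | h1
    · exact iso_nil (fun y k => Uc_eq.1 k fun f hf => absurd hf (notMem_empty f)) y
    · refine ⟨max R (S.sep M), F, le_max_right _ _, max_le (hR h1).1 (sep_Sx S M), hF,
        fun u hu _ => ?_, hy.mono Subset.rfl (hR h1).2⟩
      have := Uc_eq.1 hu
      simp only [Sys.Off, not_forall, not_lt] at this
      obtain ⟨f, hf, h2⟩ := this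
      exact ⟨f, hf, h2.trans (le_max_left _ _)⟩
  · exact iso_nil (fun y => Uc_gt hl) y

lemma fl_mono (h : S.Fl U Lf m y) (hU : ∀ l < m, ∀ u, U' l u → U l u) : S.Fl U' Lf m y := by
  induction m generalizing y with
  | zero => exact h
  | succ m ih =>
    exact Sys.Sepd.mono h fun z hz => ⟨hz.1, hz.2.1.mono (hU m (by omega)),
      ih hz.2.2 fun l hl => hU l (by omega)⟩

lemma fl_Uc (h : S.Fl (S.Jk d E Z) Lf m y) (hm : m ≤ M) : S.Fl (Uc S d E Z M F R) Lf m y :=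
  fl_mono h fun _ hl _ hu => (Uc_lt (by omega)).1 hu

/-- a failing cell contains a leaf. -/
lemma fl_leaf (h : S.Fl U Lf m y) : ∃ z, Lf z ∧ S.d y z + S.ρ 0 ≤ S.loc m := by
  induction m generalizing y with
  | zero => exact ⟨y, h, by rw [S.d_self, zero_add]; rfl⟩
  | succ m ih =>
    obtain ⟨Y, h1, h2, -⟩ := h
    obtain ⟨z, hz⟩ := card_pos.1 (by omega : 0 < Y.card)
    obtain ⟨u, h3, h4⟩ := ih (h2 z hz).2.2
    have := (h2 z hz).1
    have := S.d_tri y z u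
    exact ⟨u, h3, by simp only [Sys.loc]; omega⟩

/-- no failing cell above the scale of the living region. -/
theorem not_fl {A : X → Prop} {D : ℕ} (ha : 1 ≤ S.a1)
    (hL : ∀ z, Lf z → ∃ u, A u ∧ S.d z u ≤ S.ρ 0) (hA : ∀ u u', A u → A u' → S.d u u' ≤ D)
    (hD : 2 * S.loc m + D ≤ S.sep m) : ¬ S.Fl U Lf (m + 1) y := by
  rintro ⟨Y, h1, h2, h3⟩
  obtain ⟨a, ha, b, hb, hne⟩ := one_lt_card.1 (by omega : 1 < Y.card)
  obtain ⟨z, a1, a2⟩ := fl_leaf (h2 a ha).2.2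
  obtain ⟨z', b1, b2⟩ := fl_leaf (h2 b hb).2.2
  obtain ⟨u, a3, a4⟩ := hL z a1
  obtain ⟨u', b3, b4⟩ := hL z' b1
  have := h3 a ha b hb hne
  have := hA u u' a3 b3
  have := S.d_tri a z u
  have := S.d_tri b z' u'
  have := S.d_tri a u u'
  have := S.d_tri a u' b
  have := S.d_comm u' b
  omega

end abs

section tor
variable {L : ℕ} [NeZero L] {α κ : Type} [SemilatticeSup α] [Preorder κ]
  {S : Sys (Tor 3 L) α κ} {G : Eg} {U : ℕ → Tor 3 L → Prop}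

/-- **`UC`** for locally covered junk. -/
theorem Lc.uc (h : Lc S U) (ok : Tr.Ok S G) (hN : 343 * S.N ≤ G.N0)
    (hH : ∀ l, 2 * ((3 * S.tm + 1) * S.H l) ≤ S.ρ (l + 1)) : UC S G U := fun m _ b hb => by
  classical
  have h3 : 3 ≤ S.ρ (m + 1) := by
    have a1 := (ok.kp m).1.trans (ok.kp m).2
    have a2 := ok.sep_Sg m
    have a3 := ok.σ_sep m
    have a4 := ok.A_σ m
    have a5 := (ok.A m).1
    have : 1 * G.Sg m ≤ (G.c + 1) * G.Sg m := Nat.mul_le_mul_right _ (by omega)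
    omega
  obtain ⟨P, p1, p2, p3⟩ := I.cover b 3 (S.ρ (m + 1) / 2)
  have key := fun p (hp : p ∈ P) => h m p (hb p ((p2 p hp).trans (by omega)))
  choose! k hk F s f1 f2 f3 f4 using key
  refine ⟨P.biUnion F, card_biUnion_le.trans ((sum_le_card_nsmul _ _ _ f1).trans
    ((Nat.mul_le_mul_right _ p1).trans hN)), fun y hy hU => ?_⟩
  obtain ⟨p, hp, h1⟩ := p3 y (hy.trans (by omega))
  have a1 := Nat.mul_le_mul_right (S.H m) (hk p hp)
  have a2 := hH m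
  have a3 : S.d p y + 3 * k p * S.H m + (0 + 1) * S.H m ≤ S.ρ (m + 1) := by
    rw [ok.d]; nlinarith [Nat.div_mul_le_self (S.ρ (m + 1)) 2]
  have a4 : S.Lam * s p ≤ G.Sg m := (Nat.mul_le_mul_left _ (f3 p hp)).trans (ok.Sg m).1
  rcases hU with hU | hU
  · obtain ⟨f, hf, h2⟩ := f4 p hp y (by omega) hU
    exact ⟨f, mem_biUnion.2 ⟨p, hp, hf⟩, ok.d _ _ ▸ h2.trans ((f3 p hp).trans (ok.Sx_Sg m))⟩
  · by_contra hn
    refine hU ((f4 p hp).iso (f2 p hp) (f3 p hp) (f1 p hp) a3 fun f hf => lt_of_not_ge fun h2 =>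
      hn ⟨f, mem_biUnion.2 ⟨p, hp, hf⟩, ok.d _ _ ▸ h2.trans a4⟩)

open Classical in
/-- the junk sets of G1: level `l + 1` = junk of scale `l`. -/
noncomputable def jf (J : ℕ → Tor 3 L → Prop) : ℕ → Finset (Tor 3 L)
  | 0 => ∅
  | l + 1 => univ.filter (J l)

lemma mem_jf {J : ℕ → Tor 3 L → Prop} {l : ℕ} {y : Tor 3 L} : y ∈ jf J (l + 1) ↔ J l y := by
  simp [jf]

/-- the scales of G1 are large enough for the covers. -/
structure Fit (S : Sys (Tor 3 L) α κ) (P : G1.Scales) : Prop where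
  d : ∀ x y, S.d x y = tdist x y
  a : ∀ l, S.N + S.a1 ≤ P.a (l + 1)
  σ : ∀ l, (S.Lam + 1) * S.Sx l ≤ P.σ (l + 1)
  η : ∀ l, 4 * P.η (l + 1) + (3 * S.tm + 1) * S.H l ≤ S.ρ (l + 1)

variable {P : G1.Scales}

/-- **`CovIn`** for the junk together with the failing cells. -/
theorem Lc.covFl (h : Lc S U) (f : Fit S P) (Lf : Tor 3 L → Prop) {m : ℕ} (hm : 1 ≤ m) :
    G1.CovAt P (jf fun l y => U l y ∨ S.Fl U Lf l y) m := fun c hc => by
  classical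
  obtain ⟨l, rfl⟩ : ∃ l, m = l + 1 := ⟨m - 1, by omega⟩
  rw [mem_jf, not_or] at hc
  obtain ⟨k, hk, F, s, f1, f2, f3, f4⟩ := h l c hc.1
  obtain ⟨F1, g1, g2⟩ := f4.stage (L := Lf) (n := S.a1) f2 f3 f1 hc.2
  refine ⟨F ∪ F1, (card_union_le _ _).trans ((add_le_add f1 g1).trans (f.a l)), fun y hy h1 => ?_⟩
  have a1 := Nat.mul_le_mul_right (S.H l) hk
  have a2 := f.η l
  obtain ⟨u, hu, h2⟩ := g2 y (by rw [f.d]; nlinarith) (mem_jf.1 hy)
  exact ⟨u, hu, f.d _ _ ▸ h2.trans ((Nat.mul_le_mul_left _ f3).trans (f.σ l))⟩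

theorem Lc.covIn {Γ : Type} [DecidableEq Γ] (h : Lc S U) (f : Fit S P)
    (Lf : Finset Γ → Tor 3 L → Prop) (C : Finset Γ) (m : ℕ) (hm : 1 ≤ m) :
    G1.CovIn P (jf (Jc S U Lf C)) m := fun c _ hc => h.covFl f (Lf C) hm c hc

/-- **`CovIn`** for the static junk. -/
theorem Lc.covIn0 (h : Lc S U) (f : Fit S P) (m : ℕ) (hm : 1 ≤ m) : G1.CovIn P (jf U) m := by
  have e : (fun l y => U l y ∨ S.Fl U (fun _ => False) l y) = U := by
    funext l y
    exact propext ⟨fun k => k.resolve_right fun k => (fl_leaf k).elim fun _ k => k.1, .inl⟩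
  exact fun c _ hc => (e ▸ h.covFl f (fun _ => False) hm) c hc

end tor

/-! ### the leaves of the concrete system -/

section leaf
variable {L n T : ℕ} [NeZero L] [NeZero T] {F : I.Lf} {B C E : I.Ev L n T} {Z : Finset (Tor 3 L)}
  {x : Tor 3 L}

lemma cnt_pos {R : Finset (I.V L n T)} {k r : ℕ} {z : Tor 3 L} (h : 0 < I.cnt (I.vis Z R) k z r) :
    ∃ u, ¬ I.dead Z u ∧ tdist z u ≤ r := by
  obtain ⟨y, hy⟩ := card_pos.1 h
  exact ⟨y.1, (I.mem_vis.1 (mem_filter.1 hy).2.1).2, (mem_filter.1 hy).2.2⟩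

/-- a leaf sees a visible site. -/
theorem W0_alive (h : I.W0 F C E Z x) : ∃ u, ¬ I.dead Z u ∧ tdist x u ≤ F.r0 := by
  classical
  rcases h with ⟨k, h⟩ | ⟨i, h⟩ | ⟨s, -, i, h⟩
  · exact cnt_pos (Nat.zero_lt_of_lt h)
  · obtain ⟨k, -, h1⟩ := exists_ne_zero_of_sum_ne_zero (Nat.zero_lt_of_lt h).ne'
    exact cnt_pos (Nat.pos_of_ne_zero h1)
  · obtain ⟨i', hi⟩ := card_pos.1 (Nat.zero_lt_of_lt h)
    obtain ⟨k, -, z, h1, h2⟩ := (mem_filter.1 hi).2.1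
    obtain ⟨u, h3, h4⟩ := cnt_pos (lt_of_lt_of_le (by omega) h2)
    have := tdist_triangle x z u
    have := F.rr_le (s + 1)
    exact ⟨u, h3, by omega⟩

theorem W0_bot : ¬ I.W0 F ⊥ E Z x := by
  classical
  rintro (⟨k, h⟩ | ⟨i, h⟩ | ⟨s, -, i, h⟩)
  · obtain ⟨y, hy⟩ := card_pos.1 (Nat.zero_lt_of_lt h)
    exact notMem_empty _ (I.vis_sub (mem_filter.1 hy).2.1)
  · obtain ⟨k, -, h1⟩ := exists_ne_zero_of_sum_ne_zero (Nat.zero_lt_of_lt h).ne'
    obtain ⟨y, hy⟩ := card_pos.1 (Nat.pos_of_ne_zero h1)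
    exact notMem_empty _ (mem_sdiff.1 (I.vis_sub (mem_filter.1 hy).2.1)).1
  · obtain ⟨i', hi⟩ := card_pos.1 (Nat.zero_lt_of_lt h)
    exact (mem_filter.1 hi).2.2 ((mem_filter.1 hi).2.1.mono (F.rr_anti (Nat.le_succ s))
      (I.vis_mono (union_empty _).subset Subset.rfl))

/-- locality of the leaves. -/
theorem W0_loc (h : I.W0 F (C ⊔ B) E Z x) (hB : ∀ z, I.hit B z → F.r0 < tdist x z) :
    I.W0 F C E Z x := by
  classical
  have key : ∀ v : I.V L n T, tdist x v.2.1 ≤ F.r0 → v ∉ B.1 ∧ v ∉ B.2 := fun v hv =>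
    not_or.1 fun h1 => absurd hv (not_le.2 (hB _ ⟨v, h1, rfl⟩))
  rcases h with ⟨k, h⟩ | ⟨i, h⟩ | ⟨s, hs, i, h⟩
  · exact .inl ⟨k, h.trans_le (I.cnt_le fun y h1 h2 => ⟨I.mem_vis.2 ⟨(mem_union.1
      (I.mem_vis.1 h1).1).resolve_right (key _ h2).1, (I.mem_vis.1 h1).2⟩, h2⟩)⟩
  · refine .inr (.inl ⟨i, h.trans_le (sum_le_sum fun k _ => I.cnt_le fun y h1 h2 => ⟨?_, h2⟩)⟩)
    obtain ⟨h3, h4⟩ := I.mem_vis.1 h1
    exact I.mem_vis.2 ⟨mem_sdiff.2 ⟨(mem_union.1 (mem_sdiff.1 h3).1).resolve_right (key _ h2).2,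
      (mem_sdiff.1 h3).2⟩, h4⟩
  · refine .inr (.inr ⟨s, hs, i, h.trans_le (card_le_card (monotone_filter_right _
      fun i' _ ⟨⟨k, hk, z, h1, h2⟩, h3⟩ => ⟨⟨k, hk, z, h1, h2.trans
        (I.cnt_le fun y h4 h5 => ⟨?_, h5⟩)⟩, h3⟩))⟩)
    have := tdist_triangle x z y.1
    have := F.rr_le (s + 1)
    obtain ⟨h6, h7⟩ := I.mem_vis.1 h4
    exact I.mem_vis.2 ⟨mem_union.2 ((mem_union.1 h6).imp_right fun h8 =>
      (mem_union.1 h8).resolve_right (key (_, y) (by simp only; omega)).1), h7⟩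

/-- a few more change points cost one rung. -/
theorem G0_add {t : ℕ} {X : Finset (I.V L n T)} (h : I.G0 F t E Z x) (hD : F.D ≤ T)
    (hX : X.card ≤ 2 * F.j1) : I.G0 F (t + 1) (E.1, E.2 ∪ X) Z x := fun i => by
  have k := (h i).mono (Nat.le_succ t) le_rfl Subset.rfl
  refine ⟨k.c1, fun i' hi => ?_, k.c3⟩
  have a1 := (h i).c2 i' hi
  have a2 := (I.chg_le_card (X := I.vis Z X) (i := i') (z := x) (r := F.r0) hD).trans
    ((card_le_card I.vis_sub).trans hX)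
  have a3 := I.chg_union (D := F.D) (R := I.vis Z E.2) (R' := I.vis Z X) (i := i') (z := x)
    (r := F.r0)
  rw [← I.vis_union] at a3
  exact a3.trans (by rw [mul_add, add_mul]; omega)

end leaf

/-! ### the engine on a class -/

section core
variable {L n T : ℕ} [NeZero L] [NeZero T]

/-- the word of the leaf events. -/
structure Lw (ex ey : Fin T → Tor 3 L × Fin n) (F : I.Lf) (p0 : Fin T → ℝ) (Es w B : ℕ) (θ : ℝ) :
    Prop where
  word : RR.Word ex ey p0 Es w B θ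
  blk : Wk.Blk ex ey p0
  hD : F.D = w * Es
  hl : 1 ≤ F.l ∧ F.l < B

/-- **all numbers of the engine** (`d` dense parties, living sites in a ball of radius `r`). -/
structure Pk (ex ey : Fin T → Tor 3 L × Fin n) (P : I.Num) (z0 : Tor 3 L) (G : Eg) (Q : Pz)
    (W : Gl.Wd T) (d r : ℕ) : Prop where
  ok : Tr.Ok (I.sys n T P z0) G
  nm : Nm (I.sys n T P z0) G Q L n T
  gr : ∃ (Sc : G1.Scales) (k k' th : ℕ → ℕ) (j d0 Nb : ℕ) (e : ℝ),
    Gl.Nu W L P.toLf Sc (P.tm + 2) 2 j ∧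
    Gl.NH (I.sys n T P z0) G Sc k k' Q P.toLf W.B W.κ 0 e d0 Nb ∧ W.er L n ≤ e ∧
    Tb.Nu (I.sys n T P z0) G Sc k k' th ∧ Fit (I.sys n T P z0) Sc ∧
    4 * (2 * r + 1) ^ 3 ≤ Gl.vT G k
  lf : ∃ (N : Wk.Lv) (Es w B : ℕ) (θ : ℝ), Lw ex ey P.toLf W.p0 Es w B θ ∧ P.tm ≤ N.t ∧
    Wk.NmE ex ey N P G Q.η (I.sys n T P z0).loc W.p0 d Es w B 2 θ
  hd : P.k0 + 27 + d ≤ P.tm
  N0 : 343 * P.N ≤ G.N0
  hH : ∀ l, 2 * ((3 * P.tm + 1) * P.H l) ≤ P.ρ (l + 1)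
  r0 : P.r0 + 1 ≤ P.ρ 0
  one : 1 ≤ P.a1 ∧ 1 ≤ P.j1
  top : 2 * (I.sys n T P z0).loc (G.mt - 1) + 2 * (r + 1) ≤ P.sep (G.mt - 1)
  hJ : n * (2 * r + 1) ^ 3 < 2 ^ Q.J

variable {ex ey : Fin T → Tor 3 L × Fin n} {P : I.Num} {z0 : Tor 3 L} {G : Eg} {Q : Pz}
  {W : Gl.Wd T} {d r M R m : ℕ} {p : Fin T → ℝ} {b : I.V L n T → ℝ} {Y : ℝ} {E : I.Ev L n T}
  {X0 : Finset (I.V L n T)} {Z F : Finset (Tor 3 L)} {c y : Tor 3 L}

open Classical in
/-- **the engine in a pinned model of a class.** -/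
theorem core (K : Pk ex ey P z0 G Q W d r) (hW : W.Ok ex ey P.toLf)
    (md : Gl.Md W ex ey p (E.1, E.2 ∪ X0)) (hX : X0.card ≤ 2) (hb : ∀ v, 0 ≤ b v ∧ b v ≤ 1)
    (hE : ∀ v ∈ E.1, b v = 0) (hZ : ∀ v, v.2.1 ∈ Z → b v = 0) (hY : 0 < Y ∧ Y < 1)
    (h0 : ∀ v, Bi.bs b Y v ≤ W.b0 v.1) (hr : ∀ z ∉ Z, tdist c z ≤ r) (hM : M < G.mt)
    (hc : Cls (I.sys n T P z0) d E Z M P.tm F R) (hF : F.card ≤ P.N)
    (hR : F.Nonempty → R ≤ P.Sx M) (hm : m < G.mt)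
    (hy : ∀ l, m ≤ l → (I.sys n T P z0).Iso (Uc (I.sys n T P z0) d E Z M F R) l y) :
    Bi.BM ex ey p b Y (fun _ l => if (I.sys n T P z0).Fl (Uc (I.sys n T P z0) d E Z M F R)
      (I.W0 P.toLf (I.ev ex ey l.toFinset) E Z) m y then 1 else 0) ≤ eps (I.sys n T P z0) G Q n m := by
  set S := I.sys n T P z0 with hS
  set U := Uc S d E Z M F R with hU
  obtain ⟨Sc, k, k', th, j, d0, Nb, e, nu, nh, er, tb, fit, vt⟩ := K.gr
  obtain ⟨N, Es, w, B, θ, lw, ht, ne⟩ := K.lf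
  have Md : Wk.Md ex ey P.toLf p W.p0 E X0 Es w B 2 θ :=
    ⟨lw.word, lw.blk, lw.hD, lw.hl, md.hp, md.free, md.rp, hX⟩
  have lc : Lc S U := lc_Uc hc K.hd hF hR
  have gd : ∀ l ≤ M, ∀ u, ¬ U l u → S.Good d E Z l P.tm u := fun l hl u hu => Uc.good hc K.hd hl hu
  have gd' : ∀ l ≤ M, ∀ u, ¬ U l u → S.Good d E Z l N.t u := fun l hl u hu => (gd l hl u hu).up ht
  have hF' : ∃ (F : Finset (Tor 3 L)) (R : ℕ), F.card ≤ P.N ∧ R ≤ P.Sx M ∧
      ∀ y, (∀ f ∈ F, R < tdist f y) → S.Good d E Z M N.t y := by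
    rcases F.eq_empty_or_nonempty with h | h
    · exact ⟨∅, 0, by simp, Nat.zero_le _, fun y _ => (hc y (by simp [h, Sys.Off])).up ht⟩
    · exact ⟨F, R, hF, hR h, fun y hy => (hc y hy).up ht⟩
  have top : ∀ C u, ¬ Jc S U (fun C => I.W0 P.toLf (I.ev ex ey C) E Z) C G.mt u := fun C u => by
    refine not_or.2 ⟨Uc_gt hM, ?_⟩
    rw [show G.mt = G.mt - 1 + 1 by omega]
    refine not_fl (A := fun u => ¬ I.dead Z u) K.one.1 (fun z hz => ?_) (fun u u' a a' => ?_) K.top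
    · obtain ⟨u, h1, h2⟩ := W0_alive hz
      exact ⟨u, h1, h2.trans P.r0_le⟩
    · simp only [I.dead, not_forall] at a a'
      obtain ⟨z, a1, a2⟩ := a
      obtain ⟨z', b1, b2⟩ := a'
      have := hr z a2
      have := hr z' b2
      have := tdist_triangle u z c
      have := tdist_triangle u c z'
      have := tdist_triangle u z' u'
      have := tdist_comm z c
      have := tdist_comm z' u'
      show tdist u u' ≤ _
      omega
  refine eng ex ey S G Q p b Y U (fun C => I.W0 P.toLf (I.ev ex ey C) E Z) _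
    ⟨md.hp, hb, hY, K.ok, K.nm, fun g hg => ?_, ?_, Wk.hp (Z := Z) Md ne, fun ξ l hξ _ hl => ?_⟩
    m hm y fun l hl _ => hy l hl
  · refine lt_of_le_of_lt (le_trans (card_le_card fun x hx => Wk.mem_sl.2 (hr _ fun a => ?_))
      (Wk.card_sl c r)) K.hJ
    exact prod_ne_zero_iff.1 hg _ (mem_filter.1 hx).2 (hZ _ a)
  · have z : ∀ v, b v = 0 → Bi.bs b Y v = 0 := fun v hv => by simp [Bi.bs, hv]
    refine Gl.ht (th := th) hW md nu le_rfl (Bi.bs_fld hb hY.1.le hY.2)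
      (I.le_bE h0 (fun v hv => z v (hE v hv)) fun v hv => z v (hZ v hv))
      (.inr ⟨le_rfl, c, r, hr, vt⟩) er nh fun ξ C _ _ => ⟨jf (Jc S U _ C), ⟨tb, ?_, fun l _ u hu =>
        ⟨u, by rw [tdist_self]; omega, mem_jf.1 hu⟩⟩, fun l hl _ => lc.covIn fit _ C l hl,
        fun u hu => ?_⟩
    · rw [tb.mt]
      exact eq_empty_of_forall_notMem fun u hu => top C u (mem_jf.1 hu)
    · rw [mem_jf, Jc, not_or] at hu
      refine fun i => (G0_add (S.G0_step hu.2 (gd 0 (Nat.zero_le _) u hu.1)) Md.DT.2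
        (hX.trans (by have := K.one.2; omega)) i).mono le_rfl ⟨Subset.rfl, ?_⟩ Subset.rfl
      exact (union_right_comm _ _ _).subset
  · have hg : ∀ i < l.length, sq l i ∈ Gas.L ex ey ξ ∧ ub b (sq l i) ≠ 0 := fun i hi =>
      hl _ (by rw [sq, List.getD_eq_getElem _ _ hi]; exact List.getElem_mem hi)
    refine ⟨lc.uc K.ok K.N0 K.hH, top _, fun C C' u h a => a.mono (I.ev_mono h),
      fun u a => W0_bot (I.ev_empty (ex := ex) (ey := ey) ▸
        (show I.W0 _ (I.ev ex ey ∅) _ _ _ from a)), fun i hi u a a' => ?_,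
      Wk.leaf Md ne gd' hF' hE hZ hξ hg, Wk.fast Md ne gd' hF' hE hZ hξ hg⟩
    by_contra hn
    have e : St (sq l) (i + 1) = St (sq l) i ∪ {sq l i} := by
      rw [St, St, range_add_one, image_insert, insert_eq, union_comm]
    change I.W0 _ (I.ev ex ey _) _ _ _ at a
    rw [e, I.ev_union] at a
    refine a' (W0_loc a fun z hz => lt_of_not_ge fun h1 => hn ?_)
    rw [I.ev_eq (ξ := ξ) (singleton_subset_iff.2 (hg i hi).1)] at hz
    obtain ⟨v, h2, h3⟩ := I.hit_evp hW.nn hz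
    have h4 := K.r0
    have := tdist_triangle u z v.2.1
    have := tdist_comm z v.2.1
    refine ⟨v, show v ∈ (sq l i).2 by simpa [pts] using h2, (?_ : tdist u v.2.1 ≤ P.ρ 0)⟩
    rcases h3 with h3 | h3
    · rw [h3]; omega
    · omega

variable {Gm : N337.M.Bs T (Tor 3 L × Fin n)} {B nc R0 R1 : ℕ} {Sd : Finset (I.V L n T) → Prop}
  {s : N337.M.Cfg T (Tor 3 L × Fin n)} {A : Finset (I.V L n T)} {ξ0 : Fin T → Bool}

omit [NeZero L] in
/-- without fugacity there are no loops. -/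
theorem pm_zero {Λ : Type} [Fintype Λ] [DecidableEq Λ] {Gm : N337.M.Bs T Λ} {p : Fin T → ℝ}
    {b : Fin T × Λ → ℝ} (hb : ∀ x, b (0, x) = 0) {A : Finset (Lp T Λ) → Prop} (hA : ¬ A ∅) :
    pb (C9.PM Gm p b) A = 0 := by
  classical
  refine sum_eq_zero fun ξ _ => mul_eq_zero_of_right _ (sum_eq_zero fun B hB => ?_)
  rcases B.eq_empty_or_nonempty with rfl | ⟨g, hg⟩
  · exact mul_eq_zero_of_right _ (if_neg hA)
  · have h1 := mem_powerset.1 hB hg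
    obtain ⟨x, hx⟩ := card_pos.1 (Cr.wd_pos h1)
    have h2 : ub b g = 0 := prod_eq_zero (mem_filter.1 hx).2 (hb x)
    have h3 : Pe.wt (ub b) (Gas.L Gm.ex Gm.ey ξ) B = 0 := prod_eq_zero h1 ((if_pos hg).trans h2)
    rw [h3, zero_mul]

/-- one cell in a configuration with an arc. -/
theorem cell (K : Pk Gm.ex Gm.ey P z0 G Q W d r) (w : C9.Wr W Gm P.toLf Y) {ε : ℝ} (h0 : 0 ≤ ε)
    (hε : eps (I.sys n T P z0) G Q n m ≤ ε)
    (hs : Gm.Val s) (hr : ∀ v ∉ s.Z, tdist c v.2.1 ≤ r) (hA : Arc.ends Gm.ex Gm.ey ξ0 A ≤ 1)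
    (hE : E = I.ev Gm.ex Gm.ey s.e ⊔ I.evp Gm.ex Gm.ey ξ0 A) (hM : M < G.mt)
    (hc : Cls (I.sys n T P z0) d E (I.kil s.Z) M P.tm F R) (hF : F.card ≤ P.N)
    (hR : F.Nonempty → R ≤ P.Sx M) (hm : m ≤ M)
    (hy : ∀ l, m ≤ l → (I.sys n T P z0).Iso (Uc (I.sys n T P z0) d E (I.kil s.Z) M F R) l y) :
    pb (C9.PM Gm (Arc.pin (Gm.pn s) (Arc.tch Gm.ex Gm.ey A) ξ0) (Arc.kill (Gm.mdl Y s).b A))
      (fun C => Ld.Fl (I.sys n T P z0) d E (I.kil s.Z) (I.ev Gm.ex Gm.ey C) m y) ≤ ε := by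
  classical
  rcases w.Y0.eq_or_lt with rfl | hY
  · refine (pm_zero (fun x => ?_) fun h => ?_).trans_le h0
    · simp [Arc.kill, N337.M.Bs.mdl, kill, Top.bt]
    · rw [I.ev_empty] at h
      obtain ⟨_, k, -⟩ := fl_leaf h
      exact W0_bot k
  refine le_trans ?_ hε
  obtain ⟨ξ, -, hξ⟩ := Gas.qq_supp hs
  have md : Gl.Md W Gm.ex Gm.ey (Gm.pn s) (I.ev Gm.ex Gm.ey s.e) :=
    ⟨w.ok.pn s, fun r hr => by rw [w.p0]; exact if_neg hr, I.rp_ev _ hξ⟩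
  have e : Bi.bs (kill (fun _ => 1) (s.K ∪ A)) Y = Arc.kill (Gm.mdl Y s).b A := by
    funext v
    simp only [Bi.bs, kill, Arc.kill, N337.M.Bs.mdl, Top.bt, mem_union]
    by_cases a : v ∈ s.K <;> by_cases a' : v ∈ A <;> simp [a, a']
  have hb := ((C9.fld (G := Gm) w.Y0 w.Y1 s).kill A).mem
  have hP := C9.pl_PM (G := Gm) (md.child A ξ0).hp hb
  subst hE
  have := core (b := kill (fun _ => 1) (s.K ∪ A)) (c := c) K w.wd (md.child A ξ0)
    (I.card_opn.trans (by omega)) (fun v => by unfold kill; split_ifs <;> norm_num)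
    (fun v hv => if_pos ((mem_union.1 hv).elim (fun a => mem_union_left _ (mem_union_right _ a))
      (mem_union_right _))) (fun v hv => if_pos (mem_union_left _ (mem_union_left _ (I.mem_of_kil hv))))
    ⟨hY, w.Y1⟩ (fun v => le_trans ?_ (w.b0 v)) (fun z hz => ?_) hM hc hF hR (hm.trans_lt hM) hy
  · refine (hP.pb_imp fun _ _ h => fl_Uc (F := F) (R := R) h hm).trans (le_trans (le_of_eq ?_) this)
    rw [Ld.pb_eq, Bi.BM_set _ _ _ fun _ C => if (I.sys n T P z0).Fl _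
      (I.W0 P.toLf (I.ev Gm.ex Gm.ey C) _ _) m y then 1 else 0, e]
    simp only [Ld.sum_bw]
    rfl
  · simp only [Bi.bs, kill, Top.bt]
    split_ifs <;> simp [hY.le]
  · simp only [I.mem_kil, not_forall] at hz
    obtain ⟨t, a, hz⟩ := hz
    exact hr _ hz

/-- **F2 given an arc.** -/
theorem f2a (K : Pk Gm.ex Gm.ey P z0 G Q W d r) (w : C9.Wr W Gm P.toLf Y)
    (hS : ∀ Z, Sd Z → ∃ c, ∀ v ∉ Z, tdist c v.2.1 ≤ r) (hm : m < G.mt) (hN : nc ≤ P.N)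
    (hR : nc ≠ 0 → R0 ≤ P.Sx m ∧ P.Lam * max R0 (P.sep m) ≤ R1) {ε : ℝ} (h0 : 0 ≤ ε)
    (hε : eps (I.sys n T P z0) G Q n m ≤ ε) {hT : T = B * P.D} {hp : C9.PtN P.toLf B} :
    C9.F2A (C9.ppI Gm P z0 hT hp) Sd Y d m nc R0 R1 ε :=
  fun s F _ _ _ hs h1 hF hc hA hx => by
  obtain ⟨c, h2⟩ := hS _ h1
  have h3 : F.Nonempty → _ := fun h => hR fun a => h.card_pos.ne' (by omega)
  exact cell K w h0 hε hs h2 hA rfl hm hc (hF.trans hN) (fun h => (h3 h).1) le_rfl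
    fun l hl => Uc.iso (hF.trans hN) h3 hx hl

/-- **N2.** -/
theorem n2 (K : Pk Gm.ex Gm.ey P z0 G Q W d r) (w : C9.Wr W Gm P.toLf Y)
    (hS : ∀ Z, Sd Z → ∃ c, ∀ v ∉ Z, tdist c v.2.1 ≤ r) (hm : m + 1 < G.mt) {ε : ℝ} (h0 : 0 ≤ ε)
    (hε : eps (I.sys n T P z0) G Q n m ≤ ε) :
    Ld.N2 (I.ins Gm.ex Gm.ey P z0) Gm Sd Y d m (vol (P.ρ (m + 1)) * ε) := fun s x a => by
  classical
  obtain ⟨c, h2⟩ := hS _ a.sd
  have hP := Ld.pl_PC w.ok w.Y0 w.Y1.le s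
  set S := I.sys n T P z0
  set E := I.ev Gm.ex Gm.ey s.e
  refine (Ld.Sub.un hP.sub ((Geo.bl x (P.ρ (m + 1))).filter (S.Iso (S.Jk d E (I.kil s.Z)) m))
    (fun y C => Ld.Fl S d E (I.kil s.Z) (I.ev Gm.ex Gm.ey C) m y) (ε := ε) ?_ fun y hy => ?_).trans ?_
  · rintro C ⟨Y, h3, h4, -⟩
    obtain ⟨y, hy⟩ := card_pos.1 (by omega : 0 < Y.card)
    exact ⟨y, mem_filter.2 ⟨Geo.mem_bl.2 (h4 y hy).1, (h4 y hy).2.1⟩, (h4 y hy).2.2⟩
  · have := cell (A := ∅) (ξ0 := fun _ => false) (E := E) (y := y) K w h0 hε a.val h2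
      (by rw [Arc.ends_empty]; omega) (by rw [I.evp_empty, sup_bot_eq]) hm a.cl (by simp) (by simp)
      (Nat.le_succ m) fun l hl => ?_
    · rw [Arc.pin_empty, Arc.kill_empty] at this
      exact this
    · rcases hl.eq_or_lt with rfl | hl
      · exact (mem_filter.1 hy).2.mono fun u hu => (Uc_lt (Nat.lt_succ_self _)).1 hu
      · exact Uc.iso (R1 := 0) (by simp) (by simp) (by simp [Sys.Off]) hl
  · refine mul_le_mul_of_nonneg_right ((Nat.cast_le.2 (card_filter_le _ _)).trans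
      ((Geo.card_bl x _).trans_eq ?_)) h0
    rw [vol]; push_cast; ring

end core

end Crest.Agent.N337.En
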