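import Crest.Agent.N337.E.Leaf

/-!
# Row 337, ENG leaves (helper86): the cluster leaf J3 and the reduction of the base leaf
-/

set_option autoImplicit false
set_option linter.unusedSectionVars false

namespace Crest.Agent.N337.Wk

open Finset Equiv Crest.Agent.N337.Rep Crest.Agent.N337.Arc Free KV Geo I WN

variable {L n T : ℕ} [NeZero L] [NeZero T] (ex ey : Fin T → Tor 3 L × Fin n)

/-- numbers of the base leaf: `m` strands, `f` free jumps, speed `W`, `k` returns at gaps `τ`. -/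
structure Lq where
  t : ℕ
  m : ℕ
  f : ℕ
  W : ℕ
  τ : ℕ
  k : ℕ
  c : ℝ
  Γ : ℝ

/-- range of the grid points, local radius. -/
def Lq.R (N : Lq) (F : Lf) : ℕ := F.r0 + F.l * N.W + 1
def Lq.ρ (N : Lq) (F : Lf) : ℕ := F.r0 + (2 * F.l + 1) * N.W + 2

/-- **side conditions of the base leaf.** -/
structure Nm0 (N : Lq) (F : Lf) (p0 : Fin T → ℝ) (Es w B x0 : ℕ) (θ : ℝ) : Prop where
  m : N.m ≤ F.n1 + 1
  W : N.f + 27 * (2 * N.t * F.j1 + x0) ≤ N.W
  ρ : (2 * F.l + 1) * N.W + 1 ≤ 2 * F.r0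
  hθ : 7 * θ ≤ 1
  c : 7 * θ * (w + (27 * (2 * N.t * F.j1 + x0) : ℕ)) ≤ N.c
  j1 : x0 + 2 * (N.m * N.f + N.m * n ^ 2) ≤ F.j1
  dl : N.m * (F.A + F.l * N.W + 1) ≤ F.dl
  l1 : 0 < N.τ ∧ N.m * (N.τ * N.k) ≤ F.l1
  g1 : ∃ (P : G1.Scales) (q κ : ℝ) (Bd : Finset ℕ) (j K : ℕ), P.Ok L ∧
    G1.Clock ex ey p0 b2 Es w B q κ Bd ∧ (11 * P.ρ 0 + 6 ≤ F.A ∧ F.A ≤ P.η 0) ∧
    2 * (N.t + 1) * F.n1 ≤ P.a 0 ∧ P.a 0 + 2 * (2 * (N.t + 1) * F.j1 + (x0 + 2 * N.m)) ≤ j ∧
    2 * (Bd.card + L ^ 3 * j + 1) ≤ w ∧ 2 * (2 ^ K - 1) < L ∧ P.η 0 ≤ 2 ^ K - 1 ∧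
    4 * (2 * F.r0 + 1) ^ 3 ≤ (2 * (2 ^ K - 1) + 1) ^ 3 ∧
    (j * (n * (2 * (2 * F.A + N.W) + 1) ^ 3) : ℕ) *
      (G1.Cg κ * (G1.Cc P F.A 1 1 / N.τ + G1.err q (1 / 2) L n B)) ≤ N.Γ

/-- **the coin event of the base leaf.** -/
def Ev0 (N : Lq) (F : Lf) (p p0 : Fin T → ℝ) (E : Ev L n T) (Z : Finset (Tor 3 L)) (B : ℕ)
    (x : Tor 3 L) (ξ : Fin T → Bool) : Prop :=
  FE ex ey p0 (Fr ex ey E) (loc ex ey Z x (N.ρ F)) B F.D (N.ρ F) N.c N.f x ξ ∨
    RE ex ey F p E.1 Z B N.m (N.R F) (N.ρ F) N.τ N.k (2 * F.A + N.W) N.Γ x ξ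

variable {ex ey} {F : Lf} {N : Lq} {p p0 : Fin T → ℝ} {E : Ev L n T} {X0 C O R : Finset (V L n T)}
  {Es w B x0 t d i : ℕ} {θ : ℝ} {Z : Finset (Tor 3 L)} {ξ ξ' : Fin T → Bool}
  {x : Tor 3 L} {y : Tor 3 L × Fin n} {v : V L n T}

lemma Cl_rad {r r' : ℕ} (h : Cl F r R x i) (hr : r ≤ r') : Cl F r' R x i :=
  let ⟨k, a, z, b, c⟩ := h; ⟨k, a, z, b.trans hr, c⟩

open Classical in
/-- one strand is charged with many windows. -/
lemma pigeon {ι : Type} [DecidableEq ι] (Q : Finset ι → ℕ → ℕ → Prop) (l δ g : ℕ) (X : Finset ι) :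
    ∀ r, X.card * g < ((range l).filter fun a => Q X r a ∧ ¬ Q ∅ (r + X.card * δ) a).card →
      ∃ X' u r', insert u X' ⊆ X ∧ u ∉ X' ∧ r' + δ ≤ r + X.card * δ ∧
        g < ((range l).filter fun a => Q (insert u X') r' a ∧ ¬ Q X' (r' + δ) a).card := by
  induction X using Finset.induction_on with
  | empty => intro r h; simp at h
  | insert u X hu ih =>
    intro r h
    rw [card_insert_of_notMem hu, add_mul, one_mul] at h ⊢
    by_cases h1 : g < ((range l).filter fun a => Q (insert u X) r a ∧ ¬ Q X (r + δ) a).card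
    · exact ⟨X, u, r, Subset.rfl, hu, by omega, h1⟩
    obtain ⟨X', u', r', a1, a2, a3, a4⟩ := ih (r + δ) (by
      refine lt_of_add_lt_add_right (h.trans_le ((card_le_card (t := _ ∪ _) fun a ha => ?_).trans
        ((card_union_le _ _).trans (add_le_add le_rfl (not_lt.1 h1)))))
      rw [add_mul, one_mul, show r + (X.card * δ + δ) = r + δ + X.card * δ by ring] at ha
      simp only [mem_union, mem_filter] at ha ⊢
      tauto)
    exact ⟨X', u', r', a1.trans (subset_insert _ _), a2, by omega, a4⟩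

lemma vis_zd (h : v ∈ vis (zd Z x d) R) : v ∈ vis Z R ∧ tdist x v.2.1 ≤ d + 1 := by
  refine ⟨vis_mono Subset.rfl subset_union_left h, not_lt.1 fun k => (mem_vis.1 h).2 fun z hz =>
    mem_union_right _ (mem_compl.2 fun a => ?_)⟩
  have := mem_bl.1 a
  have := tdist_triangle x z v.2.1
  rw [tdist_comm] at hz
  omega

lemma mem_tg {h k : ℕ} {y' : Tor 3 L × Fin n} (h1 : tdist x y.1 ≤ d)
    (h2 : k ∈ Ico (i * F.D) ((i + 2) * F.D)) (h3 : (tm T k, y) ∈ R) (h4 : tdist y.1 y'.1 ≤ h) :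
    (tm T (i * F.D), y') ∈ tg F R x d h i := by
  simp only [tg, mem_product, mem_singleton, mem_biUnion, mem_filter, mem_univ, true_and, mem_sl]
  exact ⟨y, ⟨h1, k, h2, h3⟩, h4⟩

lemma b2_mem (s : Fin T) : 0 ≤ b2 s ∧ b2 s ≤ 1 := by unfold b2; split_ifs <;> norm_num

lemma fld_bE (Z : Finset (Tor 3 L)) (R : Finset (V L n T)) : Fld (bE b2 Z R) :=
  ⟨fun v => ⟨(bE_mem (fun s => (b2_mem s).1) v).1,
    (bE_mem (fun s => (b2_mem s).1) v).2.trans (b2_mem _).2⟩,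
    fun _ => (bE_mem (fun s => (b2_mem s).1) _).2.trans_lt (by norm_num [b2])⟩

lemma prod_b2 (c a : ℕ) {b : ℕ} (hb : b ≤ T) : 1 / 2 ≤ ∏ j ∈ Ico a b, b2 (tm T (c + j)) := by
  unfold b2
  by_cases h : ∃ j ∈ Ico a b, tm T (c + j) = 0
  · obtain ⟨j, hj, h⟩ := h
    rw [prod_eq_single_of_mem j hj fun l hl e => if_neg fun k => e ((tm_add_inj c
      ((mem_Ico.1 hl).2.trans_le hb) ((mem_Ico.1 hj).2.trans_le hb)).1 (Eq.trans k h.symm)), if_pos h]
  · rw [prod_eq_one fun j hj => if_neg fun k => h ⟨j, hj, k⟩]; norm_num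

/-- **the Green function of the local model.** -/
theorem green (M : Md ex ey F p p0 E X0 Es w B x0 θ) (hN : Nm0 ex ey N F p0 Es w B x0 θ)
    (hG : G0 F N.t E Z x) (h1 : ¬ J1 F (evp ex ey ξ C) Z x) (h2 : ¬ J2 F (evp ex ey ξ C) E Z x)
    (hO : O ⊆ C) (hξ : ∀ s, ξ' s = true → ξ s = true) (he : Arc.ends ex ey ξ' O ≤ N.m)
    (hd : d + 1 ≤ F.r0) {a a' : ℕ} (ha : a < a') (ha' : a' < F.l)
    (hτ : N.τ ≤ ((fw F (vis Z (E.1 ∪ O)) x d i).filter fun b => a ≤ b ∧ b < a').card)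
    (hv : v.1 = tm T ((i + a) * F.D)) :
    ∑ z ∈ tg F (vis (zd Z x d) (E.1 ∪ O)) x d (2 * F.A + N.W) (i + a'), Gi ex ey
      (pin (lq p (nr ex x (N.ρ F))) (tch ex ey O) ξ') (bE b2 (zd Z x d) (E.1 ∪ O)) z v ≤ N.Γ := by
  classical
  obtain ⟨P, q, κ, Bd, j, K, g1, g2, g3, g4, g5, g6, g7, g8, g9, g10⟩ := hN.g1
  have nn := M.word.nn
  have hT := M.hT
  have hp := pin_mem (lq_mem M.hp (nr ex x (N.ρ F))) (tch ex ey O) ξ'
  set p' := pin (lq p (nr ex x (N.ρ F))) (tch ex ey O) ξ' with hp'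
  have rp : Rp ex ey p' (E.1 ∪ O) (E.2 ∪ X0 ∪ acp ex ey ξ' O ∪ opn ex ey ξ' O) :=
    Rp.child ⟨M.rp.c1, fun s y a b c => M.rp.c2 s y a b fun k => c (by simp [lq_eq, k])⟩ O ξ'
  let F' : Lf := ⟨F.D, F.l, F.n1, F.j1, F.l, F.A, F.A + F.r0 + L + 4 * P.η 0, 0, 1, 0, by omega,
    by omega⟩
  simp only [J1, J2, not_exists, not_lt] at h1 h2
  have G' : G0 F' (N.t + 1) (E.1 ∪ O, E.2 ∪ acp ex ey ξ C) (zd Z x d) x := fun i => by
    refine ⟨fun k _ => le_trans (cnt_le (R := vis Z E.1 ∪ vis Z C) (r := F.r0) fun y a _ => ⟨?_,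
      (vis_zd a).2.trans hd⟩) (cnt_union.trans ((add_le_add (hG.cnt_le hT M.hl.1 k) (h1 k)).trans
      (by simp only [F']; nlinarith))), fun i' _ => le_trans (sum_le_sum fun k _ => cnt_le
      (R := vis Z E.2 ∪ vis Z (acp ex ey ξ C \ E.2)) (r := F.r0) fun y a _ => ⟨?_,
      (vis_zd a).2.trans hd⟩) (chg_union.trans ((add_le_add (hG.chg_le M.hl.1 i') (h2 i')).trans
      (by simp only [F']; nlinarith))), (card_filter_le _ _).trans (by simp [F']; nlinarith)⟩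
    · rw [← vis_union]; exact vis_mono (union_subset_union_right hO) Subset.rfl (vis_zd a).1
    · rw [← vis_union, union_sdiff_self_eq_union]; exact (vis_zd a).1
  have lf : ∀ x' r, r ≤ F.r0 + 4 * P.η 0 → G1.Leaf ex ey p' (vis (zd Z x d) (E.1 ∪ O)) F.D (P.a 0) j
      r x' := fun x' r hr => G'.leaf (X0 := X0 ∪ opn ex ey ξ' O) (x0 := x0 + 2 * N.m) hT M.hl.1 rp
    Subset.rfl (fun ⟨s, y⟩ h => by
      simp only [mem_union, mem_acp] at h ⊢
      rcases h with ((h | h) | h) | h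
      exacts [.inl (.inl h), .inr (.inl h), .inl (.inr ⟨hξ s h.1, h.2.1,
        h.2.2.1.imp (hO ·) (hO ·), h.2.2.2⟩), .inr (.inr h)])
    ((card_union_le _ _).trans (add_le_add M.x0 (card_opn.trans (by omega)))) g4 g5
    (by have := tdist_le_half x x'; simp only [F']; omega)
  have e0 := env_vis nn (p := p0) (R := E.1 ∪ O) (fun _ _ => rfl) b2 (zd Z x d)
  have env : G1.Env ex ey p' p0 (bE b2 (zd Z x d) (E.1 ∪ O)) b2 (vis (zd Z x d) (E.1 ∪ O))
      (zd Z x d) := by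
    refine ⟨fun s _ => nn s, e0.bR, e0.bZ, e0.bf, fun s a1 a2 => ?_⟩
    by_cases h : Gas.tch ex ey (E.1 ∪ O) s
    · refine .inr (h.elim (fun k => ?_) fun k => ?_)
      · have : dead _ (ex s).1 := of_not_not fun a => a1 (mem_vis.2 ⟨k, a⟩)
        exact ⟨this.mem, this _ (nn s)⟩
      · have : dead _ (ey s).1 := of_not_not fun a => a2 (mem_vis.2 ⟨k, a⟩)
        exact ⟨this _ (tdist_comm _ _ ▸ nn s), this.mem⟩
    rw [tch_union', not_or] at h
    rw [hp', pin, if_neg fun k => h.2 ((mem_tch ex ey).1 k), lq_eq]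
    split_ifs with k
    · exact .inl (M.fr s h.1)
    have a3 := nn s
    have a4 := tdist_triangle x (ey s).1 (ex s).1
    rw [tdist_comm (ey s).1] at a4
    simp only [nr, mem_filter, mem_univ, true_and, Lq.ρ] at k
    simp only [zd, mem_union, mem_compl, mem_bl]
    exact .inr ⟨.inr (by omega), .inr (by omega)⟩
  have hz : ∀ v : V L n T, d < tdist x v.2.1 → bE b2 (zd Z x d) (E.1 ∪ O) v = 0 := fun v h =>
    env.bZ v (by simp [zd, mem_bl, h])
  have hD := D_pos hT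
  have hB := Nat.mod_lt (i + a) (B_pos hT)
  have hl := M.DT.1
  have hm : (a' - a) * F.D < T := lt_of_le_of_lt (Nat.mul_le_mul_right _ (by omega)) hl
  have e1 : (i + a') * F.D = (i + a) * F.D + (a' - a) * F.D := by rw [← add_mul]; congr 1; omega
  have h0 : 0 < (a' - a) * F.D := Nat.mul_pos (by omega) hD
  have hc := G1.Cg_nonneg g2.hκ
  have key : ∀ z : V L n T, z.1 = tm T ((i + a') * F.D) → Gi ex ey p' (bE b2 (zd Z x d) (E.1 ∪ O)) z v ≤
      G1.Cg κ * (G1.Cc P F.A 1 1 / N.τ + G1.err q (1 / 2) L n B) := fun z hz' => by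
    have e2 : v.1.val = (i + a) % B * F.D := by
      rw [hv, RR.Dt.tm_mod hT, tm_val_of_lt (hT ▸ Nat.mul_lt_mul_of_pos_right hB hD)]
    have e3 : G1.lag v.1 z.1 = (a' - a) * F.D := by rw [hv, hz', e1, RR.PtP.lag_tm _ h0 hm.le]
    have e4 : z ≠ v := fun k => h0.ne' ((tm_add_inj ((i + a) * F.D) hm (NeZero.pos T)).1
      (by rw [← e1, ← hz', k, hv]; rfl))
    set S := (fw F (vis Z (E.1 ∪ O)) x d i).filter fun b => a ≤ b ∧ b < a'
    have e5 : (S.image fun b => (i + a) % B + (b - a)).card = S.card :=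
      card_image_of_injOn fun b hb b' hb' e => by
        have := (mem_filter.1 hb).2
        have := (mem_filter.1 hb').2
        omega
    have := G1.G1u_clean (v := z) (grn ex ey hp (fld_bE _ _) (Y := 1 / 2) (by norm_num) (fun y =>
      (bE_mem (fun s => (b2_mem s).1) _).2.trans (by norm_num [b2])) v) (U := fun _ => ∅)
      ⟨env, g2, ⟨g1, fun _ _ _ _ h => by simp at h, fun _ _ x' _ => M.hD ▸ lf x' _ (by omega), g3⟩,
        g6⟩ rfl (fun _ _ _ _ h => by simp at h) g7 g8 le_rfl (G1.top_supp hz (le_trans (by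
        gcongr; omega) g9)) hz (S.image fun b => (i + a) % B + (b - a))
      (card_pos.1 (by have := hN.l1.1; omega)) fun b hb => ?_
    · rw [if_neg e4, sub_zero, zero_add, e5] at this
      refine this.trans (mul_le_mul_of_nonneg_left (add_le_add (div_le_div_of_nonneg_left
        G1.Cc_nonneg (Nat.cast_pos.2 hN.l1.1) (Nat.cast_le.2 hτ)) le_rfl) hc)
    obtain ⟨b, h3, rfl⟩ := mem_image.1 hb
    obtain ⟨h4, h5⟩ := mem_filter.1 h3
    rw [← M.hD, e2, e3, ← add_mul]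
    refine ⟨noCl (c := x) (r := d) (R := vis Z (E.1 ∪ O)) (fun k => (mem_filter.1 h4).2 ?_)
      (fun _ h => (vis_zd h).1) (by rw [tdist_self]; omega), Nat.mul_le_mul_right _ (by omega),
      Nat.mul_le_mul_right _ (by omega)⟩
    have := Nat.mod_add_div' (i + a) B
    rwa [show i + b = (i + a) % B + (b - a) + (i + a) / B * B by omega, cl_add hT]
  refine (sum_le_card_nsmul _ _ _ fun z hz => key z (mem_singleton.1 (mem_product.1 hz).1)).trans ?_
  rw [nsmul_eq_mul]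
  refine le_trans (mul_le_mul_of_nonneg_right (Nat.cast_le.2 ?_) (le_trans (Gi_nonneg ex ey hp
    (fld_bE _ _) _ v) (key (_, v.2) rfl))) g10
  rw [card_product, card_singleton, one_mul]
  refine (card_biUnion_le_card_mul _ _ _ fun y _ => card_sl y.1 _).trans (Nat.mul_le_mul_right _ ?_)
  convert (lf x d (by omega)).shd (i + a')

/-- in a charged window the strand is next to a point of the older set. -/
lemma charged {u : Tor 3 L × Fin n} {X : Finset (Tor 3 L × Fin n)} {r a : ℕ} (hl : F.l * F.D ≤ T)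
    (ha : a < F.l) (hr : r ≤ d) (h1 : Cl F r (vis Z (R ∪ arcs ex ey ({tm T (i * F.D)} ×ˢ insert u X)
      (F.l * F.D) ξ)) x (i + a)) (h2 : ¬ Cl F d (vis Z (R ∪ arcs ex ey ({tm T (i * F.D)} ×ˢ X)
      (F.l * F.D) ξ)) x (i + a)) : ∃ j ∈ Ico (a * F.D) ((a + 1) * F.D), ∃ y z,
      (tm T (i * F.D + j), y) ∈ vis Z (R ∪ arcs ex ey ({tm T (i * F.D)} ×ˢ X) (F.l * F.D) ξ) ∧
      tdist x z ≤ r ∧ tdist z y.1 ≤ F.A ∧ tdist z (arc ex ey (tm T (i * F.D), u) ξ j).2.1 ≤ F.A := by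
  classical
  obtain ⟨k, hk, z, h3, h4⟩ := h1
  have h5 : cnt _ k z F.A < 6 := not_le.1 fun h => h2 ⟨k, hk, z, h3.trans hr, h⟩
  rw [mem_Ico, add_assoc, add_mul, add_mul i] at hk
  obtain ⟨j, rfl⟩ : ∃ j, k = i * F.D + j := ⟨k - i * F.D, by omega⟩
  have h6 : (a + 1) * F.D ≤ F.l * F.D := Nat.mul_le_mul_right _ ha
  have key : ∀ y, (tm T (i * F.D + j), y) ∈ vis Z (R ∪ arcs ex ey ({tm T (i * F.D)} ×ˢ insert u X)
      (F.l * F.D) ξ) → y = (arc ex ey (tm T (i * F.D), u) ξ j).2 ∨ (tm T (i * F.D + j), y) ∈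
      vis Z (R ∪ arcs ex ey ({tm T (i * F.D)} ×ˢ X) (F.l * F.D) ξ) := fun y hy => by
    simp only [mem_vis, mem_union, mem_arcs, mem_product, mem_singleton, mem_insert] at hy ⊢
    obtain ⟨h | ⟨⟨s, u'⟩, ⟨rfl, rfl | b⟩, j', c, e⟩, h'⟩ := hy
    · exact .inr ⟨.inl h, h'⟩
    · have := congrArg Prod.fst e
      rw [arc_tm, tm_add_inj _ (by omega) (by omega)] at this
      exact .inl (by rw [← this, e])
    · exact .inr ⟨.inr ⟨_, ⟨rfl, b⟩, j', c, e⟩, h'⟩
  by_cases h7 : tdist z (arc ex ey (tm T (i * F.D), u) ξ j).2.1 ≤ F.A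
  · obtain ⟨y, hy, h8⟩ := exists_mem_ne (lt_of_lt_of_le (by norm_num) h4)
      (arc ex ey (tm T (i * F.D), u) ξ j).2
    exact ⟨j, mem_Ico.2 ⟨by omega, by omega⟩, y, z, (key y (mem_filter.1 hy).2.1).resolve_left h8, h3,
      (mem_filter.1 hy).2.2, h7⟩
  · exact absurd (h4.trans (cnt_le fun y b c => ⟨(key y b).resolve_left fun e => h7 (e ▸ c), c⟩))
      (not_le.2 h5)

/-- **J3**: a cluster leaf of few slow strands is a return event. -/
theorem j3 (M : Md ex ey F p p0 E X0 Es w B x0 θ) (hN : Nm0 ex ey N F p0 Es w B x0 θ)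
    (H : Al ex ey p E Z ξ C) (hG : G0 F N.t E Z x)
    (hM : Mv ex ey (Fr ex ey E) ξ C F.D N.f N.W (N.R F + F.l * N.W) x)
    (hm : ∀ i, cnt C (i * F.D) x (N.R F) < N.m) (h1 : ¬ J1 F (evp ex ey ξ C) Z x)
    (h2 : ¬ J2 F (evp ex ey ξ C) E Z x) (h3 : J3 F (evp ex ey ξ C) E Z x) :
    RE ex ey F p E.1 Z B N.m (N.R F) (N.ρ F) N.τ N.k (2 * F.A + N.W) N.Γ x ξ := by
  classical
  obtain ⟨s, hs, i, hi, h3⟩ := h3.fin M.hT
  have hl := M.DT.1
  have hA : 1 ≤ F.A := by obtain ⟨_, _, _, _, _, _, _, _, h, _⟩ := hN.g1; omega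
  have hR : N.R F = F.r0 + F.l * N.W + 1 := rfl
  have hρ : N.ρ F = N.R F + F.l * N.W + N.W + 1 := by simp only [Lq.ρ, Lq.R]; ring
  set Y := univ.filter fun y => (tm T (i * F.D), y) ∈ C ∧ tdist x y.1 ≤ N.R F with hY
  have hYm : Y.card < N.m := hm i
  have r1 := F.rr_le s
  have r2 := F.rr_succ hs
  have r3 : Y.card * (F.A + F.l * N.W + 1) ≤ F.dl := (Nat.mul_le_mul_right _ hYm.le).trans hN.dl
  obtain ⟨X, u, r, a1, a2, a3, a4⟩ := pigeon (fun X r a => Cl F r (vis Z (E.1 ∪ arcs ex ey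
    ({tm T (i * F.D)} ×ˢ X) (F.l * F.D) ξ)) x (i + a)) F.l (F.A + F.l * N.W + 1) (N.τ * N.k) Y
    (F.rr (s + 1)) (by
      refine (((Nat.mul_le_mul_right _ hYm.le).trans hN.l1.2).trans_lt h3).trans_le
        (card_le_card_of_injOn (· - i) (fun b hb => ?_) fun b hb b' hb' e => ?_)
      swap
      · have := mem_Ico.1 (mem_filter.1 hb).1
        have := mem_Ico.1 (mem_filter.1 hb').1
        simp only at e
        omega
      obtain ⟨b1, ⟨k, b2, z, b3, b4⟩, b5⟩ := mem_filter.1 hb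
      have b6 := win_sub b1 b2
      rw [mem_Ico] at b1 b6
      refine mem_filter.2 ⟨mem_range.2 (by simp only; omega), ?_⟩
      simp only [Nat.add_sub_cancel' b1.1]
      refine ⟨⟨k, b2, z, b3, b4.trans (cnt_le fun y c1 c2 => ⟨mem_vis.2 ⟨?_, (mem_vis.1 c1).2⟩, c2⟩)⟩,
        fun c => b5 (Cl_rad (by simpa [arcs] using c) (by omega))⟩
      refine mem_union.2 ((mem_union.1 (vis_sub c1)).imp_right fun c3 => ?_)
      obtain ⟨j, rfl⟩ := Nat.exists_eq_add_of_le b6.1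
      obtain ⟨y', c4⟩ := arc_surj (ex := ex) (ey := ey) ξ (i * F.D) j y
      have c5 := (arc_mem H.inv _ _).1 (c4 ▸ c3)
      rw [add_mul] at b6
      have c6 := tdist_triangle x z y.1
      have c7 := span H.inv hM c5 F.l j (by omega) 0 (Nat.zero_le _) (by rw [c4]; simp only; omega)
      rw [c4, arc_zero] at c7
      exact mem_arcs.2 ⟨_, mem_product.2 ⟨mem_singleton_self _, mem_filter.2 ⟨mem_univ _, c5,
        (tdist_triangle x y.1 y'.1).trans (by simp only at c7; omega)⟩⟩, j, by omega, c4⟩)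
  set d := r + (F.A + F.l * N.W + 1) with hd
  have sp : ∀ y ∈ insert u X, ∀ j ≤ F.l * F.D, arc ex ey (tm T (i * F.D), y) ξ j ∈ C ∧
      tdist x (arc ex ey (tm T (i * F.D), y) ξ j).2.1 ≤ N.R F + F.l * N.W := fun y hy j hj => by
    obtain ⟨b1, b2⟩ := (mem_filter.1 (a1 hy)).2
    have := span H.inv hM b1 F.l 0 (Nat.zero_le _) j hj (Nat.add_le_add_right b2 _)
    exact ⟨(arc_mem H.inv _ _).2 b1, (tdist_triangle x y.1 _).trans (add_le_add b2 this)⟩
  have ag : ∀ s ∈ tch ex ey (arcs ex ey ({tm T (i * F.D)} ×ˢ insert u X) (F.l * F.D) ξ),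
      lc (nr ex x (N.ρ F)) ξ s = ξ s := fun s hs => by
    have b1 : ∀ v ∈ arcs ex ey ({tm T (i * F.D)} ×ˢ insert u X) (F.l * F.D) ξ,
        tdist x v.2.1 + 1 ≤ N.ρ F := fun v hv => by
      obtain ⟨⟨_, y⟩, b, j, hj, rfl⟩ := mem_arcs.1 hv
      obtain ⟨rfl, b⟩ := (mem_product.1 b).imp_left mem_singleton.1
      have := (sp y b j hj.le).2
      omega
    refine lc_mem _ (mem_filter.2 ⟨mem_univ _, ((mem_tch ex ey).1 hs).elim
      (fun k => (Nat.le_succ _).trans (b1 _ k)) fun k => (tdist_triangle x (ey s).1 _).trans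
        ((Nat.add_le_add_left (tdist_comm _ _ ▸ M.word.nn s) _).trans (b1 _ k))⟩)
  have sub : arcs ex ey ({tm T (i * F.D)} ×ˢ X) (F.l * F.D) ξ ⊆
      arcs ex ey ({tm T (i * F.D)} ×ˢ insert u X) (F.l * F.D) ξ :=
    biUnion_subset_biUnion_of_subset_left _ (product_subset_product_right (subset_insert _ _))
  have e1 := arcs_congr fun s hs => ag s (tch_mono ex ey sub hs)
  have e2 := arc_congr ag (mem_product.2 ⟨mem_singleton_self _, mem_insert_self u X⟩ :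
    (tm T (i * F.D), u) ∈ _)
  have hX : X.card < N.m := (card_le_card ((subset_insert _ _).trans a1)).trans_lt hYm
  have he := (ends_arcs (ex := ex) (ey := ey) (X := {tm T (i * F.D)} ×ˢ X) (N := F.l * F.D)
    (ξ := lc (nr ex x (N.ρ F)) ξ)).trans (by simpa using hX.le)
  refine ⟨i, hi, d, by omega, X, fun y hy => mem_sl.2 (mem_filter.1 (a1 (mem_insert_of_mem hy))).2.2,
    hX, u, mem_sl.2 (mem_filter.1 (a1 (mem_insert_self _ _))).2.2, ?_⟩
  rw [e1] at he ⊢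
  set O := arcs ex ey ({tm T (i * F.D)} ×ˢ X) (F.l * F.D) ξ with hO
  have oc : O ⊆ C := fun v hv => by
    obtain ⟨⟨_, y⟩, b, j, hj, rfl⟩ := mem_arcs.1 hv
    obtain ⟨rfl, b⟩ := (mem_product.1 b).imp_left mem_singleton.1
    exact (sp y (mem_insert_of_mem b) j hj.le).1
  obtain ⟨Ws, w1, w2⟩ := exists_fam (Fw := fw F (vis Z (E.1 ∪ O)) x d i) hN.l1.1
    (fun a ha => mem_filter.2 ⟨(mem_filter.1 ha).1, (mem_filter.1 ha).2.2⟩) a4
  have w3 := fam_card w1
  have w4 : ∀ a, en Ws N.k a < F.l := fun a => mem_range.1 (mem_filter.1 (w2 (en_mem w3 a))).1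
  have w5 : ∀ a, (en Ws N.k a + 1) * F.D ≤ F.l * F.D := fun a => Nat.mul_le_mul_right _ (w4 a)
  have w6 := fun a => charged hl.le (w4 a) (by omega : r ≤ d) (mem_filter.1 (w2 (en_mem w3 a))).2.1
    (mem_filter.1 (w2 (en_mem w3 a))).2.2
  have uC := (sp u (mem_insert_self _ _) 0 (Nat.zero_le _)).1
  simp only [add_mul, one_mul] at w5 w6
  refine ⟨Ws, w1, fld_bE _ _, fun a b h => Nat.mul_le_mul_right _ (en_mono w3 h),
    by have := w5 N.k; omega, fun a ha v hv => green M hN hG h1 h2 oc (fun s h => (lc_true.1 h).2)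
      he (by omega) (en_lt w3 ha) (w4 _) (fam_gap w1 (en_mem w3 _) (en_mem w3 _) (en_lt w3 ha))
      (mem_singleton.1 (mem_product.1 hv).1), fun a _ => ?_, ?_⟩
  · obtain ⟨j, b1, y, z, b2, b3, b4, b5⟩ := w6 a
    have b6 := w5 a
    obtain ⟨j, rfl⟩ := Nat.exists_eq_add_of_le (mem_Ico.1 b1).1
    have b7 := (mem_Ico.1 b1).2
    have e := arc_eq (ex := ex) (ey := ey) (i * F.D) u ξ (en Ws N.k a * F.D)
    rw [← add_mul] at e
    have b8 := tdist_triangle x z y.1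
    have b9 := (sp u (mem_insert_self _ _) _ (by omega : en Ws N.k a * F.D + j ≤ _)).2
    rw [arc_add, e] at b5 b9
    have c1 := (hM _ _ (e ▸ (arc_mem H.inv _ _).2 uC) j (by omega) b9).2 0 (Nat.zero_le _)
    rw [e2 _ (by omega), e]
    refine mem_tg (y := y) (by omega) (mem_Ico.2 ⟨?_, ?_⟩)
      (mem_vis.2 ⟨vis_sub b2, fun c2 => (mem_vis.1 b2).2 fun z' c3 => ?_⟩) ?_
    · rw [add_mul]; omega
    · simp only [add_mul]; omega
    · refine (mem_union.1 (c2 z' c3)).resolve_right fun c4 => mem_compl.1 c4 (mem_bl.2 ?_)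
      have := tdist_triangle x y.1 z'
      simp only at c3
      omega
    · rw [tdist_comm] at b4
      exact (tdist_triangle _ z _).trans ((add_le_add b4 ((tdist_triangle _ _ _).trans
        (add_le_add b5 c1))).trans (by omega))
  · refine (prod_b2 (T := T) (i * F.D) _ (by have := w5 N.k; omega)).trans
      (le_of_eq (prod_congr rfl fun j hj => ?_))
    have b0 : j < F.l * F.D := by have := w5 N.k; have := (mem_Ico.1 hj).2; omega
    have b1 := (sp u (mem_insert_self _ _) j b0.le).1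
    obtain ⟨j0, c1, -, z, -, c3, -, c5⟩ := w6 0
    have c6 := tdist_triangle x z (arc ex ey (tm T (i * F.D), u) ξ j0).2.1
    have c7 := span H.inv hM uC F.l j0 (by have := w5 0; have := (mem_Ico.1 c1).2; omega) j b0.le
      (by omega)
    have c8 := tdist_triangle x (arc ex ey (tm T (i * F.D), u) ξ j0).2.1
      (arc ex ey (tm T (i * F.D), u) ξ j).2.1
    rw [e2 j b0.le, bE, if_neg, arc_tm]
    rintro (k | k)
    · refine (mem_union.1 (vis_sub k)).elim (H.hE _ b1) fun k => ?_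
      obtain ⟨⟨_, y⟩, b, j', hj', e⟩ := mem_arcs.1 k
      obtain ⟨rfl, b⟩ := (mem_product.1 b).imp_left mem_singleton.1
      have := congrArg Prod.fst e
      rw [arc_tm, arc_tm, tm_add_inj _ (by omega) (by omega)] at this
      exact a2 ((Prod.mk.inj (arc_inj (this ▸ e))).2 ▸ b)
    · exact (mem_union.1 k).elim (H.hZ _ b1) fun k => mem_compl.1 k (mem_bl.2 (by omega))

/-- **reduction of the base leaf**: a coin event or many points on a grid slice. -/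
theorem leaf0 (M : Md ex ey F p p0 E X0 Es w B x0 θ) (hN : Nm0 ex ey N F p0 Es w B x0 θ)
    (H : Al ex ey p E Z ξ C) (hG : ∀ y, tdist x y ≤ 2 * F.r0 + 1 → G0 F N.t E Z y)
    (h : W0 F (evp ex ey ξ C) E Z x) :
    Ev0 ex ey N F p p0 E Z B x ξ ∨ ∃ i, N.m ≤ cnt C (i * F.D) x (N.R F) := by
  by_contra hc
  simp only [Ev0, not_or, not_exists, not_le] at hc
  have h0 := hN.ρ
  have hl := Nat.mul_le_mul_right N.W M.hl.1
  have hM := mv0 (r := N.R F + F.l * N.W) M H hG (by simp only [Lq.ρ]; omega) hN.W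
    (by simp only [Lq.ρ, Lq.R]; exact le_of_eq (by ring)) hN.hθ hN.c hc.1.1
  have h1 : ¬ J1 F (evp ex ey ξ C) Z x := fun ⟨k, h⟩ => by
    have := (cnt_mono (vis_sub (Z := Z))).trans ((cnt_back H.inv hM (D_pos M.hT) (r' := F.r0)
      (by simp only [Lq.R]; omega) k).trans (cnt_le (r := N.R F) (z := x) fun _ a b =>
        ⟨a, by simp only [Lq.R]; omega⟩))
    have := hc.2 (k / F.D)
    have := hN.m
    simp only [evp] at h
    omega
  have h2 : ¬ J2 F (evp ex ey ξ C) E Z x := fun ⟨i, h⟩ => h.not_ge ((chg_new M H hM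
    (by simp only [Lq.R]; omega) (fun i => le_trans (cnt_le fun _ a b =>
      ⟨a, by simp only [Lq.R]; omega⟩) (hc.2 i).le) i).trans hN.j1)
  exact hc.1.2 (j3 M hN H (hG x (by rw [tdist_self]; omega)) hM hc.2 h1 h2
    ((h.resolve_left h1).resolve_left h2))

end Crest.Agent.N337.Wk
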