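import Crest.Agent.N337.E.PR
import Crest.Agent.N337.R.Det
import Crest.Agent.N337.R.Pt

/-!
# Row 337, ENG leaves (helper86): the leaves J1, J2 and the slow strands
-/

set_option autoImplicit false
set_option linter.unusedSectionVars false

namespace Crest.Agent.N337.Wk

open Finset Equiv Crest.Agent.N337.Rep Crest.Agent.N337.Arc Free KV Geo I

variable {L n T : ℕ} [NeZero L] [NeZero T] (ex ey : Fin T → Tor 3 L × Fin n)

/-- the on-site steps form the last block of the word. -/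
def Blk (p0 : Fin T → ℝ) : Prop := ∃ t0 : ℕ, ∀ s,
  ((ex s).1 = (ey s).1 → p0 s ≠ 0 → t0 ≤ s.val) ∧ (t0 ≤ s.val → (ex s).1 = (ey s).1)

/-- the pinned model of the environment `E` (`X0` = changes at open ends). -/
structure Md (F : Lf) (p p0 : Fin T → ℝ) (E : Ev L n T) (X0 : Finset (V L n T)) (Es w B x0 : ℕ)
    (θ : ℝ) : Prop where
  word : RR.Word ex ey p0 Es w B θ
  blk : Blk ex ey p0
  hD : F.D = w * Es
  hl : 1 ≤ F.l ∧ F.l < B
  hp : ∀ s, 0 ≤ p s ∧ p s ≤ 1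
  fr : ∀ s, ¬ Gas.tch ex ey E.1 s → p s = p0 s
  rp : Rp ex ey p E.1 (E.2 ∪ X0)
  x0 : X0.card ≤ x0

/-- an alive invariant point set. -/
structure Al (p : Fin T → ℝ) (E : Ev L n T) (Z : Finset (Tor 3 L)) (ξ : Fin T → Bool)
    (C : Finset (V L n T)) : Prop where
  pw : Pw p ξ ≠ 0
  inv : ∀ v, Sg ex ey ξ v ∈ C ↔ v ∈ C
  hE : ∀ v ∈ C, v ∉ E.1
  hZ : ∀ v ∈ C, v.2.1 ∉ Z

/-- free steps. -/
def Fr (E : Ev L n T) (s : Fin T) : Prop := ¬ Gas.tch ex ey E.1 s

/-- paths along recorded changes are slow near `x`. -/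
def SL (E : Ev L n T) (Z : Finset (Tor 3 L)) (D : ℕ) (x : Tor 3 L) (ρ v : ℕ) : Prop :=
  ∀ i, A.Slow ex ey (fun x y => tdist x.1 y.1) (fun r => ((ex r).1 = (ey r).1 ∨
    ((r, ex r) ∈ E.2 ∧ (r, ey r) ∈ E.2)) ∧ r.val ∈ Ico (i * D) ((i + 1) * D))
    (fun u => u.2.1 ∉ Z ∧ tdist x u.2.1 ≤ ρ) v

variable {ex ey} {F : Lf} {p p0 : Fin T → ℝ} {E : Ev L n T} {X0 C : Finset (V L n T)}
  {Es w B x0 t f W r ρ D i k m : ℕ} {θ c : ℝ} {Z : Finset (Tor 3 L)} {ξ : Fin T → Bool}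
  {x : Tor 3 L} {y : Tor 3 L × Fin n} {Q : Fin T → Prop}

lemma Md.hT (M : Md ex ey F p p0 E X0 Es w B x0 θ) : T = B * F.D := by
  rw [M.word.hT, M.hD, mul_assoc]

lemma Md.DT (M : Md ex ey F p p0 E X0 Es w B x0 θ) : F.l * F.D < T ∧ F.D ≤ T :=
  ⟨M.hT ▸ Nat.mul_lt_mul_of_pos_right M.hl.2 (D_pos M.hT),
    M.hT ▸ Nat.le_mul_of_pos_left _ (B_pos M.hT)⟩

lemma ne_of_true (h : Pw p ξ ≠ 0) {s : Fin T} (hs : ξ s = true) : p s ≠ 0 := by
  simpa [wb, hs] using prod_ne_zero_iff.1 h s (mem_univ s)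

/-- slow strands at the base level. -/
theorem mv0 (M : Md ex ey F p p0 E X0 Es w B x0 θ) (H : Al ex ey p E Z ξ C)
    (hG : ∀ y, tdist x y ≤ 2 * F.r0 + 1 → G0 F t E Z y) (hρ : ρ ≤ 3 * F.r0 + 1)
    (hW : f + 27 * (2 * t * F.j1 + x0) ≤ W) (hr : r + W + 1 ≤ ρ) (hθ : 7 * θ ≤ 1)
    (hc : 7 * θ * (w + (27 * (2 * t * F.j1 + x0) : ℕ)) ≤ c)
    (hF : ¬ FE ex ey p0 (Fr ex ey E) (loc ex ey Z x ρ) B F.D ρ c f x ξ) :
    Mv ex ey (Fr ex ey E) ξ C F.D f W r x := by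
  classical
  refine mv_of M.word.nn H.inv H.hZ hr fun i y hy => (slow_loc (q := 0) (P := 27 * (2 * t * F.j1 + x0)) (Ps := fun s =>
    s ∈ loc ex ey Z x ρ ∧ p s ≠ 0 ∧ Gas.tch ex ey E.1 s ∧ ex s ≠ ey s) M.word M.hD (fun i => ?_)
    (fun i a b γ _ h2 _ h => ?_) (by simpa using hθ) (by simpa using hc) hF i hy).imp_right
      fun h a ha b hb => (h a ha b hb).trans (by omega)
  · obtain ⟨P, h1, h2, h3⟩ := cover x 1 F.r0
    refine le_trans ?_ ((sum_le_card_nsmul P _ _ fun z hz => (hG z (by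
      simpa using h2 z hz)).chg_le' M.hT M.hl.1 Subset.rfl M.x0 i).trans (Nat.mul_le_mul_right _ h1))
    simp only [chg]
    rw [sum_comm, card_filter]
    refine sum_le_sum fun k _ => ?_
    split_ifs with h
    · have h4 := (mem_loc.1 h.1).1
      obtain ⟨z, hz, h5⟩ := h3 _ (h4.1.trans (by omega))
      refine le_trans (card_pos.2 ⟨ex (tm T k), mem_filter.2 ⟨mem_univ _, mem_vis.2
        ⟨M.rp.c2 _ _ (.inl rfl) h.2.2.2 h.2.1 h.2.2.1, fun a => h4.2 a.mem⟩, h5⟩⟩)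
        (single_le_sum (f := fun z => cnt (vis Z (E.2 ∪ X0)) k z F.r0) (fun _ _ => Nat.zero_le _) hz)
    · exact Nat.zero_le _
  · rw [Nat.le_zero, tdist_eq_zero]
    induction b, h2 using Nat.le_induction with
    | base => rfl
    | succ b h2 ih =>
      rw [ih (by omega) fun k hk => h k (Ico_subset_Ico_right b.le_succ hk)]
      rcases h b (mem_Ico.2 ⟨h2, b.lt_succ_self⟩) with e | ⟨⟨a1, a2⟩, e⟩ <;> rw [e]
      have a3 : (ex (tm T b)).1 = (ey (tm T b)).1 := a2.elim id fun a => by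
        by_contra a4
        exact a.2.2 ⟨a1, ne_of_true H.pw a.1, not_not.1 a.2.1, fun a5 => a4 (by rw [a5])⟩
      rw [swap_apply_def]; split_ifs with a4 a5
      exacts [a4 ▸ a3, a5 ▸ a3.symm, rfl]

/-- slow strands at a higher level. -/
theorem mvm {v : ℕ} (M : Md ex ey F p p0 E X0 Es w B x0 θ) (H : Al ex ey p E Z ξ C)
    (hS : SL ex ey E Z F.D x ρ v) (hW : (f + x0) * (v + 1) + v ≤ W) (hr : r + W + 1 ≤ ρ)
    (hθ : 7 * (θ * (2 * v + 1) ^ 3) ≤ 1) (hc : 7 * (θ * (2 * v + 1) ^ 3) * (w + x0) ≤ c)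
    (hF : ¬ FE ex ey p0 (Fr ex ey E) (loc ex ey Z x ρ) B F.D ρ c f x ξ) :
    Mv ex ey (Fr ex ey E) ξ C F.D f W r x := by
  classical
  have hT := M.hT
  refine mv_of M.word.nn H.inv H.hZ hr fun i y hy => (slow_loc (q := v)
    (Ps := fun s => s ∈ X0.image Prod.fst) M.word M.hD (fun i => ?_) (fun i a b γ h1 h2 h3 h => ?_)
    hθ hc hF i hy).imp_right fun h a ha b hb => (h a ha b hb).trans hW
  · rw [add_mul, one_mul]
    exact (RR.Dt.card_win M.DT.2 _ _).trans (card_image_le.trans M.x0)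
  have st : ∀ k, a ≤ k → k ≤ b → γ k = γ a ∨
      (((γ a).1 ∉ Z ∧ tdist x (γ a).1 ≤ ρ) ∧ (γ k).1 ∉ Z ∧ tdist x (γ k).1 ≤ ρ) := by
    intro k hk
    induction k, hk using Nat.le_induction with
    | base => exact fun _ => .inl rfl
    | succ k hk ih =>
      intro hb
      have := ih (by omega)
      rcases h k (mem_Ico.2 ⟨hk, hb⟩) with e | ⟨⟨a1, -⟩, e⟩ <;> rw [e]
      · exact this
      obtain ⟨a2, a3⟩ := mem_loc.1 a1
      rw [swap_apply_def]; split_ifs with a4 a5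
      · exact .inr ⟨this.elim (fun e => e ▸ a4 ▸ a2.symm) And.left, a3.symm⟩
      · exact .inr ⟨this.elim (fun e => e ▸ a5 ▸ a3.symm) And.left, a2.symm⟩
      · exact this
  rcases st b h2 le_rfl with e | ⟨e, -⟩
  · rw [e, tdist_self]; exact Nat.zero_le _
  have e1 : i * F.D = i % B * F.D + i / B * T := RR.Dt.split_mod hT i
  have e2 : (i % B + 1) * F.D ≤ T := hT ▸ Nat.mul_le_mul_right _ (Nat.mod_lt _ (B_pos hT))
  rw [add_mul, one_mul] at h3 e2
  have := hS (i % B) (a - i / B * T) (b - i / B * T) (fun k => γ (k + i / B * T)) (by omega)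
    (by omega) fun s a1 a2 => ?_
  · rwa [Nat.sub_add_cancel (by omega), Nat.sub_add_cancel (by omega)] at this
  have a3 := h (s.val + i / B * T) (mem_Ico.2 ⟨by omega, by omega⟩)
  rw [RR.Dt.tm_add_mul, tm_fin, add_right_comm] at a3
  refine ⟨(st _ (by omega) (by omega)).elim (fun k => by simpa only [k] using e) And.right,
    a3.imp_right fun a => ⟨⟨?_, mem_Ico.2 ⟨by omega, by rw [add_mul]; omega⟩⟩, a.2⟩⟩
  by_cases a4 : (ex s).1 = (ey s).1
  · exact .inl a4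
  obtain ⟨a5, a6, a7⟩ := a.1.2.resolve_left a4
  have a8 := fun y hy => (mem_union.1 (M.rp.c2 s y hy (fun e => a4 (by rw [e])) (ne_of_true H.pw a5)
    (not_not.1 a6))).resolve_right fun k => a7 (mem_image_of_mem _ k)
  exact .inr ⟨a8 _ (.inl rfl), a8 _ (.inr rfl)⟩

lemma arc_eq (k : ℕ) (y : Tor 3 L × Fin n) (ξ : Fin T → Bool) (j : ℕ) :
    arc ex ey (tm T k, y) ξ j = (tm T (k + j), (arc ex ey (tm T k, y) ξ j).2) :=
  Prod.ext (arc_tm k y ξ j) rfl

section mv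
variable (hC : ∀ v, Sg ex ey ξ v ∈ C ↔ v ∈ C) (hM : Mv ex ey Q ξ C D f W r x)
include hC hM

/-- back to the start of the window. -/
lemma back1 (h1 : i * D ≤ k) (h2 : k ≤ (i + 1) * D) (hy : (tm T k, y) ∈ C) (hd : tdist x y.1 ≤ r) :
    ∃ y', (tm T (i * D), y') ∈ C ∧ arc ex ey (tm T (i * D), y') ξ (k - i * D) = (tm T k, y) ∧
      tdist y.1 y'.1 ≤ W ∧ Nf ex ey Q (tm T (i * D), y') ξ D ≤ f := by
  obtain ⟨y', h⟩ := arc_surj (ex := ex) (ey := ey) ξ (i * D) (k - i * D) y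
  rw [Nat.add_sub_cancel' h1] at h
  have h3 := (arc_mem hC _ _).1 (h ▸ hy)
  have h4 := hM i y' h3 (k - i * D) (by rw [add_mul] at h2; omega) (by rw [h]; exact hd)
  exact ⟨y', h3, h, by simpa only [h, arc_zero] using h4.2 0 (Nat.zero_le _), h4.1⟩

lemma cnt_back (hD : 0 < D) {r' : ℕ} (hr : r' ≤ r) (k : ℕ) :
    cnt C k x r' ≤ cnt C (k / D * D) x (r' + W) := by
  classical
  refine le_trans (card_le_card fun y hy => ?_) (card_image_le (f := fun y' =>
    (arc ex ey (tm T (k / D * D), y') ξ (k - k / D * D)).2))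
  obtain ⟨h1, h2⟩ := (mem_filter.1 hy).2
  obtain ⟨y', h3, h4, h5, -⟩ := back1 hC hM (Nat.div_mul_le_self k D)
    (by rw [add_mul, one_mul]; exact (Nat.lt_div_mul_add hD).le) h1 (h2.trans hr)
  exact mem_image.2 ⟨y', mem_filter.2 ⟨mem_univ _, h3, (tdist_triangle _ y.1 _).trans
    (add_le_add h2 h5)⟩, by rw [h4]⟩

/-- displacement in `a` windows. -/
lemma span (hy : (tm T (i * D), y) ∈ C) (a : ℕ) : ∀ j ≤ a * D, ∀ j' ≤ a * D,
    tdist x (arc ex ey (tm T (i * D), y) ξ j).2.1 + a * W ≤ r →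
    tdist (arc ex ey (tm T (i * D), y) ξ j).2.1 (arc ex ey (tm T (i * D), y) ξ j').2.1 ≤ a * W := by
  induction a with
  | zero =>
    intro j hj j' hj' _
    rw [show j = j' by omega, tdist_self]; exact Nat.zero_le _
  | succ a ih =>
    intro j hj j' hj' hd
    rw [add_mul, one_mul] at hj hj' hd ⊢
    have e := arc_eq (ex := ex) (ey := ey) (i * D) y ξ (a * D)
    rw [← add_mul] at e
    have key : ∀ b b', a * D ≤ b → b ≤ a * D + D → a * D ≤ b' → b' ≤ a * D + D →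
        tdist x (arc ex ey (tm T (i * D), y) ξ b).2.1 ≤ r → tdist (arc ex ey (tm T (i * D), y) ξ b).2.1
          (arc ex ey (tm T (i * D), y) ξ b').2.1 ≤ W := fun b b' h1 h2 h3 h4 h5 => by
      obtain ⟨b, rfl⟩ := Nat.exists_eq_add_of_le h1
      obtain ⟨b', rfl⟩ := Nat.exists_eq_add_of_le h3
      rw [arc_add, e] at h5 ⊢
      rw [arc_add, e]
      exact (hM (i + a) _ (e ▸ (arc_mem hC _ _).2 hy) b (by omega) h5).2 b' (by omega)
    have t1 := tdist_triangle x (arc ex ey (tm T (i * D), y) ξ j).2.1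
      (arc ex ey (tm T (i * D), y) ξ (a * D)).2.1
    have t2 := tdist_triangle (arc ex ey (tm T (i * D), y) ξ j).2.1
      (arc ex ey (tm T (i * D), y) ξ (a * D)).2.1 (arc ex ey (tm T (i * D), y) ξ j').2.1
    rcases le_total j (a * D) with h | h <;> rcases le_total j' (a * D) with h' | h'
    · exact (ih j h j' h' (by omega)).trans (by omega)
    · have := ih j h _ le_rfl (by omega)
      have := key _ j' le_rfl (by omega) h' hj' (by omega)
      omega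
    · have := key j _ h hj le_rfl (by omega) (by omega)
      have := ih _ le_rfl j' h' (by omega)
      omega
    · exact (key j j' h hj h' hj' (by omega)).trans (by omega)

end mv

lemma blk_back {t0 : ℕ} (hC : ∀ v, Sg ex ey ξ v ∈ C ↔ v ∈ C)
    (h : ∀ s : Fin T, t0 ≤ s.val → (ex s).1 = (ey s).1) (h1 : t0 ≤ k) (h2 : k < T)
    (hy : (tm T k, y) ∈ C) : ∃ y', (tm T t0, y') ∈ C ∧ y'.1 = y.1 := by
  induction k, h1 using Nat.le_induction generalizing y with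
  | base => exact ⟨y, hy, rfl⟩
  | succ k h1 ih =>
    obtain ⟨y', a1, a2⟩ := ih (y := sg (ex (tm T k)) (ey (tm T k)) (ξ (tm T k)) y) (by omega)
      ((hC _).1 (by rwa [Sg_apply, sg_sg, ← tm_succ]))
    refine ⟨y', a1, a2.trans ?_⟩
    have a3 := h (tm T k) (by rwa [tm_val_of_lt (by omega)])
    unfold sg; split_ifs
    · rw [swap_apply_def]; split_ifs with a4 a5
      exacts [a4 ▸ a3.symm, a5 ▸ a3, rfl]
    · rfl

/-- **J2**: few slow strands have few new change points. -/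
theorem chg_new (M : Md ex ey F p p0 E X0 Es w B x0 θ) (H : Al ex ey p E Z ξ C)
    (hM : Mv ex ey (Fr ex ey E) ξ C F.D f W r x) (hr : F.r0 + 1 ≤ r)
    (hm : ∀ i, cnt C (i * F.D) x (F.r0 + 1 + W) ≤ m) (i : ℕ) :
    chg F.D (vis Z (acp ex ey ξ C \ E.2)) i x F.r0 ≤ x0 + 2 * (m * f + m * n ^ 2) := by
  classical
  obtain ⟨t0, hb⟩ := M.blk
  have nn := M.word.nn
  set K1 := ((univ.filter fun y => (tm T (i * F.D), y) ∈ C ∧ tdist x y.1 ≤ F.r0 + 1 + W).filter
    fun y => Nf ex ey (Fr ex ey E) (tm T (i * F.D), y) ξ F.D ≤ f).biUnion fun y =>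
      ((range F.D).filter fun j => Fr ex ey E (arc ex ey (tm T (i * F.D), y) ξ j).1 ∧
        Jp ex ey (tm T (i * F.D), y) ξ j).image (i * F.D + ·) with hK1
  set K2 := (univ.filter fun y => (tm T t0, y) ∈ C ∧ tdist x y.1 ≤ F.r0).biUnion fun y =>
    (Ico (i * F.D) (i * F.D + F.D)).filter fun k => tm T k ∈
      univ.filter fun s => (ex s).1 = y.1 ∧ (ey s).1 = y.1 ∧ p0 s ≠ 0 with hK2
  have c1 : K1.card ≤ m * f := (card_biUnion_le_card_mul _ _ f fun y hy => card_image_le.trans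
    (le_trans (le_of_eq (by rw [Nf])) (mem_filter.1 hy).2)).trans
      (Nat.mul_le_mul_right _ ((card_filter_le _ _).trans (hm i)))
  have c2 : K2.card ≤ m * n ^ 2 := (card_biUnion_le_card_mul _ _ (n ^ 2) fun y _ =>
    (RR.Dt.card_win M.DT.2 _ _).trans (M.word.few y.1)).trans (Nat.mul_le_mul_right _
      ((cnt_back H.inv hM (D_pos M.hT) (by omega) t0).trans
        ((cnt_le fun _ a b => ⟨a, by omega⟩).trans (hm _))))
  have c3 : ∀ k ∈ Ico (i * F.D) ((i + 1) * F.D), cnt (vis Z (acp ex ey ξ C \ E.2)) k x F.r0 ≤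
      cnt X0 k x F.r0 + if k ∈ K1 ∪ K2 then 2 else 0 := fun k hk => by
    have hk' := mem_Ico.1 hk
    rw [add_mul, one_mul] at hk'
    refine le_trans (card_le_card (t := _ ∪ if k ∈ K1 ∪ K2 then {ex (tm T k), ey (tm T k)} else ∅)
      fun y hy => ?_) ((card_union_le _ _).trans (add_le_add le_rfl ?_))
    swap; · split_ifs; exacts [card_le_two, le_rfl]
    obtain ⟨a1, a2⟩ := (mem_filter.1 hy).2
    obtain ⟨a3, a4⟩ := mem_sdiff.1 (vis_sub a1)
    obtain ⟨a5, a6, a7, a8⟩ := mem_acp.1 a3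
    by_cases a9 : Fr ex ey E (tm T k)
    swap
    · exact mem_union_left _ (mem_filter.2 ⟨mem_univ _, (mem_union.1 (M.rp.c2 _ y a8 a6
        (ne_of_true H.pw a5) (not_not.1 a9))).resolve_left a4, a2⟩)
    refine mem_union_right _ ?_
    rw [if_pos]; · simpa using a8
    obtain ⟨v, b1, b2⟩ : ∃ v, (v = ex (tm T k) ∨ v = ey (tm T k)) ∧ (tm T k, v) ∈ C :=
      a7.elim (fun h => ⟨_, .inl rfl, h⟩) fun h => ⟨_, .inr rfl, h⟩
    by_cases b3 : (ex (tm T k)).1 = (ey (tm T k)).1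
    · have b4 := M.fr _ a9 ▸ ne_of_true H.pw a5
      obtain ⟨y', b5, b6⟩ := blk_back H.inv (fun s => (hb s).2) ((hb _).1 b3 b4) (tm T k).2
        (by rwa [tm_fin])
      have b7 : (ex (tm T k)).1 = y'.1 ∧ y.1 = y'.1 := by
        rcases a8 with rfl | rfl <;> rcases b1 with rfl | rfl <;> simp [b6, b3]
      exact mem_union_right _ (mem_biUnion.2 ⟨y', mem_filter.2 ⟨mem_univ _, b5, b7.2 ▸ a2⟩,
        mem_filter.2 ⟨mem_Ico.2 hk', mem_filter.2 ⟨mem_univ _, b7.1, b3 ▸ b7.1, b4⟩⟩⟩)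
    · have b4 : tdist x v.1 ≤ F.r0 + 1 := by
        have := nn (tm T k)
        have := tdist_triangle x y.1 v.1
        rcases a8 with rfl | rfl <;> rcases b1 with rfl | rfl <;> first | omega | skip
        rw [tdist_comm (ey _).1] at this; omega
      obtain ⟨y', b5, b6, b7, b8⟩ := back1 H.inv hM hk'.1 (mem_Ico.1 hk).2.le b2 (b4.trans hr)
      refine mem_union_left _ (mem_biUnion.2 ⟨y', mem_filter.2 ⟨mem_filter.2 ⟨mem_univ _, b5,
        (tdist_triangle _ v.1 _).trans (add_le_add b4 b7)⟩, b8⟩, mem_image.2 ⟨k - i * F.D,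
          mem_filter.2 ⟨mem_range.2 (by omega), by rwa [b6], ?_⟩, Nat.add_sub_cancel' hk'.1⟩⟩)
      rw [Jp, arc_succ, b6, Sg_apply, sg, if_pos a5]
      rcases b1 with rfl | rfl
      · simpa using Ne.symm b3
      · simpa using b3
  refine (sum_le_sum c3).trans ?_
  rw [sum_add_distrib, ← sum_filter, sum_const, smul_eq_mul, mul_comm _ 2]
  refine add_le_add ((chg_le_card M.DT.2).trans M.x0) (Nat.mul_le_mul_left _ ?_)
  exact (card_le_card fun k hk => (mem_filter.1 hk).2).trans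
    ((card_union_le _ _).trans (add_le_add c1 c2))

end Crest.Agent.N337.Wk
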