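import Crest.Agent.N337.E.Birth

/-!
# Row 337, ENG (helper86): prescribed orders of births

`sc` : disjoint sequences `q f` of polymers with `k ≤ K f` are all born, each in its order, with
probability at most `∏_f (1 + log (K f)) ^ |q f| / |q f|!`.
-/

set_option autoImplicit false
set_option linter.unusedSectionVars false

namespace Crest.Agent.N337.Bi

open Finset

/-- common majorant of the rates `k s ^ (k - 1)`, `k ≤ K`, and its primitive. -/
noncomputable def rho (K : ℕ) (s : ℝ) : ℝ := ∑ i ∈ range K, s ^ i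
noncomputable def Rho (K : ℕ) (s : ℝ) : ℝ := ∑ i ∈ range K, s ^ (i + 1) / (i + 1)

lemma Rho_deriv (K : ℕ) (s : ℝ) : HasDerivAt (Rho K) (rho K s) s :=
  HasDerivAt.fun_sum fun i _ => ((hasDerivAt_pow (i + 1) s).div_const ((i : ℝ) + 1)).congr_deriv (by
    have : (i : ℝ) + 1 ≠ 0 := by positivity
    simp only [Nat.add_sub_cancel, Nat.cast_add, Nat.cast_one]; field_simp)

lemma Rho_mono (K : ℕ) {s t : ℝ} (hs : 0 ≤ s) (h : s ≤ t) : Rho K s ≤ Rho K t :=
  sum_le_sum fun i _ => div_le_div_of_nonneg_right (pow_le_pow_left₀ hs h _) (by positivity)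

lemma Rho_le (K : ℕ) {s : ℝ} (hs : 0 ≤ s) (h : s ≤ 1) : Rho K s ≤ 1 + Real.log K := by
  refine (Rho_mono K hs h).trans (le_trans (le_of_eq ?_) (harmonic_le_one_add_log K))
  simp [Rho, harmonic]

lemma rate_le {k K : ℕ} (h : k ≤ K) {s : ℝ} (hs : 0 ≤ s) (hs1 : s ≤ 1) :
    k * s ^ (k - 1) ≤ rho K s := by
  refine le_trans ?_ (sum_le_sum_of_subset_of_nonneg (range_mono h) fun i _ _ => by positivity)
  have := card_nsmul_le_sum (range k) (fun i => s ^ i) (s ^ (k - 1)) fun i hi =>
    pow_le_pow_of_le_one hs hs1 (Nat.le_sub_one_of_lt (mem_range.1 hi))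
  simpa using this

lemma pw_deriv (K n : ℕ) (Y s : ℝ) :
    HasDerivAt (fun t => (Rho K Y - Rho K t) ^ n / (n.factorial : ℝ))
      (-if n = 0 then 0 else rho K s * ((Rho K Y - Rho K s) ^ (n - 1) / ((n - 1).factorial : ℝ)))
      s := by
  refine ((((Rho_deriv K s).const_sub (Rho K Y)).fun_pow n).div_const _).congr_deriv ?_
  rcases n with _ | n
  · simp
  · have : ((n : ℝ) + 1) ≠ 0 := by positivity
    have : (n.factorial : ℝ) ≠ 0 := by positivity
    simp only [Nat.add_sub_cancel, Nat.factorial_succ, Nat.succ_ne_zero, if_false]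
    push_cast; field_simp

variable {Γ : Type} [DecidableEq Γ] {ι : Type} [Fintype ι] [DecidableEq ι]

lemma sub_of_notMem {g : Γ} {q l : List Γ} (h : q.Sublist (g :: l)) (hg : g ∉ q) : q.Sublist l :=
  (List.sublist_cons_iff.1 h).resolve_right fun ⟨_, e, _⟩ => hg (e ▸ List.mem_cons_self)

/-- disjoint sequences. -/
structure Sq (q : ι → List Γ) : Prop where
  nd : ∀ f, (q f).Nodup
  dj : ∀ f f' g, g ∈ q f → g ∈ q f' → f = f'

lemma Sq.tail {q : ι → List Γ} (h : Sq q) {f : ι} {g : Γ} {t : List Γ} (e : q f = g :: t) :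
    Sq (Function.update q f t) := by
  have hs : ∀ f' x, x ∈ Function.update q f t f' → x ∈ q f' := fun f' x hx => by
    by_cases k : f' = f
    · subst k; rw [Function.update_self] at hx; rw [e]; exact List.mem_cons_of_mem _ hx
    · rwa [Function.update_of_ne k] at hx
  refine ⟨fun f' => ?_, fun f₁ f₂ x h1 h2 => h.dj _ _ x (hs _ _ h1) (hs _ _ h2)⟩
  by_cases k : f' = f
  · subst k; rw [Function.update_self]; exact (List.nodup_cons.1 (e ▸ h.nd f')).2
  · rw [Function.update_of_ne k]; exact h.nd f'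

namespace Dat

variable {D : Dat Γ}

open Classical in
theorem sc0 (h : D.Ok) (K : ι → ℕ) (L : Finset Γ) : ∀ (q : ι → List Γ), Sq q →
    (∀ f, ∀ g ∈ q f, D.k g ≤ K f) → ∀ s, 0 ≤ s → s ≤ D.Y →
    D.m L (fun l => if ∀ f, (q f).Sublist l then 1 else 0) s ≤
      (∏ g ∈ L with ∀ f, g ∉ q f, (1 - D.w s g)) *
        ∏ f, (Rho (K f) D.Y - Rho (K f) s) ^ (q f).length / ((q f).length.factorial : ℝ) := by
  induction L using erase_ind with
  | h L ih =>
    intro q hq hK s hs hs1
    have hU := fun t => (HasDerivAt.fun_finsetProd (u := L.filter fun g => ∀ f, g ∉ q f) (x := t)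
      fun g _ => (D.w_deriv t g).const_sub 1).fun_mul (HasDerivAt.fun_finsetProd
        (u := (univ : Finset ι)) (x := t) fun f _ => pw_deriv (K f) (q f).length D.Y t)
    have hV := D.m_deriv L fun l => if ∀ f, (q f).Sublist l then 1 else 0
    have := le_of_deriv hs1 (continuous_iff_continuousAt.2 fun t =>
      ((hU t).fun_sub (hV t)).continuousAt).continuousOn (fun t _ => (hU t).fun_sub (hV t))
      fun t ht => ?_
    · refine sub_nonneg.1 (le_trans (sub_nonneg.2 ?_) this)
      rw [m_end]
      have hw := fun g => sub_nonneg.2 (h.w_le h.Y0 le_rfl g)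
      split_ifs with h0
      · have h1 : ∀ f, q f = [] := fun f => List.sublist_nil.1 (h0 f)
        simp [h1]
      · rw [mul_zero]
        exact mul_nonneg (prod_nonneg fun g _ => hw g) (prod_nonneg fun f _ => by
          rw [sub_self]; positivity)
    have ht0 : 0 ≤ t := hs.trans ht.1.le
    have hw := fun g => sub_nonneg.2 (h.w_le ht0 ht.2.le g)
    have hR := fun K => sub_nonneg.2 (Rho_mono K ht0 ht.2.le)
    set L' := L.filter fun g => ∀ f, g ∉ q f with hL'
    set u : ι → ℕ → ℝ := fun f n => (Rho (K f) D.Y - Rho (K f) t) ^ n / (n.factorial : ℝ) with hu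
    have u0 : ∀ f n, 0 ≤ u f n := fun f n => div_nonneg (pow_nonneg (hR _) _) (by positivity)
    set X : ι → ℝ := fun f => (∏ g ∈ L', (1 - D.w t g)) * ((∏ f' ∈ univ.erase f,
      u f' (q f').length) * (rho (K f) t * u f ((q f).length - 1))) with hX
    have X0 : ∀ f, 0 ≤ X f := fun f => mul_nonneg (prod_nonneg fun g _ => hw g) (mul_nonneg
      (prod_nonneg fun _ _ => u0 _ _) (mul_nonneg (sum_nonneg fun _ _ => by positivity) (u0 _ _)))
    have h1 : ∀ g ∈ L', D.w' t g * D.m (L.erase g)
        (fun l => if ∀ f, (q f).Sublist (g :: l) then 1 else 0) t ≤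
        D.w' t g * ((∏ x ∈ L'.erase g, (1 - D.w t x)) * ∏ f, u f (q f).length) := by
      intro g hg
      obtain ⟨hgL, hgq⟩ := mem_filter.1 hg
      refine mul_le_mul_of_nonneg_left ?_ (h.w'_nn ht0 g)
      have e : ∀ f l, (q f).Sublist (g :: l) ↔ (q f).Sublist l := fun f l =>
        ⟨fun k => sub_of_notMem k (hgq f), fun k => k.cons g⟩
      simp only [e]
      rw [hL', ← filter_erase]
      exact ih g hgL q hq hK t ht0 ht.2.le
    have h2 : ∀ g ∈ L.filter fun g => ¬∀ f, g ∉ q f, D.w' t g * D.m (L.erase g)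
        (fun l => if ∀ f, (q f).Sublist (g :: l) then 1 else 0) t ≤
        ∑ f, if (q f).head? = some g then X f else 0 := by
      intro g hg
      obtain ⟨hgL, hgq⟩ := mem_filter.1 hg
      push Not at hgq
      obtain ⟨f, hf⟩ := hgq
      have hn : ∀ f ∈ (univ : Finset ι), 0 ≤ if (q f).head? = some g then X f else 0 :=
        fun f _ => by split_ifs; exacts [X0 f, le_rfl]
      refine le_trans ?_ (single_le_sum hn (mem_univ f))
      split_ifs with hh
      · obtain ⟨r, e⟩ := List.head?_eq_some_iff.1 hh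
        have hq' := hq.tail e
        have e1 : ∀ l, (∀ f', (q f').Sublist (g :: l)) ↔
            ∀ f', (Function.update q f r f').Sublist l := fun l => forall_congr' fun f' => by
          by_cases k : f' = f
          · subst k; rw [Function.update_self, e, List.cons_sublist_cons]
          · rw [Function.update_of_ne k]
            exact ⟨fun k' => sub_of_notMem k' fun k'' => k (hq.dj _ _ g k'' hf),
              fun k' => k'.cons g⟩
        simp only [e1]
        have h3 := ih g hgL _ hq' (fun f' x hx => hK f' x (by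
          by_cases k : f' = f
          · subst k; rw [Function.update_self] at hx; rw [e]; exact List.mem_cons_of_mem _ hx
          · rwa [Function.update_of_ne k] at hx)) t ht0 ht.2.le
        have e2 : (L.erase g).filter (fun x => ∀ f', x ∉ Function.update q f r f') = L' := by
          ext x
          simp only [hL', mem_filter, mem_erase]
          refine ⟨fun ⟨⟨a, b⟩, c⟩ => ⟨b, fun f' k => c f' ?_⟩, fun ⟨a, b⟩ =>
            ⟨⟨fun k => b f (k ▸ hf), a⟩, fun f' k => b f' ?_⟩⟩
          · by_cases k' : f' = f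
            · subst k'; rw [Function.update_self]
              exact (List.mem_cons.1 (e ▸ k)).resolve_left a
            · rwa [Function.update_of_ne k']
          · by_cases k' : f' = f
            · subst k'; rw [Function.update_self] at k; rw [e]; exact List.mem_cons_of_mem _ k
            · rwa [Function.update_of_ne k'] at k
        rw [e2, ← prod_erase_mul _ _ (mem_univ f), Function.update_self,
          prod_congr (s₁ := univ.erase f) rfl fun f' hf' => by
            rw [Function.update_of_ne (ne_of_mem_erase hf')]] at h3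
        have h4 : D.w' t g ≤ rho (K f) t := (mul_le_of_le_one_left (by positivity) (h.c1 g)).trans
          (rate_le (hK f g hf) ht0 (ht.2.le.trans h.Y1))
        refine (mul_le_mul h4 h3 (m_nn h (fun _ _ => by split_ifs <;> norm_num) ht0 ht.2.le)
          ((h.w'_nn ht0 g).trans h4)).trans (le_of_eq ?_)
        simp only [hX, hu, e, List.length_cons, Nat.add_sub_cancel]; ring
      · refine mul_nonpos_of_nonneg_of_nonpos (h.w'_nn ht0 g) (le_trans
          (m_mono h _ (H' := fun _ => 0) (fun l hl => ?_) ht0 ht.2.le) (D.m_zero _ _).le)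
        rw [if_neg fun k => ?_]
        rcases List.sublist_cons_iff.1 (k f) with k' | ⟨r, e, -⟩
        · exact notMem_erase g L (hl.2 g (k'.subset hf)).1
        · exact hh (by rw [e]; rfl)
    have h3 : ∑ g ∈ L.filter fun g => ¬∀ f, g ∉ q f, ∑ f, (if (q f).head? = some g then X f else 0)
        ≤ ∑ f, if (q f).length = 0 then 0 else X f := by
      rw [sum_comm]
      refine sum_le_sum fun f _ => ?_
      rcases q f with _ | ⟨x, r⟩
      · simp
      · simp only [List.head?_cons, Option.some.injEq, sum_ite_eq, List.length_cons,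
          Nat.succ_ne_zero, if_false]
        split_ifs; exacts [le_rfl, X0 f]
    have h4 := (sum_filter_add_sum_filter_not L (fun g => ∀ f, g ∉ q f) _).symm.trans_le
      (add_le_add (sum_le_sum h1) ((sum_le_sum h2).trans h3))
    rw [sub_neg_eq_add]
    refine (add_le_add_right h4 _).trans (le_of_eq ?_)
    simp only [smul_eq_mul, sum_mul, mul_sum]
    rw [add_add_add_comm, ← sum_add_distrib, ← sum_add_distrib, sum_eq_zero fun g _ => by ring,
      sum_eq_zero fun f _ => ?_, add_zero]
    split_ifs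
    · simp
    · simp only [hX, hu]; ring

open Classical in
/-- **prescribed orders.** -/
theorem sc (h : D.Ok) (K : ι → ℕ) (L : Finset Γ) {q : ι → List Γ} (hq : Sq q)
    (hK : ∀ f, ∀ g ∈ q f, D.k g ≤ K f) :
    D.m L (fun l => if ∀ f, (q f).Sublist l then 1 else 0) 0 ≤
      ∏ f, (1 + Real.log (K f)) ^ (q f).length / ((q f).length.factorial : ℝ) := by
  refine (sc0 h K L q hq hK 0 le_rfl h.Y0).trans ?_
  have h0 : ∀ K, Rho K 0 = 0 := fun K => by simp [Rho]
  have hR : ∀ K, 0 ≤ Rho K D.Y := fun K => (h0 K).symm.trans_le (Rho_mono K le_rfl h.Y0)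
  simp only [h0, sub_zero]
  refine (mul_le_of_le_one_left (prod_nonneg fun f _ => by have := hR (K f); positivity)
    (prod_le_one (fun g _ => sub_nonneg.2 (h.w_le le_rfl h.Y0 g))
      fun g _ => sub_le_self _ (h.w_nn le_rfl g))).trans ?_
  exact prod_le_prod (fun f _ => by have := hR (K f); positivity) fun f _ =>
    div_le_div_of_nonneg_right (pow_le_pow_left₀ (hR _) (Rho_le _ h.Y0 h.Y1) _) (by positivity)

open Classical in
/-- **prescribed orders**, for sequences depending on the family. -/
theorem MM_sc (h : D.Ok) {Ω : Type} [Fintype Ω] {P : Ω → ℝ} (hP : ∀ ω, 0 ≤ P ω)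
    (h1 : ∑ ω, P ω ≤ 1) (Lw : Ω → Finset Γ) (K n : ι → ℕ) (q : Ω → ι → List Γ)
    (E : Ω → List Γ → Prop) (hE : ∀ ω l, P ω ≠ 0 → D.Adm (Lw ω) l → E ω l → Sq (q ω) ∧
      ∀ f, (q ω f).length = n f ∧ (q ω f).Sublist l ∧ ∀ g ∈ q ω f, D.k g ≤ K f) :
    D.MM P Lw (fun ω l => if E ω l then 1 else 0) ≤
      ∏ f, (1 + Real.log (K f)) ^ n f / ((n f).factorial : ℝ) := by
  have hB : 0 ≤ ∏ f, (1 + Real.log (K f)) ^ n f / ((n f).factorial : ℝ) :=
    prod_nonneg fun f _ => by have := Real.log_natCast_nonneg (K f); positivity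
  refine le_trans (sum_le_sum fun ω _ => ?_) ((sum_mul _ _ _).symm.trans_le
    (mul_le_of_le_one_left hB h1))
  by_cases h0 : P ω = 0
  · simp [h0]
  refine mul_le_mul_of_nonneg_left ?_ (hP ω)
  by_cases hex : ∃ l, D.Adm (Lw ω) l ∧ E ω l
  · obtain ⟨l₀, hl₀, hE₀⟩ := hex
    obtain ⟨hq, hf⟩ := hE ω l₀ h0 hl₀ hE₀
    refine (m_mono h _ (fun l hl => ?_) le_rfl h.Y0).trans ((sc h K (Lw ω) hq
      fun f => (hf f).2.2).trans (le_of_eq (prod_congr rfl fun f _ => by rw [(hf f).1])))
    beta_reduce
    split_ifs with k k'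
    · exact le_rfl
    · exact absurd (fun f => ((hE ω l h0 hl k).2 f).2.1) k'
    · exact zero_le_one
    · exact le_rfl
  · refine (m_mono h _ (H' := fun _ => 0) (fun l hl => ?_) le_rfl h.Y0).trans
      ((D.m_zero _ _).trans_le hB)
    exact (if_neg fun k => hex ⟨l, hl, k⟩).le

end Dat

end Crest.Agent.N337.Bi
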