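import Crest.Agent.N337.E.TPc
import Crest.Agent.N337.E.SC
import Crest.Agent.N337.E.Det

/-!
# Row 337, ENG (helper14): the engine

`Inp.scb` short chains, `Inp.prb` coin events, `Inp.skel` one skeleton, `eng : EngStmt`.
-/

set_option autoImplicit false
set_option linter.unusedSectionVars false

namespace Crest.Agent.N337.En

open Finset Crest.MathPhysics.SpinModel Crest.Agent.N337.Rep Sd Rg Tr Free
open Crest.Agent.N337.Gas (Lp pts wd ub lp obv)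

variable {L n T : ℕ} [NeZero L] [NeZero T] {ex ey : Fin T → Tor 3 L × Fin n} {ξ : Fin T → Bool}
  {α κ : Type} [SemilatticeSup α] [Preorder κ] {S : Sys (Tor 3 L) α κ} {G : Eg} {P : Pz}
  {p : Fin T → ℝ} {b : Fin T × (Tor 3 L × Fin n) → ℝ} {Y : ℝ} {U : ℕ → Tor 3 L → Prop}
  {Lf : Finset (Lp T (Tor 3 L × Fin n)) → Tor 3 L → Prop} {Ev : (Fin T → Bool) → ℕ → V → Prop}
  {m : ℕ} {z : V} {𝒮 : Finset (Term T n)}

/-- the points of a short chain. -/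
def xsOf (t : Term T n) : List (Pv T n) :=
  match t.dt with
  | .sc xs => xs
  | _ => []

/-- the place of a coin event. -/
def zOf (t : Term T n) : V :=
  match t.dt with
  | .pr z => z
  | _ => 0

/-- price of short chains. -/
noncomputable def Pz.p2 (P : Pz) (t : Term T n) : ℝ :=
  match t.dt with
  | .sc _ => P.ws t.lv ^ 3
  | _ => 1

/-- price of coin events. -/
noncomputable def Pz.p3 (P : Pz) (t : Term T n) : ℝ :=
  match t.dt with
  | .pr _ => P.wp t.lv ^ 3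
  | _ => 1

lemma p123 (t : Term T n) : P.p1 t * P.p2 t * P.p3 t = P.w t ^ 3 := by
  obtain ⟨u, l, _ | _ | _ | _⟩ := t <;> simp [Pz.p1, Pz.p2, Pz.p3, Pz.w]

/-- two terms that are not both targets are far apart. -/
lemma far_ne (H : Shp G m 0 z 𝒮) (hL : 4 * G.rr m < L) {t t' : Term T n} (ht : t ∈ 𝒮)
    (ht' : t' ∈ 𝒮) {v v' : V} (h : t.At v) (h' : t'.At v') (hne : t ≠ t')
    (hx : ∀ x, t.dt ≠ .tg x) : G.σ t.lv < 4 * tdist (tcast L v) (tcast L v') :=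
  shp_far H hL ht ht' h h' le_rfl fun k =>
    let ⟨_, _, x, _, e, _⟩ := H.own t ht t' ht' (At.ne_fr h) (At.ne_fr h') hne k; hx x e

lemma sc_spec {l : List (Lp T (Tor 3 L × Fin n))} (hl : ∀ g ∈ l, g ∈ Gas.L ex ey ξ)
    (R : Real S G (cf P U Lf Ev ξ) (sq l) l.length G.mt 𝒮) {t : Term T n} (ht : t ∈ 𝒮) :
    ((xsOf t).map fun x => lp ex ey ξ (pj L x)).Sublist l ∧ ∀ x ∈ xsOf t,
      ∀ y ∈ (lp ex ey ξ (pj L x)).2, tdist (tcast L x.2.1) y.2.1 ≤ G.Rl (t.lv - 1) := by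
  obtain ⟨u, k, _ | _ | xs | _⟩ := t
  any_goals exact ⟨List.nil_sublist _, fun x hx => absurd hx List.not_mem_nil⟩
  obtain ⟨ι, h1, h2⟩ := R.sc u k xs ht
  have e : ∀ j : Fin xs.length, lp ex ey ξ (pj L xs[j]) = sq l (ι j) := fun j =>
    (Gas.eq_lp (hl _ (sq_eq (h2 j).1 ▸ List.getElem_mem _)) (h2 j).2.1).symm
  refine ⟨List.sublist_iff_exists_fin_orderEmbedding_get_eq.2 ⟨OrderEmbedding.ofStrictMono
    (fun j => ⟨ι (j.cast (List.length_map _)), (h2 _).1⟩) fun i j h => h1 h, fun j => ?_⟩,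
    fun x hx y hy => ?_⟩
  · exact (List.getElem_map _).trans ((e (j.cast (List.length_map _))).trans (sq_eq (h2 _).1))
  · obtain ⟨j, hj, rfl⟩ := List.getElem_of_mem hx
    exact not_lt.1 fun k => (h2 ⟨j, hj⟩).2.2 ⟨y, e ⟨j, hj⟩ ▸ hy, k⟩

lemma xs_At {t : Term T n} {x : Pv T n} (h : x ∈ xsOf t) :
    t.At x.2.1 ∧ ∃ xs, t.dt = .sc xs := by
  obtain ⟨u, k, _ | _ | xs | _⟩ := t
  any_goals exact absurd h List.not_mem_nil
  exact ⟨⟨x, h, rfl⟩, xs, rfl⟩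

namespace Inp
variable (I : Inp ex ey S G P p b Y U Lf Ev) (H : Shp G m 0 z 𝒮) (hm : m ≤ G.mt)
include I H hm

open Classical in
/-- **short chains.** -/
theorem scb : Bi.BM ex ey p b Y (fun ξ l =>
    if Real S G (cf P U Lf Ev ξ) (sq l) l.length G.mt 𝒮 then 1 else 0) ≤ ∏ t ∈ 𝒮, P.p2 t := by
  refine (Bi.Dat.MM_sc (ι := 𝒮) (Bi.LD_ok I.hb I.hY.1.le I.hY.2.le) (Pw_nonneg I.hp)
    (sum_Pw p).le _ (fun t => n * vol (G.Rl (t.1.lv - 1))) (fun t => (xsOf t.1).length)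
    (fun ξ t => (xsOf t.1).map fun x => lp ex ey ξ (pj L x)) _ fun ξ l _ hl R => ?_).trans ?_
  · have h := fun t : 𝒮 => sc_spec (fun g hg => (hl.2 g hg).1) R t.2
    refine ⟨⟨fun t => hl.1.sublist (h t).1, fun t t' g h1 h2 => ?_⟩,
      fun t => ⟨List.length_map _, (h t).1, fun g hg => ?_⟩⟩
    · obtain ⟨x, hx, rfl⟩ := List.mem_map.1 h1
      obtain ⟨x', hx', e⟩ := List.mem_map.1 h2
      by_contra hne
      obtain ⟨a1, xs, a2⟩ := xs_At hx
      have k1 := far_ne H (I.nm.hL m hm) t.2 t'.2 a1 (xs_At hx').1 (fun e => hne (Subtype.ext e))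
        (by simp [a2])
      have k2 := (h t).2 x hx (pj L x') (e ▸ Gas.self_mem_obv ξ _)
      have k3 := (H.len t.1.cd t.1.lv xs (a2 ▸ t.2)).1
      have k4 := (I.nm.dd (t.1.lv - 1)).2.2.2
      rw [Nat.sub_add_cancel k3] at k4
      change tdist _ (tcast L x'.2.1) ≤ _ at k2
      omega
    · obtain ⟨x, hx, rfl⟩ := List.mem_map.1 hg
      exact (card_le_card fun y hy => mem_filter.2 ⟨mem_univ _,
        (h t).2 x hx _ (mem_filter.1 hy).2⟩).trans (card_near _ _)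
  · rw [← prod_coe_sort 𝒮]
    refine prod_le_prod (fun t _ => div_nonneg (pow_nonneg (add_nonneg zero_le_one
      (Real.log_natCast_nonneg _)) _) (Nat.cast_nonneg _)) ?_
    rintro ⟨⟨u, k, _ | _ | xs | _⟩, ht⟩ -
    rotate_left 2
    · obtain ⟨h1, h2⟩ := H.len u k xs ht
      have := (I.nm.ws (k - 1)).2
      rw [Nat.sub_add_cancel h1, ← h2] at this
      exact (div_le_iff₀' (Nat.cast_pos.2 (Nat.factorial_pos _))).2 this
    all_goals exact le_of_eq (by simp [xsOf, Pz.p2])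

omit H hm in
open Classical in
lemma hp_use {A : Finset (ℕ × V)} (h1 : ∀ t ∈ A, t.1 ≤ G.mt ∧ Fre G U (t.1 - 1) t.2)
    (h2 : ∀ t ∈ A, ∀ t' ∈ A, t ≠ t' → G.σ t.1 < 4 * tdist (tcast L t.2) (tcast L t'.2))
    {E : (Fin T → Bool) → List (Lp T (Tor 3 L × Fin n)) → Prop}
    (hE : ∀ ξ l, E ξ l → ∀ t ∈ A, Ev ξ t.1 t.2) :
    Bi.BM ex ey p b Y (fun ξ l => if E ξ l then 1 else 0) ≤ ∏ t ∈ A, P.η t.1 := by
  have ok := Bi.LD_ok I.hb I.hY.1.le I.hY.2.le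
  refine le_trans (Bi.Dat.MM_mono ok (Pw_nonneg I.hp) fun ξ l _ _ => ?_)
    ((Bi.Dat.MM_fam ok (Pw_nonneg I.hp) fun _ => ?_).trans (I.pr A h1 h2))
  · beta_reduce
    split_ifs with k k'
    exacts [le_rfl, absurd (hE ξ l k) k', zero_le_one, le_rfl]
  · split_ifs <;> norm_num

omit H hm in
lemma η_nn {l : ℕ} {v : V} (h1 : l ≤ G.mt) (h2 : Fre G U (l - 1) v) : 0 ≤ P.η l := by
  have := I.pr {(l, v)} (by simpa using ⟨h1, h2⟩) (by simp)
  rw [prod_singleton] at this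
  exact le_trans (sum_nonneg fun ξ _ => mul_nonneg (Pw_nonneg I.hp ξ)
    (by split_ifs <;> norm_num)) this

open Classical in
/-- **coin events.** -/
theorem prb : Bi.BM ex ey p b Y (fun ξ l =>
    if Real S G (cf P U Lf Ev ξ) (sq l) l.length G.mt 𝒮 then 1 else 0) ≤ ∏ t ∈ 𝒮, P.p3 t := by
  have ok := Bi.LD_ok I.hb I.hY.1.le I.hY.2.le
  obtain ⟨A, hA⟩ : ∃ A, A = 𝒮.filter fun t => ∃ v, t.dt = .pr v := ⟨_, rfl⟩
  have hAt : ∀ t ∈ A, t ∈ 𝒮 ∧ t.At (zOf t) ∧ t.dt = .pr (zOf t) := by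
    rintro ⟨u, k, d⟩ ht
    obtain ⟨h1, v, h2⟩ := mem_filter.1 (hA ▸ ht)
    obtain rfl : d = .pr v := h2
    exact ⟨h1, rfl, rfl⟩
  have hR : ∀ ξ l, Real S G (cf P U Lf Ev ξ) (sq l) l.length G.mt 𝒮 → ∀ t ∈ A,
      Ev ξ t.lv (zOf t) ∧ Fre G U (t.lv - 1) (zOf t) := fun ξ l R t ht =>
    R.pr t.cd t.lv _ ((hAt t ht).2.2 ▸ (hAt t ht).1)
  have e : ∏ t ∈ 𝒮, P.p3 t = ∏ t ∈ A, P.wp t.lv ^ 3 := by
    rw [hA, prod_filter]
    refine prod_congr rfl ?_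
    rintro ⟨u, k, _ | _ | _ | _⟩ - <;> simp [Pz.p3]
  rw [e]
  by_cases hF : ∀ t ∈ A, Fre G U (t.lv - 1) (zOf t)
  swap
  · refine (Bi.Dat.MM_mono ok (Pw_nonneg I.hp) (H' := fun _ _ => 0) fun ξ l _ _ =>
      (if_neg fun R => hF fun t ht => (hR ξ l R t ht).2).le).trans ((Bi.Dat.MM_fam ok
        (Pw_nonneg I.hp) (f := fun _ => 0) fun _ => le_rfl).trans ?_)
    simpa using prod_nonneg fun t _ => pow_nonneg (I.nm.wp t.lv).1 3
  have hf : ∀ t ∈ A, ∀ t' ∈ A, t ≠ t' → G.σ t.lv < 4 * tdist (tcast L (zOf t)) (tcast L (zOf t')) :=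
    fun t ht t' ht' hne => far_ne H (I.nm.hL m hm) (hAt t ht).1 (hAt t' ht').1 (hAt t ht).2.1
      (hAt t' ht').2.1 hne (by simp [(hAt t ht).2.2])
  have hi : Set.InjOn (fun t : Term T n => (t.lv, zOf t)) A := fun t ht t' ht' e => by
    by_contra hne
    have := hf t ht t' ht' hne
    rw [show zOf t = zOf t' from congrArg Prod.snd e, tdist_self] at this
    omega
  have h1 : ∀ t ∈ A, t.lv ≤ G.mt := fun t ht => (H.cd t (hAt t ht).1).2.trans hm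
  refine (I.hp_use (A := A.image fun t => (t.lv, zOf t)) (forall_mem_image.2
    fun t ht => ⟨h1 t ht, hF t ht⟩) (forall_mem_image.2 fun t ht => forall_mem_image.2
      fun t' ht' hne => hf t ht t' ht' fun e => hne (by rw [e]))
    fun ξ l k => forall_mem_image.2 fun t ht => (hR ξ l k t ht).1).trans ?_
  rw [prod_image hi]
  exact prod_le_prod (fun t ht => I.η_nn (h1 t ht) (hF t ht)) fun t _ => (I.nm.wp t.lv).2

open Classical in
/-- **one skeleton.** -/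
theorem skel : Bi.BM ex ey p b Y (fun ξ l =>
    if Real S G (cf P U Lf Ev ξ) (sq l) l.length G.mt 𝒮 then 1 else 0) ≤ Tr.Wt P.w 𝒮 := by
  have h1 := I.tpc H hm
  have h2 := I.scb H hm
  have h3 := I.prb H hm
  generalize Bi.BM ex ey p b Y _ = q at h1 h2 h3 ⊢
  by_contra h
  have h0 := (I.nm.Wt_nn 𝒮).trans_lt (not_le.1 h)
  have h4 : q ^ 3 ≤ Tr.Wt P.w 𝒮 ^ 3 := by
    rw [Tr.Wt, ← prod_pow, ← prod_congr rfl fun t _ => p123 t, prod_mul_distrib, prod_mul_distrib,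
      pow_succ, pow_two]
    exact mul_le_mul (mul_le_mul h1 h2 h0.le (h0.le.trans h1)) h3 h0.le
      (mul_nonneg (h0.le.trans h1) (h0.le.trans h2))
  exact h (le_of_pow_le_pow_left₀ (by norm_num) (I.nm.Wt_nn 𝒮) h4)

end Inp

variable (ex ey S G P) in
/-- **ENG.** -/
theorem eng : EngStmt ex ey S G P := by
  classical
  intro p b Y U Lf Ev I m hm y hy
  rw [← tcast_lf 0 y] at hy ⊢
  generalize lf 0 y = x at hy
  refine (Bi.Dat.MM_union (Bi.LD_ok I.hb I.hY.1.le I.hY.2.le) (Pw_nonneg I.hp)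
    ((Ico m G.mt).sigma fun l => (box x (G.kp l)).sigma fun y => Top S G T n l y) _
    (fun i ξ l => Real S G (cf P U Lf Ev ξ) (sq l) l.length G.mt i.2.2) fun ξ l h0 hl h => ?_).trans ?_
  · obtain ⟨k, h1, h2, y, h3, 𝒮, h4, R⟩ := det S G (cf P U Lf Ev ξ) (sq l) l.length I.ok
      (I.dyn ξ l h0 hl.1 hl.2) (fun i hi j hj hne => disjoint_left.2 fun v a1 a2 => by
        rw [sq_eq hi] at a1
        rw [sq_eq hj] at a2
        exact hne (hl.1.getElem_inj_iff.1 (Gas.L_eq (hl.2 _ (List.getElem_mem hi)).1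
          (hl.2 _ (List.getElem_mem hj)).1 a1 a2))) m hm x hy
      (by rw [St_sq l le_rfl, List.take_length]; exact h)
    exact ⟨⟨k, y, 𝒮⟩, mem_sigma.2 ⟨mem_Ico.2 ⟨h1, h2⟩, mem_sigma.2 ⟨h3, h4⟩⟩, R⟩
  · rw [sum_sigma]
    refine sum_le_sum fun l hl => ?_
    have hl' := (mem_Ico.1 hl).2
    have hs := I.nm.sum_Top (T := T) I.ok (fun _ _ _ _ h => (shp_Fam I.ok h).cd) l hl'
    rw [sum_sigma]
    exact sum_le_card ((sum_nonneg fun _ _ => I.nm.Wt_nn _).trans (hs x)) (fun y _ =>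
      (sum_le_sum fun 𝒮 h => I.skel (shp_Top I.ok h) hl').trans (hs y)) (by rw [En.card_box])

end Crest.Agent.N337.En
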