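import Crest.Agent.N337.E.Fast
import Crest.Agent.N337.I.Geom

/-!
# Row 337, ENG leaves (helper86): the return event

`RE` = in the local coins some strand returns `k` times next to the red set enlarged by a few
other strands, and the Green function between the targets is small.  It is rare (`pr_RE`).
-/

set_option autoImplicit false
set_option linter.unusedSectionVars false

namespace Crest.Agent.N337.Wk

open Finset Equiv Crest.Agent.N337.Rep Crest.Agent.N337.LY0 Crest.Agent.N337.Arc Free KV Geo I WN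

section gen
variable {Λ : Type} [Fintype Λ] [DecidableEq Λ] {T : ℕ} [NeZero T] (ex ey : Fin T → Λ)

/-- the first `N` points of the strands from `X`. -/
def arcs (X : Finset (Fin T × Λ)) (N : ℕ) (ξ : Fin T → Bool) : Finset (Fin T × Λ) :=
  X.biUnion fun u => (range N).image (arc ex ey u ξ)

/-- prescribed visits with small Green functions. -/
structure Vs (p : Fin T → ℝ) (b : Fin T × Λ → ℝ) (u : Fin T × Λ) (t : ℕ → ℕ)
    (S : ℕ → Finset (Fin T × Λ)) (Γ : ℝ) (k : ℕ) (ξ : Fin T → Bool) : Prop where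
  fld : Fld b
  mono : Monotone t
  le : t k ≤ T
  grn : ∀ a < k, ∀ y ∈ S a, ∑ z ∈ S (a + 1), Gi ex ey p b z y ≤ Γ
  vis : ∀ a ≤ k, arc ex ey u ξ (t a) ∈ S a
  prod : 1 / 2 ≤ ∏ j ∈ Ico (t 0) (t k), b (arc ex ey u ξ j)

variable {ex ey} {p : Fin T → ℝ} {X : Finset (Fin T × Λ)} {N : ℕ} {ξ ξ' : Fin T → Bool}

lemma mem_arcs {v : Fin T × Λ} : v ∈ arcs ex ey X N ξ ↔ ∃ u ∈ X, ∃ j < N, arc ex ey u ξ j = v := by
  simp [arcs]

lemma arc_congr (h : ∀ s ∈ tch ex ey (arcs ex ey X N ξ), ξ' s = ξ s) {u : Fin T × Λ} (hu : u ∈ X) :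
    ∀ j ≤ N, arc ex ey u ξ' j = arc ex ey u ξ j := by
  intro j
  induction j with
  | zero => exact fun _ => rfl
  | succ j ih =>
    intro hj
    rw [arc_succ, arc_succ, ih (by omega)]
    exact Sg_congr ex ey h (mem_arcs.2 ⟨u, hu, j, hj, rfl⟩)

lemma arcs_congr (h : ∀ s ∈ tch ex ey (arcs ex ey X N ξ), ξ' s = ξ s) :
    arcs ex ey X N ξ' = arcs ex ey X N ξ :=
  biUnion_congr rfl fun _ hu => image_congr fun j hj => arc_congr h hu j (mem_range.1 hj).le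

lemma ends_arcs : Arc.ends ex ey ξ (arcs ex ey X N ξ) ≤ X.card := by
  classical
  refine le_trans (card_le_card fun v hv => ?_) (card_image_le (f := fun u => arc ex ey u ξ (N - 1)))
  obtain ⟨h1, h2⟩ := mem_filter.1 hv
  obtain ⟨u, hu, j, hj, rfl⟩ := mem_arcs.1 h1
  refine mem_image.2 ⟨u, hu, ?_⟩
  by_contra h3
  have : j + 1 ≠ N := fun e => h3 (by rw [← e, Nat.add_sub_cancel])
  exact h2 (mem_arcs.2 ⟨u, hu, j + 1, by omega, arc_succ ex ey u ξ j⟩)

/-- conditioning on some strands. -/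
theorem pin_bound (hp : ∀ s, 0 ≤ p s ∧ p s ≤ 1) (X : Finset (Fin T × Λ)) (N : ℕ)
    (Q : Finset (Fin T × Λ) → (Fin T → ℝ) → (Fin T → Bool) → Prop) {ε : ℝ}
    (h : ∀ O p', (∀ s, 0 ≤ p' s ∧ p' s ≤ 1) → Pe p' (Q O p') ≤ ε) :
    Pe p (fun ξ => Q (arcs ex ey X N ξ) (pin p (tch ex ey (arcs ex ey X N ξ)) ξ) ξ) ≤ ε := by
  have hR : PH.Stop (E := fun _ => Bool) fun ξ => tch ex ey (arcs ex ey X N ξ) :=
    fun ξ ξ' k => by simp only [arcs_congr k]
  rw [Pe, ← hR.ex_P (pr_pb hp), ← (pr_pb hp).ex_const ε]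
  refine (pr_pb hp).ex_mono fun ξ => le_trans (le_of_eq ?_) (h (arcs ex ey X N ξ) _
    (pin_mem hp (tch ex ey (arcs ex ey X N ξ)) ξ))
  rw [P_pin]
  refine sum_congr rfl fun ξ' _ => ?_
  rw [w_pb]
  by_cases h0 : Pw (pin p (tch ex ey (arcs ex ey X N ξ)) ξ) ξ' = 0
  · rw [h0, zero_mul, zero_mul]
  · rw [arcs_congr (Pw_pin_supp h0), pin_congr p (Pw_pin_supp h0)]

theorem pr_Vs (hp : ∀ s, 0 ≤ p s ∧ p s ≤ 1) (b : Fin T × Λ → ℝ) (u : Fin T × Λ) (t : ℕ → ℕ)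
    (S : ℕ → Finset (Fin T × Λ)) {Γ : ℝ} (hΓ : 0 ≤ Γ) (k : ℕ) :
    Pe p (Vs ex ey p b u t S Γ k) ≤ 2 * Γ ^ k := by
  classical
  by_cases h : ∃ ξ, Vs ex ey p b u t S Γ k ξ
  · obtain ⟨ξ0, H⟩ := h
    refine (Pe_le hp (f := fun ξ => 2 * ((if ∀ a ≤ k, arc ex ey u ξ (t a) ∈ S a then 1 else 0) *
      ∏ j ∈ Ico (t 0) (t k), b (arc ex ey u ξ j))) (fun ξ => ?_) fun ξ H => ?_).trans ?_
    · exact mul_nonneg zero_le_two (mul_nonneg (by split_ifs <;> norm_num)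
        (prod_nonneg fun _ _ => (H.fld.mem _).1))
    · rw [if_pos H.vis]; linarith [H.prod]
    · rw [PH.ex_mul]
      refine mul_le_mul_of_nonneg_left (le_trans (le_of_eq ?_)
        (walk ex ey hp H.fld u H.mono S hΓ k H.le H.grn)) zero_le_two
      congr! 4
  · refine (Pe_le hp (f := fun _ => 0) (fun _ => le_rfl) fun ξ H => absurd ⟨ξ, H⟩ h).trans ?_
    rw [(pr_pb hp).ex_const]; positivity

end gen

/-! ### families of windows -/

/-- rank in `Fw`. -/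
def rk (Fw : Finset ℕ) (a : ℕ) : ℕ := (Fw.filter (· < a)).card

/-- sets of `k + 1` elements of `Fw` whose ranks are congruent mod `τ`. -/
def fam (Fw : Finset ℕ) (τ k : ℕ) : Finset (Finset ℕ) :=
  (range τ).biUnion fun c => powersetCard (k + 1) (Fw.filter fun a => rk Fw a % τ = c)

section fam
variable {Fw H Ws : Finset ℕ} {τ k l a a' : ℕ}

lemma rk_add (h : a ≤ a') : rk Fw a + (Fw.filter fun b => a ≤ b ∧ b < a').card = rk Fw a' := by
  rw [rk, rk, ← card_union_of_disjoint (disjoint_filter.2 fun b _ h1 h2 => by omega), ← filter_or]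
  exact congrArg card (filter_congr fun b _ => by omega)

lemma rk_lt (ha : a ∈ Fw) (h : a < a') : rk Fw a < rk Fw a' := by
  have := rk_add (Fw := Fw) h.le
  have : 0 < (Fw.filter fun b => a ≤ b ∧ b < a').card := card_pos.2 ⟨a, by simp [ha, h]⟩
  omega

lemma card_fam (hl : Fw.card ≤ l) : (fam Fw τ k).card ≤ τ * 2 ^ (l / τ + 1) := by
  refine (card_biUnion_le_card_mul _ _ _ fun c _ => ?_).trans (by rw [card_range])
  rw [card_powersetCard]
  refine (Nat.choose_le_two_pow _ _).trans (Nat.pow_le_pow_right two_pos ?_)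
  rw [← card_range (l / τ + 1)]
  refine card_le_card_of_injOn (fun a => rk Fw a / τ) (fun a _ => mem_range.2 (Nat.lt_succ_of_le
    (Nat.div_le_div_right ((card_filter_le _ _).trans hl)))) fun a ha b hb e => ?_
  have h1 := mem_filter.1 ha
  have h2 := mem_filter.1 hb
  have h3 : rk Fw a = rk Fw b := by
    rw [← Nat.div_add_mod (rk Fw a) τ, ← Nat.div_add_mod (rk Fw b) τ, h1.2, h2.2]
    exact congrArg (τ * · + c) e
  rcases lt_trichotomy a b with h | h | h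
  exacts [absurd h3 (rk_lt h1.1 h).ne, h, absurd h3 (rk_lt h2.1 h).ne']

lemma exists_fam (hτ : 0 < τ) (hH : H ⊆ Fw) (h : τ * k < H.card) : ∃ Ws ∈ fam Fw τ k, Ws ⊆ H := by
  obtain ⟨c, hc, h1⟩ := exists_lt_card_fiber_of_mul_lt_card_of_maps_to (s := H) (t := range τ)
    (f := fun a => rk Fw a % τ) (fun a _ => mem_range.2 (Nat.mod_lt _ hτ)) (by rwa [card_range])
  obtain ⟨Ws, h2, h3⟩ := exists_subset_card_eq (Nat.succ_le_of_lt h1)
  exact ⟨Ws, mem_biUnion.2 ⟨c, hc, mem_powersetCard.2 ⟨h2.trans (filter_subset_filter _ hH), h3⟩⟩,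
    h2.trans (filter_subset _ _)⟩

lemma fam_card (h : Ws ∈ fam Fw τ k) : Ws.card = k + 1 := by
  obtain ⟨c, -, h⟩ := mem_biUnion.1 h
  exact (mem_powersetCard.1 h).2

lemma fam_gap (h : Ws ∈ fam Fw τ k) (ha : a ∈ Ws) (ha' : a' ∈ Ws) (hl : a < a') :
    τ ≤ (Fw.filter fun b => a ≤ b ∧ b < a').card := by
  obtain ⟨c, -, h⟩ := mem_biUnion.1 h
  have h1 := mem_filter.1 ((mem_powersetCard.1 h).1 ha)
  have h2 := mem_filter.1 ((mem_powersetCard.1 h).1 ha')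
  have h3 := rk_lt h1.1 hl
  have h4 := Nat.le_of_dvd (by omega) ((Nat.modEq_iff_dvd' h3.le).1 (h1.2.trans h2.2.symm))
  have := rk_add (Fw := Fw) hl.le
  omega

/-- enumeration. -/
noncomputable def en (Ws : Finset ℕ) (k a : ℕ) : ℕ := Nat.nth (· ∈ Ws) (min a k)

lemma en_mem (h : Ws.card = k + 1) (a : ℕ) : en Ws k a ∈ Ws :=
  Nat.nth_mem_of_lt_card Ws.finite_toSet (by simp [h])

lemma en_mono (h : Ws.card = k + 1) : Monotone (en Ws k) := fun a b hab =>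
  Nat.nth_le_nth_of_lt_card Ws.finite_toSet (by omega) (by simp [h])

lemma en_lt (h : Ws.card = k + 1) (ha : a < k) : en Ws k a < en Ws k (a + 1) :=
  Nat.nth_lt_nth_of_lt_card Ws.finite_toSet (by omega) (by simp [h])

end fam

/-! ### the event -/

variable {L n T : ℕ} [NeZero L] [NeZero T] (ex ey : Fin T → Tor 3 L × Fin n) (F : Lf)

/-- fugacity `1/2` at time `0`. -/
noncomputable def b2 (s : Fin T) : ℝ := if s = 0 then 1 / 2 else 1

/-- everything outside the ball is killed. -/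
def zd (Z : Finset (Tor 3 L)) (x : Tor 3 L) (d : ℕ) : Finset (Tor 3 L) := Z ∪ (bl x d)ᶜ

open Classical in
/-- cluster free windows of the unit. -/
noncomputable def fw (R : Finset (V L n T)) (x : Tor 3 L) (d i : ℕ) : Finset ℕ :=
  (range F.l).filter fun a => ¬ Cl F d R x (i + a)

open Classical in
/-- slots next to the shadow of `R` in window `i`. -/
noncomputable def tg (R : Finset (V L n T)) (x : Tor 3 L) (d h i : ℕ) : Finset (V L n T) :=
  {tm T (i * F.D)} ×ˢ (univ.filter fun y : Tor 3 L × Fin n => tdist x y.1 ≤ d ∧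
    ∃ k ∈ Ico (i * F.D) ((i + 2) * F.D), (tm T k, y) ∈ R).biUnion fun y => sl n y.1 h

/-- the strand from `y` returns, given the point set `O` and the coin law `p`. -/
def Rt (R : Finset (V L n T)) (Z : Finset (Tor 3 L)) (x : Tor 3 L) (τ k h : ℕ) (Γ : ℝ) (i d : ℕ)
    (y : Tor 3 L × Fin n) (O : Finset (V L n T)) (p : Fin T → ℝ) (ξ : Fin T → Bool) : Prop :=
  ∃ Ws ∈ fam (fw F (vis Z (R ∪ O)) x d i) τ k, Vs ex ey p (bE b2 (zd Z x d) (R ∪ O))
    (tm T (i * F.D), y) (fun a => en Ws k a * F.D)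
    (fun a => tg F (vis (zd Z x d) (R ∪ O)) x d h (i + en Ws k a)) Γ k ξ

/-- the steps near `x`. -/
def nr (x : Tor 3 L) (ρ : ℕ) : Finset (Fin T) := univ.filter fun s => tdist x (ex s).1 ≤ ρ

/-- the return event. -/
def RE (p : Fin T → ℝ) (R : Finset (V L n T)) (Z : Finset (Tor 3 L)) (B m r ρ τ k h : ℕ) (Γ : ℝ)
    (x : Tor 3 L) (ξ : Fin T → Bool) : Prop :=
  ∃ i < B, ∃ d ≤ F.r0, ∃ X ⊆ sl n x r, X.card < m ∧ ∃ y ∈ sl n x r, Rt ex ey F R Z x τ k h Γ i d y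
    (arcs ex ey ({tm T (i * F.D)} ×ˢ X) (F.l * F.D) (lc (nr ex x ρ) ξ))
    (pin (lq p (nr ex x ρ)) (tch ex ey (arcs ex ey ({tm T (i * F.D)} ×ˢ X) (F.l * F.D)
      (lc (nr ex x ρ) ξ))) (lc (nr ex x ρ) ξ)) (lc (nr ex x ρ) ξ)

variable {ex ey F}

theorem pr_RE {p : Fin T → ℝ} (hp : ∀ s, 0 ≤ p s ∧ p s ≤ 1) (R : Finset (V L n T))
    (Z : Finset (Tor 3 L)) (B m r ρ τ k h : ℕ) {Γ : ℝ} (hΓ : 0 ≤ Γ) (x : Tor 3 L) :
    Pe p (RE ex ey F p R Z B m r ρ τ k h Γ x) ≤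
      (B * ((F.r0 + 1) * (m * (n * (2 * r + 1) ^ 3 + 1) ^ m * (n * (2 * r + 1) ^ 3))) : ℕ) *
        ((τ * 2 ^ (F.l / τ + 1) : ℕ) * (2 * Γ ^ k)) := by
  classical
  refine Pe_union hp (range B ×ˢ range (F.r0 + 1) ×ˢ ((range m).biUnion
    fun c => powersetCard c (sl n x r)) ×ˢ sl n x r) (fun z ξ => Rt ex ey F R Z x τ k h Γ z.1 z.2.1
      z.2.2.2 (arcs ex ey ({tm T (z.1 * F.D)} ×ˢ z.2.2.1) (F.l * F.D) (lc (nr ex x ρ) ξ))
      (pin (lq p (nr ex x ρ)) (tch ex ey (arcs ex ey ({tm T (z.1 * F.D)} ×ˢ z.2.2.1) (F.l * F.D)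
        (lc (nr ex x ρ) ξ))) (lc (nr ex x ρ) ξ)) (lc (nr ex x ρ) ξ)) (by positivity)
    (fun ξ ⟨i, hi, d, hd, X, h1, h2, y, hy, H⟩ => ⟨(i, d, X, y), ?_, H⟩) (fun z _ => ?_) ?_
  · simp only [mem_product, mem_range, mem_biUnion, mem_powersetCard]
    exact ⟨hi, by omega, ⟨_, h2, h1, rfl⟩, hy⟩
  · refine le_trans (Pe_lc p _ fun ξ => Rt ex ey F R Z x τ k h Γ z.1 z.2.1 z.2.2.2 (arcs ex ey _ _ ξ)
      (pin _ (tch ex ey (arcs ex ey _ _ ξ)) ξ) ξ).le (pin_bound (lq_mem hp _) _ _ _ fun O p' h' => ?_)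
    exact Pe_union h' _ _ (by positivity) (fun _ H => H) (fun Ws _ => pr_Vs h' _ _ _ _ hΓ k)
      (card_fam ((card_filter_le _ _).trans (card_range _).le))
  · simp only [card_product, card_range]
    have h1 := card_sl (n := n) x r
    gcongr
    refine (card_biUnion_le_card_mul _ _ _ fun c hc => ?_).trans (by rw [card_range])
    rw [card_powersetCard]
    exact (Nat.choose_le_pow _ _).trans ((Nat.pow_le_pow_left (by omega) _).trans
      (Nat.pow_le_pow_right (Nat.succ_pos _) (mem_range.1 hc).le))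

end Crest.Agent.N337.Wk
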