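import Crest.Agent.N337.E.Birth

/-!
# Row 337, ENG (helper86): the supermartingale lemma for ordered births

`Ph φ a l` is the product of the multipliers `φ (past) g` along the list `l` started with past `a`.
`sm0` : general compensator; `sm` : dyadic winding classes (this contains the time integration).
-/

set_option autoImplicit false
set_option linter.unusedSectionVars false

namespace Crest.Agent.N337.Bi

open Finset

variable {Γ : Type} [DecidableEq Γ]

/-- product of the multipliers. -/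
def Ph (φ : List Γ → Γ → ℝ) : List Γ → List Γ → ℝ
  | _, [] => 1
  | a, g :: l => φ a g * Ph φ (a ++ [g]) l

lemma Ph_nn {φ : List Γ → Γ → ℝ} (h : ∀ a g, 0 ≤ φ a g) (a l : List Γ) : 0 ≤ Ph φ a l := by
  induction l generalizing a with
  | nil => exact zero_le_one
  | cons g l ih => exact mul_nonneg (h _ _) (ih _)

lemma Ph_append (φ : List Γ → Γ → ℝ) (a l l' : List Γ) :
    Ph φ a (l ++ l') = Ph φ a l * Ph φ (a ++ l) l' := by
  induction l generalizing a with
  | nil => simp [Ph]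
  | cons g l ih => simp [Ph, ih, mul_assoc]

lemma Ph_snoc (φ : List Γ → Γ → ℝ) (a l : List Γ) (g : Γ) :
    Ph φ a (l ++ [g]) = Ph φ a l * φ (a ++ l) g := by simp [Ph_append, Ph]

lemma Ph_eq (φ : List Γ → Γ → ℝ) (a l : List Γ) :
    Ph φ a l = ∏ i : Fin l.length, φ (a ++ l.take i) l[i] := by
  induction l generalizing a with
  | nil => simp [Ph]
  | cons g l ih => simp [Ph, ih, Fin.prod_univ_succ]

/-- a lower bound of the multipliers by a function of the polymer alone. -/
lemma le_Ph {φ : List Γ → Γ → ℝ} {f : Γ → ℝ} (hf : ∀ g, 0 ≤ f g) (a l : List Γ)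
    (h : ∀ l₁ g l₂, l = l₁ ++ g :: l₂ → f g ≤ φ (a ++ l₁) g) : (l.map f).prod ≤ Ph φ a l := by
  induction l generalizing a with
  | nil => simp [Ph]
  | cons g l ih =>
    rw [List.map_cons, List.prod_cons, Ph]
    have h1 := h [] g l rfl
    rw [List.append_nil] at h1
    refine mul_le_mul h1 (ih _ fun l₁ g' l₂ e => ?_) (List.prod_nonneg fun y hy => by
      obtain ⟨v, -, rfl⟩ := List.mem_map.1 hy; exact hf v) ((hf g).trans h1)
    have := h (g :: l₁) g' l₂ (by rw [e]; rfl)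
    simpa using this

namespace Dat

variable {D : Dat Γ} {Ω : Type} [Fintype Ω] [Fintype Γ] {P : Ω → ℝ} {Lw : Ω → Finset Γ}

lemma sum_ins (P : Ω → ℝ) (Lw : Ω → Finset Γ) (A : Finset Γ) (r : Γ → ℝ)
    (f : Ω → Γ → Finset Γ → ℝ) :
    ∑ ω, (P ω * if A ⊆ Lw ω then 1 else 0) *
        ∑ g ∈ Lw ω \ A, r g * f ω g ((Lw ω \ A).erase g) =
      ∑ g ∈ Aᶜ, r g * ∑ ω, (P ω * if insert g A ⊆ Lw ω then 1 else 0) *
        f ω g (Lw ω \ insert g A) := by
  simp only [mul_sum]
  rw [sum_comm (s := Aᶜ)]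
  refine sum_congr rfl fun ω _ => ?_
  rw [← sum_subset (show Lw ω \ A ⊆ Aᶜ from fun g hg => mem_compl.2 (mem_sdiff.1 hg).2)]
  · refine sum_congr rfl fun g hg => ?_
    simp only [insert_subset_iff, (mem_sdiff.1 hg).1, true_and, sdiff_insert]; ring
  · intro g hg hg'
    rw [if_neg fun k => hg' (mem_sdiff.2 ⟨k (mem_insert_self _ _), mem_compl.1 hg⟩)]; ring

lemma Z_deriv (A : Finset Γ) (s : ℝ) : HasDerivAt (D.Z P Lw A)
    (-∑ g ∈ Aᶜ, D.w' s g * D.Z P Lw (insert g A) s) s := by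
  have h1 := HasDerivAt.fun_sum (u := (univ : Finset Ω)) (x := s) fun ω _ =>
    (HasDerivAt.fun_finsetProd (u := Lw ω \ A) (x := s) fun g _ =>
      (D.w_deriv s g).const_sub 1).const_mul (P ω * if A ⊆ Lw ω then 1 else 0)
  refine h1.congr_deriv ?_
  unfold Z
  rw [← sum_ins P Lw A _ fun _ _ B => ∏ g ∈ B, (1 - D.w s g), ← sum_neg_distrib]
  refine sum_congr rfl fun ω _ => ?_
  rw [← mul_neg, ← sum_neg_distrib]
  exact congrArg _ (sum_congr rfl fun g _ => by rw [smul_eq_mul]; ring)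

/-- **supermartingale lemma**, general compensator. -/
theorem sm0 (h : D.Ok) {φ : List Γ → Γ → ℝ} (hφ : ∀ a g, 0 ≤ φ a g)
    {A a : ℝ → ℝ} (hA : ContinuousOn A (Set.Icc 0 D.Y))
    (hd : ∀ s ∈ Set.Ioo 0 D.Y, HasDerivAt A (a s) s)
    (hr : ∀ l : List Γ, l.Nodup → Ph φ [] l ≠ 0 → ∀ s ∈ Set.Ioo 0 D.Y,
      ∑ g ∈ l.toFinsetᶜ, D.w' s g * ((φ l g - 1) * D.Z P Lw (insert g l.toFinset) s) ≤
        a s * D.Z P Lw l.toFinset s) :
    D.MM P Lw (fun _ => Ph φ []) ≤ D.Z P Lw ∅ 0 * Real.exp (A D.Y - A 0) := by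
  have key : ∀ (n : ℕ) (l : List Γ), l.toFinsetᶜ.card = n → l.Nodup → Ph φ [] l ≠ 0 →
      ∀ s, 0 ≤ s → s ≤ D.Y → ∑ ω, (P ω * if l.toFinset ⊆ Lw ω then 1 else 0) *
        D.m (Lw ω \ l.toFinset) (Ph φ l) s ≤ D.Z P Lw l.toFinset s * Real.exp (A D.Y - A s) := by
    intro n
    induction n using Nat.strong_induction_on with
    | h n ih =>
      intro l hn hl h0 s hs hs1
      have hV := fun t => HasDerivAt.fun_sum (u := (univ : Finset Ω)) (x := t) fun ω _ =>
        (D.m_deriv (Lw ω \ l.toFinset) (Ph φ l) t).const_mul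
          (P ω * if l.toFinset ⊆ Lw ω then 1 else 0)
      have hZ := fun t => Z_deriv (D := D) (P := P) (Lw := Lw) l.toFinset t
      have := le_of_deriv hs1 (u := fun t => D.Z P Lw l.toFinset t * Real.exp (A D.Y - A t) -
        ∑ ω, (P ω * if l.toFinset ⊆ Lw ω then 1 else 0) * D.m (Lw ω \ l.toFinset) (Ph φ l) t)
        (((continuous_iff_continuousAt.2 fun t => (hZ t).continuousAt).continuousOn.mul
          (continuousOn_const.sub (hA.mono (Set.Icc_subset_Icc_left hs))).rexp).sub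
          (continuous_iff_continuousAt.2 fun t => (hV t).continuousAt).continuousOn)
        (fun t ht => ((hZ t).fun_mul ((hd t ⟨hs.trans_lt ht.1, ht.2⟩).const_sub (A D.Y)).exp).fun_sub
          (hV t)) fun t ht => ?_
      · simp only [sub_self, Real.exp_zero, mul_one, m_end, Ph, Z] at this
        exact sub_nonneg.1 this
      have ht0 : 0 < t := hs.trans_lt ht.1
      have h1 := mul_le_mul_of_nonneg_right (hr l hl h0 t ⟨ht0, ht.2⟩)
        (Real.exp_pos (A D.Y - A t)).le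
      have h2 : ∑ ω, (P ω * if l.toFinset ⊆ Lw ω then 1 else 0) * ∑ g ∈ Lw ω \ l.toFinset,
          D.w' t g * D.m ((Lw ω \ l.toFinset).erase g) (fun l' => Ph φ l (g :: l')) t ≤
          ∑ g ∈ l.toFinsetᶜ, D.w' t g * (φ l g * (D.Z P Lw (insert g l.toFinset) t *
            Real.exp (A D.Y - A t))) := by
        rw [sum_ins P Lw l.toFinset _ fun _ g B => D.m B (fun l' => Ph φ l (g :: l')) t]
        refine sum_le_sum fun g hg => mul_le_mul_of_nonneg_left ?_ (h.w'_nn ht0.le g)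
        simp only [Ph, m_mul, mul_left_comm _ (φ l g), ← mul_sum]
        by_cases hg0 : φ l g = 0
        · simp [hg0]
        refine mul_le_mul_of_nonneg_left ?_ (hφ l g)
        have hg' : g ∉ l := fun k => mem_compl.1 hg (List.mem_toFinset.2 k)
        have e : (l ++ [g]).toFinset = insert g l.toFinset := by ext; simp
        rw [← e]
        refine ih _ ?_ _ rfl (List.nodup_append.2 ⟨hl, List.nodup_singleton g, fun x hx y hy => ?_⟩)
          (by rw [Ph_snoc]; exact mul_ne_zero h0 hg0) t ht0.le ht.2.le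
        · rw [e, compl_insert, ← hn]; exact card_erase_lt_of_mem hg
        · rw [List.mem_singleton.1 hy]; rintro rfl; exact hg' hx
      have h3 : ∑ g ∈ l.toFinsetᶜ, D.w' t g * (φ l g * (D.Z P Lw (insert g l.toFinset) t *
          Real.exp (A D.Y - A t))) = (∑ g ∈ l.toFinsetᶜ, D.w' t g * ((φ l g - 1) *
            D.Z P Lw (insert g l.toFinset) t)) * Real.exp (A D.Y - A t) +
          (∑ g ∈ l.toFinsetᶜ, D.w' t g * D.Z P Lw (insert g l.toFinset) t) *
            Real.exp (A D.Y - A t) := by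
        rw [sum_mul, sum_mul, ← sum_add_distrib]; exact sum_congr rfl fun g _ => by ring
      simp only [mul_neg, sum_neg_distrib]
      linarith
  simpa [MM] using key _ [] rfl List.nodup_nil (by simp [Ph]) 0 le_rfl h.Y0

/-- **supermartingale lemma**, dyadic winding classes `2 ^ j ≤ k < 2 ^ (j + 1)`, `j < J`. -/
theorem sm (h : D.Ok) (hP : ∀ ω, 0 ≤ P ω) (h1 : ∑ ω, P ω ≤ 1) {φ ψ : List Γ → Γ → ℝ}
    (hφ : ∀ a g, 0 ≤ φ a g) (hψ : ∀ a g, 0 ≤ ψ a g) (hφψ : ∀ a g, φ a g ≤ 1 + ψ a g) {J : ℕ}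
    (hJ : ∀ a g, ψ a g ≠ 0 → D.c g ≠ 0 → D.k g < 2 ^ J) {C : ℕ → ℝ} (hC : ∀ j, 0 ≤ C j) {α : ℝ}
    (hα : 0 < α)
    (hr : ∀ l : List Γ, l.Nodup → Ph φ [] l ≠ 0 → ∀ s ∈ Set.Ioo 0 D.Y, ∀ j < J,
      ∑ g ∈ l.toFinsetᶜ with 2 ^ j ≤ D.k g ∧ D.k g < 2 ^ (j + 1),
        D.w s g * (ψ l g * D.Z P Lw (insert g l.toFinset) s) ≤
        C j * s ^ (α * 2 ^ j) * D.Z P Lw l.toFinset s) :
    D.MM P Lw (fun _ => Ph φ []) ≤ Real.exp (2 * (∑ j ∈ range J, C j) / α) := by
  have hp : ∀ j : ℕ, 0 < α * 2 ^ j := fun j => by positivity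
  refine (sm0 h hφ (A := fun s => ∑ j ∈ range J, 2 * C j / α * s ^ (α * 2 ^ j))
    (a := fun s => ∑ j ∈ range J, 2 * C j / α * (α * 2 ^ j * s ^ (α * 2 ^ j - 1)))
    (continuousOn_finsetSum _ fun j _ => continuousOn_const.mul
      (Real.continuous_rpow_const (hp j).le).continuousOn)
    (fun s hs => HasDerivAt.fun_sum fun j _ =>
      (Real.hasDerivAt_rpow_const (Or.inl hs.1.ne')).const_mul _) fun l hl h0 s hs => ?_).trans ?_
  · have hZ := fun A => Z_nn (Lw := Lw) h hP A hs.1.le hs.2.le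
    refine le_of_mul_le_mul_right ?_ hs.1
    calc _ ≤ ∑ g ∈ l.toFinsetᶜ, ∑ j ∈ range J, if 2 ^ j ≤ D.k g ∧ D.k g < 2 ^ (j + 1) then
          2 ^ (j + 1) * (D.w s g * (ψ l g * D.Z P Lw (insert g l.toFinset) s)) else 0 := by
          rw [sum_mul]
          refine sum_le_sum fun g _ => ?_
          have hx := mul_nonneg (h.w_nn hs.1.le g) (mul_nonneg (hψ l g) (hZ (insert g l.toFinset)))
          have hn : ∀ j ∈ range J, (0 : ℝ) ≤ if 2 ^ j ≤ D.k g ∧ D.k g < 2 ^ (j + 1) then
              2 ^ (j + 1) * (D.w s g * (ψ l g * D.Z P Lw (insert g l.toFinset) s)) else 0 :=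
            fun j _ => by split_ifs; exacts [by positivity, le_rfl]
          rw [mul_right_comm, w'_mul]
          refine (mul_le_mul_of_nonneg_left (mul_le_mul_of_nonneg_right
            (sub_le_iff_le_add'.2 (hφψ l g)) (hZ _)) (mul_nonneg (Nat.cast_nonneg _)
              (h.w_nn hs.1.le g))).trans ?_
          by_cases hz : D.k g = 0 ∨ ψ l g = 0 ∨ D.c g = 0
          · refine le_trans (le_of_eq ?_) (sum_nonneg hn)
            rcases hz with hz | hz | hz <;> simp [hz, w]
          push Not at hz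
          have hl1 := Nat.pow_log_le_self 2 hz.1
          have hl2 := Nat.lt_pow_succ_log_self one_lt_two (D.k g)
          refine le_trans ?_ (single_le_sum hn (mem_range.2
            (Nat.log_lt_of_lt_pow hz.1 (hJ l g hz.2.1 hz.2.2))))
          rw [if_pos ⟨hl1, hl2⟩, mul_assoc]
          exact mul_le_mul_of_nonneg_right (by exact_mod_cast hl2.le) hx
      _ ≤ _ := by
          rw [sum_comm, sum_mul, sum_mul]
          refine sum_le_sum fun j hj => ?_
          rw [← sum_filter, ← mul_sum]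
          refine (mul_le_mul_of_nonneg_left (hr l hl h0 s hs j (mem_range.1 hj))
            (by positivity)).trans (le_of_eq ?_)
          rw [Real.rpow_sub_one hs.1.ne']
          have := hs.1.ne'
          field_simp
          ring
  · refine (mul_le_of_le_one_left (Real.exp_pos _).le (Z_empty_le h hP h1)).trans
      (Real.exp_le_exp.2 ?_)
    simp only [Real.zero_rpow (hp _).ne', mul_zero, sum_const_zero, sub_zero]
    rw [mul_sum, sum_div]
    exact sum_le_sum fun j _ => mul_le_of_le_one_right (by have := hC j; positivity)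
      (Real.rpow_le_one h.Y0 h.Y1 (hp j).le)

end Dat

end Crest.Agent.N337.Bi
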