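import Mathlib

/-!
# Row 337, ENG (helper30): merging cubes and extracting seeds (note h30-2, MERGE and SE)

Pure geometry of `ℤ³` with the sup norm.  `O` = cells that are bad from the start, `P` = cells that
become bad, `τ` = the time at which they do.
-/

set_option autoImplicit false

namespace Crest.Agent.N337.Sd

open Finset

/-- lattice points, sup distance. -/
abbrev V : Type := Fin 3 → ℤ

/-- height in one of the six axis directions. -/
def hgt (e : Fin 3 × Bool) (p : V) : ℝ := if e.2 then (p e.1 : ℝ) else -(p e.1 : ℝ)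

lemma hgt_le (e : Fin 3 × Bool) (p q : V) : hgt e p - hgt e q ≤ dist p q := by
  have h := dist_le_pi_dist p q e.1
  rw [Int.dist_eq] at h
  unfold hgt
  split_ifs
  · linarith [le_abs_self ((p e.1 : ℝ) - q e.1)]
  · linarith [neg_abs_le ((p e.1 : ℝ) - q e.1)]

lemma exists_hgt (p q : V) : ∃ e, hgt e p - hgt e q = dist p q := by
  obtain ⟨i, -, hi⟩ := exists_max_image (univ : Finset (Fin 3)) (fun i => dist (p i) (q i))
    univ_nonempty
  have h : dist p q = dist (p i) (q i) :=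
    le_antisymm ((dist_pi_le_iff dist_nonneg).2 fun j => hi j (mem_univ _)) (dist_le_pi_dist p q i)
  rw [h, Int.dist_eq]
  rcases le_total (0 : ℝ) ((p i : ℝ) - q i) with h0 | h0
  · exact ⟨(i, true), by simp [hgt, abs_of_nonneg h0]⟩
  · exact ⟨(i, false), by simp [hgt, abs_of_nonpos h0]; ring⟩

/-- **MERGE**: cubes `(centre, radius)` are collected in well separated groups. -/
theorem merge {c σ : ℝ} (hc : 0 ≤ c) (hσ : 0 ≤ σ) (n : ℕ) :
    ∀ l : Finset (V × ℝ), l.card ≤ n → (∀ m ∈ l, 0 ≤ m.2) → ∃ F : Finset (V × ℝ), F.card ≤ n ∧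
      (∀ m ∈ l, ∃ G ∈ F, dist m.1 G.1 + m.2 ≤ G.2) ∧
      (∀ G ∈ F, ∀ G' ∈ F, G ≠ G' → c * (G.2 + σ + (G'.2 + σ)) ≤ dist G.1 G'.1) ∧
      ∀ G ∈ F, ∃ m ∈ l, dist m.1 G.1 + m.2 ≤ G.2 ∧ G.2 + σ ≤ (2 * c + 2) ^ n * (m.2 + σ) := by
  have hC : (1 : ℝ) ≤ 2 * c + 2 := by linarith
  have triv : ∀ (n : ℕ) (l : Finset (V × ℝ)), l.card ≤ n → (∀ m ∈ l, 0 ≤ m.2) →
      (∀ G ∈ l, ∀ G' ∈ l, G ≠ G' → c * (G.2 + σ + (G'.2 + σ)) ≤ dist G.1 G'.1) →
      ∃ F : Finset (V × ℝ), F.card ≤ n ∧ (∀ m ∈ l, ∃ G ∈ F, dist m.1 G.1 + m.2 ≤ G.2) ∧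
      (∀ G ∈ F, ∀ G' ∈ F, G ≠ G' → c * (G.2 + σ + (G'.2 + σ)) ≤ dist G.1 G'.1) ∧
      ∀ G ∈ F, ∃ m ∈ l, dist m.1 G.1 + m.2 ≤ G.2 ∧ G.2 + σ ≤ (2 * c + 2) ^ n * (m.2 + σ) :=
    fun n l h1 h2 h3 => ⟨l, h1, fun m hm => ⟨m, hm, by simp⟩, h3, fun G hG => ⟨G, hG, by simp,
      le_mul_of_one_le_left (by linarith [h2 G hG]) (one_le_pow₀ hC)⟩⟩
  induction n with
  | zero =>
    intro l h1 h2
    refine triv 0 l h1 h2 fun G hG => ?_
    rw [card_eq_zero.1 (Nat.le_zero.1 h1)] at hG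
    simp at hG
  | succ n ih =>
    intro l h1 h2
    by_cases hs : ∀ G ∈ l, ∀ G' ∈ l, G ≠ G' → c * (G.2 + σ + (G'.2 + σ)) ≤ dist G.1 G'.1
    · exact triv _ l h1 h2 hs
    have : ∃ G ∈ l, ∃ G' ∈ l, G ≠ G' ∧ G'.2 ≤ G.2 ∧
        dist G.1 G'.1 < c * (G.2 + σ + (G'.2 + σ)) := by
      push Not at hs
      obtain ⟨G, hG, G', hG', hne, hd⟩ := hs
      rcases le_total G'.2 G.2 with h | h
      · exact ⟨G, hG, G', hG', hne, h, hd⟩
      · exact ⟨G', hG', G, hG, hne.symm, h, by rw [dist_comm, add_comm (G'.2 + σ)]; exact hd⟩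
    obtain ⟨G, hG, G', hG', hne, hle, hd⟩ := this
    have g0 := h2 G hG
    have g0' := h2 G' hG'
    have d0 : 0 ≤ dist G.1 G'.1 := dist_nonneg
    set H : V × ℝ := (G.1, G.2 + dist G.1 G'.1 + G'.2) with hH
    have hG'' : G' ∈ l.erase G := mem_erase.2 ⟨hne.symm, hG'⟩
    obtain ⟨F, f1, f2, f3, f4⟩ := ih (insert H ((l.erase G).erase G')) (by
      have a1 := card_insert_le H ((l.erase G).erase G')
      have a2 := card_erase_of_mem hG''
      have a3 := card_erase_of_mem hG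
      have a4 := card_pos.2 ⟨_, hG''⟩
      omega) (by
      intro m hm
      rcases mem_insert.1 hm with rfl | hm
      · simp only [hH]; linarith
      · exact h2 m (mem_of_mem_erase (mem_of_mem_erase hm)))
    obtain ⟨K, hK, hKH⟩ := f2 H (mem_insert_self _ _)
    refine ⟨F, by omega, fun m hm => ?_, f3, fun K' hK' => ?_⟩
    · by_cases e1 : m = G
      · subst e1
        exact ⟨K, hK, by simp only [hH] at hKH; linarith⟩
      by_cases e2 : m = G'
      · subst e2
        refine ⟨K, hK, ?_⟩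
        simp only [hH] at hKH
        have := dist_triangle m.1 G.1 K.1
        rw [dist_comm m.1 G.1] at this
        linarith
      exact f2 m (mem_insert_of_mem (mem_erase.2 ⟨e2, mem_erase.2 ⟨e1, hm⟩⟩))
    · obtain ⟨m, hm, m1, m2⟩ := f4 K' hK'
      have hp : 0 ≤ (2 * c + 2) ^ n := by positivity
      rcases mem_insert.1 hm with rfl | hm
      · refine ⟨G, hG, by simp only [hH] at m1; linarith, m2.trans ?_⟩
        rw [pow_succ, mul_assoc]
        refine mul_le_mul_of_nonneg_left ?_ hp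
        simp only [hH]
        nlinarith [mul_le_mul_of_nonneg_left hle hc]
      · have hm' := mem_of_mem_erase (mem_of_mem_erase hm)
        refine ⟨m, hm', m1, m2.trans ?_⟩
        rw [pow_succ, mul_assoc]
        exact mul_le_mul_of_nonneg_left
          (le_mul_of_one_le_left (by linarith [h2 m hm']) hC) hp

variable (O : Set V) (P : Finset V) (τ : V → ℕ)

/-- `p` is bad before `s` is. -/
def Old (s p : V) : Prop := p ∈ O ∨ (p ∈ P ∧ τ p < τ s)

/-- every older bad cell lies within `W` but off the ball `B(s, A)` and off the cone at `s`, or in one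
of at most `q` far groups. -/
def Seed (A σ c W : ℝ) (q : ℕ) (s : V) : Prop :=
  ∃ (e : Fin 3 × Bool) (F : Finset (V × ℝ)), F.card ≤ q ∧
    (∀ G ∈ F, σ ≤ G.2 ∧ G.2 ≤ W ∧ c * G.2 ≤ dist s G.1) ∧
    ∀ p, Old O P τ s p → (A < dist p s ∧ hgt e p - hgt e s < dist p s ∧ dist p s ≤ (c + 3) * W) ∨
      ∃ G ∈ F, dist p G.1 ≤ G.2

/-- `N` links to older and older cells, of total length at most `2 A N`. -/
def Chn (A : ℝ) (N : ℕ) (z : ℕ → V) : Prop :=
  (∀ i ≤ N, z i ∈ P ∧ z i ∉ O) ∧ (∀ i < N, τ (z (i + 1)) < τ (z i)) ∧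
    ∑ i ∈ range N, dist (z i) (z (i + 1)) ≤ 2 * A * N

variable {O P τ}

/-- one new seed outside separated groups. -/
theorem stage {A σ c W : ℝ} {N q : ℕ} (hA : 0 ≤ A) (hc : 0 ≤ c) (hσ : 4 * A * N ≤ σ)
    {F : Finset (V × ℝ)} (hq : F.card ≤ q) (h0 : ∀ G ∈ F, 0 ≤ G.2 ∧ G.2 + σ ≤ W) (hW : σ ≤ W)
    (hs : ∀ G ∈ F, ∀ G' ∈ F, G ≠ G' → (c + 1) * (G.2 + σ + (G'.2 + σ)) ≤ dist G.1 G'.1)
    (hO : ∀ p ∈ O, ∃ G ∈ F, dist p G.1 ≤ G.2)
    (hy : ∃ y ∈ P, ∀ G ∈ F, G.2 + σ < dist y G.1) :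
    (∃ z, Chn O P τ A N z ∧ ∀ p ∈ O, σ < dist p (z 0)) ∨ ∃ s ∈ P, Seed O P τ A σ c W q s ∧
      ∀ p, ∀ G ∈ F, dist p G.1 ≤ G.2 → σ / 2 < dist p s := by
  classical
  have hσ0 : 0 ≤ σ := le_trans (by positivity) hσ
  obtain ⟨z0, hz0, hmin⟩ := exists_min_image (P.filter fun y => ∀ G ∈ F, G.2 + σ < dist y G.1) τ
    (by obtain ⟨y, h1, h2⟩ := hy; exact ⟨y, mem_filter.2 ⟨h1, h2⟩⟩)
  obtain ⟨hz0P, hz0F⟩ := mem_filter.1 hz0
  have base : ∀ p, ∀ G ∈ F, dist p G.1 ≤ G.2 → σ < dist p z0 := fun p G hG h => by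
    have := dist_triangle z0 p G.1
    rw [dist_comm z0 p] at this
    linarith [hz0F G hG]
  have cov : ∀ p, Old O P τ z0 p → ∃ G ∈ F, dist p G.1 ≤ G.2 + σ := by
    rintro p (h | ⟨h1, h2⟩)
    · obtain ⟨G, hG, h⟩ := hO p h
      exact ⟨G, hG, by linarith⟩
    · by_contra hn
      push Not at hn
      exact absurd (hmin p (mem_filter.2 ⟨h1, hn⟩)) (by omega)
  set Far := F.filter fun G => (c + 1) * (G.2 + σ) ≤ dist z0 G.1 with hFar
  obtain ⟨e, he⟩ : ∃ e, ∀ p, Old O P τ z0 p → (∀ G ∈ Far, G.2 + σ < dist p G.1) →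
      hgt e p < hgt e z0 ∧ dist p z0 ≤ (c + 2) * W := by
    by_cases hn : ∃ G ∈ F, dist z0 G.1 < (c + 1) * (G.2 + σ)
    · obtain ⟨G0, hG0, hn⟩ := hn
      obtain ⟨e, he⟩ := exists_hgt z0 G0.1
      refine ⟨e, fun p hp hf => ?_⟩
      obtain ⟨G, hG, h⟩ := cov p hp
      have hG' : dist z0 G.1 < (c + 1) * (G.2 + σ) := by
        by_contra h'
        exact absurd (hf G (mem_filter.2 ⟨hG, not_lt.1 h'⟩)) (not_lt.2 h)
      have e1 : G = G0 := by
        by_contra hne
        have a1 := hs G hG G0 hG0 hne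
        have a2 := dist_triangle G.1 z0 G0.1
        rw [dist_comm G.1 z0] at a2
        nlinarith
      subst e1
      have a1 := hgt_le e p G.1
      have a2 := dist_triangle p G.1 z0
      rw [dist_comm G.1 z0] at a2
      have a3 := mul_le_mul_of_nonneg_left (h0 G hG).2 (by linarith : 0 ≤ c + 1)
      exact ⟨by linarith [hz0F G hG], by nlinarith [(h0 G hG).2]⟩
    · refine ⟨(0, true), fun p hp hf => ?_⟩
      obtain ⟨G, hG, h⟩ := cov p hp
      push Not at hn
      exact absurd (hf G (mem_filter.2 ⟨hG, hn G hG⟩)) (not_lt.2 h)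
  have main : ∀ i ≤ N, (∃ s ∈ P, Seed O P τ A σ c W q s ∧ dist s z0 ≤ σ / 2) ∨
      ∃ z : ℕ → V, z 0 = z0 ∧ (∀ j ≤ i, z j ∈ P ∧ z j ∉ O) ∧ (∀ j < i, τ (z (j + 1)) < τ (z j)) ∧
        τ (z i) ≤ τ z0 ∧ hgt e (z i) ≤ hgt e z0 ∧
        dist (z i) z0 ≤ ∑ j ∈ range i, dist (z j) (z (j + 1)) ∧
        ∑ j ∈ range i, dist (z j) (z (j + 1)) ≤ 2 * A * i + hgt e (z i) - hgt e z0 := by
    intro i
    induction i with
    | zero =>
      refine fun _ => Or.inr ⟨fun _ => z0, rfl, fun _ _ => ⟨hz0P, fun h => ?_⟩, by simp, le_rfl,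
        le_rfl, by simp, by simp⟩
      obtain ⟨G, hG, h⟩ := hO z0 h
      linarith [hz0F G hG]
    | succ i ih =>
      intro hi
      rcases ih (by omega) with h | ⟨z, z1, z2, z3, z4, z5, z6, z7⟩
      · exact Or.inl h
      have hiN : ((i : ℝ) + 1) ≤ N := by exact_mod_cast hi
      have hold : ∀ p, Old O P τ (z i) p → Old O P τ z0 p := fun p hp =>
        hp.imp id fun h => ⟨h.1, lt_of_lt_of_le h.2 z4⟩
      have hAi : 2 * A * (i + 1) ≤ σ / 2 := by nlinarith
      by_cases hl : ∃ p, Old O P τ (z i) p ∧ (∀ G ∈ Far, G.2 + σ < dist p G.1) ∧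
          (dist p (z i) ≤ A ∨ dist p (z i) ≤ hgt e p - hgt e (z i))
      · obtain ⟨p, hp, hf, hl⟩ := hl
        have a1 := (he p (hold p hp) hf).1
        have a2 : ∑ j ∈ range i, dist (z j) (z (j + 1)) + dist (z i) p ≤
            2 * A * (i + 1) + hgt e p - hgt e z0 := by
          rw [dist_comm (z i) p]
          rcases hl with hl | hl
          · have := hgt_le e (z i) p
            rw [dist_comm] at this
            linarith
          · linarith
        have a3 : dist p z0 ≤ ∑ j ∈ range i, dist (z j) (z (j + 1)) + dist (z i) p := by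
          have := dist_triangle p (z i) z0
          rw [dist_comm p (z i)] at this
          linarith
        have hpO : p ∉ O := fun h => by
          obtain ⟨G, hG, h⟩ := hO p h
          linarith [base p G hG h]
        have hpP := hp.resolve_left hpO
        have up : ∀ j ≤ i, Function.update z (i + 1) p j = z j := fun j hj =>
          Function.update_of_ne (by omega) _ _
        have sm : ∑ j ∈ range (i + 1), dist (Function.update z (i + 1) p j)
            (Function.update z (i + 1) p (j + 1)) =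
            ∑ j ∈ range i, dist (z j) (z (j + 1)) + dist (z i) p := by
          rw [sum_range_succ, up i le_rfl, Function.update_self]
          congr 1
          refine sum_congr rfl fun j hj => ?_
          rw [up j (by have := mem_range.1 hj; omega), up (j + 1) (by have := mem_range.1 hj; omega)]
        refine Or.inr ⟨Function.update z (i + 1) p, by rw [up 0 (by omega), z1], fun j hj => ?_,
          fun j hj => ?_, ?_, ?_, ?_, ?_⟩
        · rcases Nat.lt_or_ge i j with h | h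
          · rw [show j = i + 1 by omega, Function.update_self]; exact ⟨hpP.1, hpO⟩
          · rw [up j h]; exact z2 j h
        · rcases Nat.lt_or_ge j i with h | h
          · rw [up j (by omega), up (j + 1) (by omega)]; exact z3 j h
          · rw [show j = i by omega, up i le_rfl, Function.update_self]; exact hpP.2
        · rw [Function.update_self]; have := hpP.2; omega
        · rw [Function.update_self]; exact a1.le
        · rw [sm, Function.update_self]; exact a3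
        · rw [sm, Function.update_self]; push_cast; exact a2
      · have hd : dist (z i) z0 ≤ σ / 2 := by nlinarith
        refine Or.inl ⟨z i, (z2 i le_rfl).1, ⟨e, Far.image fun G => (G.1, G.2 + σ),
          card_image_le.trans ((card_filter_le _ _).trans hq), fun G hG => ?_, fun p hp => ?_⟩, hd⟩
        · obtain ⟨G', hG', rfl⟩ := mem_image.1 hG
          obtain ⟨b1, b2⟩ := mem_filter.1 hG'
          have := dist_triangle z0 (z i) G'.1
          rw [dist_comm z0 (z i)] at this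
          have b3 := h0 G' b1
          exact ⟨by simp only; linarith, b3.2, by simp only; nlinarith⟩
        · by_cases hf : ∀ G ∈ Far, G.2 + σ < dist p G.1
          · left
            push Not at hl
            obtain ⟨b1, b2⟩ := hl p hp hf
            have b3 := (he p (hold p hp) hf).2
            have := dist_triangle p z0 (z i)
            rw [dist_comm z0 (z i)] at this
            exact ⟨b1, b2, by nlinarith⟩
          · right
            push Not at hf
            obtain ⟨G, hG, h⟩ := hf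
            exact ⟨_, mem_image_of_mem _ hG, h⟩
  rcases main N le_rfl with ⟨s, s1, s2, s3⟩ | ⟨z, z1, z2, z3, -, z5, -, z7⟩
  · refine Or.inr ⟨s, s1, s2, fun p G hG h => ?_⟩
    have := dist_triangle p s z0
    linarith [base p G hG h]
  · refine Or.inl ⟨z, ⟨z2, z3, by linarith⟩, fun p hp => ?_⟩
    obtain ⟨G, hG, h⟩ := hO p hp
    rw [z1]
    exact base p G hG h

/-- **SE**: a chain, or as many separated seeds as there are targets. -/
theorem seeds' {A σ c S : ℝ} {N q0 a : ℕ} (hA : 0 ≤ A) (hc : 0 ≤ c) (hS : 0 ≤ S)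
    (hσ : 4 * A * N ≤ σ) {F0 : Finset (V × ℝ)} {Y : Finset V} (hq : F0.card ≤ q0)
    (hF : ∀ G ∈ F0, 0 ≤ G.2 ∧ G.2 ≤ S) (hO : ∀ p ∈ O, ∃ G ∈ F0, dist p G.1 ≤ G.2) (hY : Y ⊆ P) (ha : a ≤ Y.card)
    (hYY : ∀ y ∈ Y, ∀ y' ∈ Y, y ≠ y' → 4 * (2 * c + 4) ^ (q0 + a) * σ < dist y y')
    (hYO : ∀ y ∈ Y, ∀ G ∈ F0, 2 * ((2 * c + 4) ^ (q0 + a) * (G.2 + σ)) < dist y G.1) :
    (∃ z, Chn O P τ A N z ∧ ∀ p ∈ O, σ < dist p (z 0)) ∨ ∃ T ⊆ P, T.card = a ∧
      (∀ s ∈ T, Seed O P τ A σ c ((2 * c + 4) ^ (q0 + a) * (S + σ)) (q0 + a) s ∧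
        ∀ p ∈ O, σ / 2 < dist p s) ∧ ∀ s ∈ T, ∀ s' ∈ T, s ≠ s' → σ / 2 < dist s s' := by
  classical
  have hσ0 : 0 ≤ σ := le_trans (by positivity) hσ
  have hC : (1 : ℝ) ≤ (2 * c + 4) ^ (q0 + a) := one_le_pow₀ (by linarith)
  have main : ∀ j ≤ a, (∃ z, Chn O P τ A N z ∧ ∀ p ∈ O, σ < dist p (z 0)) ∨ ∃ T ⊆ P, T.card = j ∧
      (∀ s ∈ T, Seed O P τ A σ c ((2 * c + 4) ^ (q0 + a) * (S + σ)) (q0 + a) s ∧
        ∀ p ∈ O, σ / 2 < dist p s) ∧ ∀ s ∈ T, ∀ s' ∈ T, s ≠ s' → σ / 2 < dist s s' := by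
    intro j
    induction j with
    | zero => exact fun _ => Or.inr ⟨∅, empty_subset _, rfl, by simp, by simp⟩
    | succ j ih =>
      intro hj
      rcases ih (by omega) with h | ⟨T, t1, t2, t3, t4⟩
      · exact Or.inl h
      obtain ⟨F, f1, f2, f3, f4⟩ := merge (c := c + 1) (by linarith) hσ0 (q0 + a)
        (F0 ∪ T.image fun s => (s, (0 : ℝ))) (by
          have a1 := card_union_le F0 (T.image fun s => (s, (0 : ℝ)))
          have a3 := card_image_le (s := T) (f := fun s => (s, (0 : ℝ)))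
          omega) (by
          intro m hm
          rcases mem_union.1 hm with h | h
          · exact (hF m h).1
          · obtain ⟨z, -, rfl⟩ := mem_image.1 h
            exact le_rfl)
      rw [show 2 * (c + 1) + 2 = 2 * c + 4 by ring] at f4
      have g0 : ∀ G ∈ F, 0 ≤ G.2 ∧ G.2 + σ ≤ (2 * c + 4) ^ (q0 + a) * (S + σ) := by
        intro G hG
        obtain ⟨m, hm, m1, m2⟩ := f4 G hG
        have d0 : 0 ≤ dist m.1 G.1 := dist_nonneg
        rcases mem_union.1 hm with h | h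
        · exact ⟨by linarith [(hF m h).1], m2.trans (by nlinarith [(hF m h).2])⟩
        · obtain ⟨z, -, rfl⟩ := mem_image.1 h
          exact ⟨by simp only at m1 d0; linarith, m2.trans (by simp only; nlinarith)⟩
      have gO : ∀ p ∈ O, ∃ G ∈ F, dist p G.1 ≤ G.2 := fun p hp => by
        obtain ⟨z, hz, h⟩ := hO p hp
        obtain ⟨G, hG, h'⟩ := f2 z (mem_union_left _ hz)
        exact ⟨G, hG, by have := dist_triangle p z.1 G.1; linarith⟩
      have gT : ∀ s ∈ T, ∃ G ∈ F, dist s G.1 ≤ G.2 := fun s hs => by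
        obtain ⟨G, hG, h'⟩ := f2 (s, 0) (mem_union_right _ (mem_image_of_mem _ hs))
        exact ⟨G, hG, by simpa using h'⟩
      have hy : ∃ y ∈ P, ∀ G ∈ F, G.2 + σ < dist y G.1 := by
        by_contra hn
        push Not at hn
        have : ∀ y ∈ Y, ∃ s ∈ T, dist y s ≤ 2 * ((2 * c + 4) ^ (q0 + a) * σ) := by
          intro y hy
          obtain ⟨G, hG, h⟩ := hn y (hY hy)
          obtain ⟨m, hm, m1, m2⟩ := f4 G hG
          have d1 := dist_triangle y G.1 m.1
          rw [dist_comm G.1 m.1] at d1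
          rcases mem_union.1 hm with h' | h'
          · have := hYO y hy m h'
            linarith [(hF m h').1]
          · obtain ⟨z, hz, rfl⟩ := mem_image.1 h'
            refine ⟨z, hz, ?_⟩
            simp only [add_zero, zero_add] at m1 m2 d1
            linarith
        choose! f hf1 hf2 using this
        have := card_le_card_of_injOn f (s := Y) (t := T) hf1 fun y hy y' hy' h => by
          by_contra hne
          have a1 := hYY y hy y' hy' hne
          have a2 := hf2 y hy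
          have a3 := hf2 y' hy'
          have a4 := dist_triangle y (f y) y'
          rw [← h, dist_comm] at a3
          linarith
        omega
      rcases stage (O := O) (P := P) (τ := τ) hA hc hσ f1 g0 (by nlinarith) f3 gO hy with
        h | ⟨s, s1, s2, s3⟩
      · exact Or.inl h
      have hT : ∀ s' ∈ T, σ / 2 < dist s' s := fun s' hs' => by
        obtain ⟨G, hG, h⟩ := gT s' hs'
        exact s3 s' G hG h
      have hsT : s ∉ T := fun h => by
        have := hT s h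
        rw [dist_self] at this
        linarith
      refine Or.inr ⟨insert s T, insert_subset s1 t1, by rw [card_insert_of_notMem hsT, t2],
        fun s' hs' => ?_, fun u hu v hv huv => ?_⟩
      · rcases mem_insert.1 hs' with rfl | h
        · refine ⟨s2, fun p hp => ?_⟩
          obtain ⟨G, hG, h⟩ := gO p hp
          exact s3 p G hG h
        · exact t3 s' h
      · rcases mem_insert.1 hu with rfl | hu' <;> rcases mem_insert.1 hv with rfl | hv'
        · exact absurd rfl huv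
        · rw [dist_comm]; exact hT v hv'
        · exact hT u hu'
        · exact t4 u hu' v hv' huv
  exact main a le_rfl

/-- **SE** with one radius. -/
theorem seeds {A σ c S : ℝ} {N q0 a : ℕ} (hA : 0 ≤ A) (hc : 0 ≤ c) (hS : 0 ≤ S)
    (hσ : 4 * A * N ≤ σ) {F0 Y : Finset V} (hq : F0.card ≤ q0)
    (hO : ∀ p ∈ O, ∃ z ∈ F0, dist p z ≤ S) (hY : Y ⊆ P) (ha : a ≤ Y.card)
    (hYY : ∀ y ∈ Y, ∀ y' ∈ Y, y ≠ y' → 4 * (2 * c + 4) ^ (q0 + a) * σ < dist y y')
    (hYO : ∀ y ∈ Y, ∀ z ∈ F0, 2 * ((2 * c + 4) ^ (q0 + a) * (S + σ)) < dist y z) :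
    (∃ z, Chn O P τ A N z) ∨ ∃ T ⊆ P, T.card = a ∧
      (∀ s ∈ T, Seed O P τ A σ c ((2 * c + 4) ^ (q0 + a) * (S + σ)) (q0 + a) s ∧
        ∀ p ∈ O, σ / 2 < dist p s) ∧ ∀ s ∈ T, ∀ s' ∈ T, s ≠ s' → σ / 2 < dist s s' := by
  classical
  refine (seeds' (F0 := F0.image fun z => (z, S)) hA hc hS hσ (card_image_le.trans hq) ?_ ?_ hY ha
    hYY ?_).imp_left fun ⟨z, h, _⟩ => ⟨z, h⟩
  · intro G hG
    obtain ⟨z, -, rfl⟩ := mem_image.1 hG
    exact ⟨hS, le_rfl⟩
  · intro p hp
    obtain ⟨z, hz, h⟩ := hO p hp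
    exact ⟨_, mem_image_of_mem _ hz, h⟩
  · intro y hy G hG
    obtain ⟨z, hz, rfl⟩ := mem_image.1 hG
    exact hYO y hy z hz

end Crest.Agent.N337.Sd
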