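import Crest.Agent.N337.E.TDefs

/-!
# Row 337, ENG (helper30): the static shape of skeletons
-/

set_option autoImplicit false
set_option linter.unusedSectionVars false

namespace Crest.Agent.N337.Tr

open Finset Crest.MathPhysics.SpinModel Sd Rg

lemma mem_box {v z : V} {r : ℕ} : v ∈ box z r ↔ dist v z ≤ r := by
  rw [box, Fintype.mem_piFinset, dist_pi_le_iff (Nat.cast_nonneg r)]
  refine forall_congr' fun a => ?_
  rw [mem_Icc, Int.dist_eq, abs_le]
  constructor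
  · rintro ⟨h1, h2⟩
    have h1 : ((z a - r : ℤ) : ℝ) ≤ v a := by exact_mod_cast h1
    have h2 : (v a : ℝ) ≤ ((z a + r : ℤ) : ℝ) := by exact_mod_cast h2
    push_cast at h1 h2
    constructor <;> linarith
  · rintro ⟨h1, h2⟩
    have h1 : ((z a - r : ℤ) : ℝ) ≤ v a := by push_cast; linarith
    have h2 : (v a : ℝ) ≤ ((z a + r : ℤ) : ℝ) := by push_cast; linarith
    exact ⟨by exact_mod_cast h1, by exact_mod_cast h2⟩

lemma card_box (z : V) (r : ℕ) : (box z r).card = (2 * r + 1) ^ 3 := by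
  rw [box, Fintype.card_piFinset]
  have : ∀ a, (Icc (z a - r) (z a + r)).card = 2 * r + 1 := fun a => by
    rw [Int.card_Icc]; omega
  simp [this]

variable {T n : ℕ}

lemma mem_gp {D r : ℕ} {z : V} {x : Pv T n} :
    x ∈ gp T n D z r ↔ D ∣ x.1.val ∧ dist x.2.1 z ≤ r := by
  simp [gp, mem_box]

lemma mem_tgs {u lv N : ℕ} {f : Fin N → Pv T n} {t : Term T n} :
    t ∈ tgs T n u lv f ↔ ∃ j : Fin N, t = ⟨u + j.val, lv, .tg (f j)⟩ := by
  simp [tgs, eq_comm]

lemma div_up {Q a b l l' : ℕ} (h : a / Q ^ l = b / Q ^ l) (hl : l ≤ l') :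
    a / Q ^ l' = b / Q ^ l' := by
  obtain ⟨k, rfl⟩ := Nat.exists_eq_add_of_le hl
  rw [pow_add, ← Nat.div_div_eq_div_mul, ← Nat.div_div_eq_div_mul, h]

lemma div_code {P k j : ℕ} (h : j < P) : (k * P + j) / P = k := by
  rw [add_comm, Nat.add_mul_div_right _ _ (by omega), Nat.div_eq_of_lt h, zero_add]

variable {L : ℕ} {α κ : Type} [SemilatticeSup α] [Preorder κ] {S : Sys (Tor 3 L) α κ} {G : Eg}
  {m k : ℕ} {z : V} {𝒮 : Finset (Term T n)}

lemma Ok.σ_mono (h : Ok S G) : Monotone G.σ := monotone_nat_of_le_succ fun m => by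
  have := h.rr m
  have := h.rrσ (m + 1)
  omega

lemma Ok.rr_mono (h : Ok S G) : Monotone G.rr := monotone_nat_of_le_succ fun m => by
  have := h.rr m
  omega

lemma Ok.Qpos (h : Ok S G) (l : ℕ) : 0 < G.Q ^ l := pow_pos (by have := h.Q1; omega) l

lemma Shp.single (h : Ok S G) {t : Term T n} (h1 : t.cd = k * G.Q ^ (m + 1)) (h2 : t.lv = m)
    (h3 : ∀ v, t.At v → dist v z ≤ G.rr m) (h4 : ∀ x, t.dt ≠ .tg x)
    (h5 : ∀ xs, t.dt = .sc xs → 1 ≤ m ∧ xs.length = G.Ns (m - 1)) : Shp G m k z {t} where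
  cd t' ht := by
    rw [mem_singleton.1 ht, h1, h2]
    exact ⟨Nat.mul_div_cancel _ (h.Qpos _), le_rfl⟩
  loc t' ht := by rw [mem_singleton.1 ht]; exact h3
  sep t1 h1 t2 h2 v v' _ _ l _ hl := by
    rw [mem_singleton.1 h1, mem_singleton.1 h2] at hl
    exact absurd rfl hl
  own t1 h1 t2 h2 _ _ hne := absurd ((mem_singleton.1 h1).trans (mem_singleton.1 h2).symm) hne
  grid u l x hx := absurd (by rw [← mem_singleton.1 hx]) (h4 x)
  len u l xs hx := by
    have e := mem_singleton.1 hx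
    have := h5 xs (by rw [← e])
    rwa [← h2, ← e] at this
  tag u l l' x _ hx := absurd (by rw [← mem_singleton.1 hx]) (h4 x)

lemma Shp.tgs {N r : ℕ} {z' : V} {f : Fin N → Pv T n} (hN : N ≤ G.Q ^ (m + 1))
    (hf : ∀ j, f j ∈ gp T n G.D z' r) (hr : r + dist z' z ≤ G.rr m) (hi : Function.Injective f)
    (h0 : m = 0 → ∀ i j, (f i).1 = (f j).1) :
    Shp G m k z (tgs T n (k * G.Q ^ (m + 1)) m f) := by
  have hc : ∀ j : Fin N, (k * G.Q ^ (m + 1) + j.val) / G.Q ^ (m + 1) = k := fun j =>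
    div_code (lt_of_lt_of_le j.2 hN)
  refine ⟨fun t ht => ?_, fun t ht v hv => ?_, fun t ht t' ht' v v' _ _ l hl hne => ?_,
    fun t ht t' ht' _ _ hne _ => ?_, fun u l x hx => ?_, fun u l xs hx => ?_,
    fun u l l' x hx => ?_⟩
  · obtain ⟨j, rfl⟩ := mem_tgs.1 ht
    exact ⟨hc j, le_rfl⟩
  · obtain ⟨j, rfl⟩ := mem_tgs.1 ht
    have := dist_triangle v z' z
    have h2 := (mem_gp.1 (hf j)).2
    rw [show v = (f j).2.1 from hv] at this ⊢
    linarith
  · obtain ⟨j, rfl⟩ := mem_tgs.1 ht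
    obtain ⟨j', rfl⟩ := mem_tgs.1 ht'
    exact absurd (div_up ((hc j).trans (hc j').symm) (Nat.succ_le_succ hl)) hne
  · obtain ⟨j, rfl⟩ := mem_tgs.1 ht
    obtain ⟨j', rfl⟩ := mem_tgs.1 ht'
    have : j ≠ j' := fun e => hne (by rw [e])
    exact ⟨rfl, fun e => this (Fin.ext (by simpa using e)), _, _, rfl, rfl, fun e => this (hi e),
      fun e => h0 e _ _⟩
  · obtain ⟨j, e⟩ := mem_tgs.1 hx
    simp only [Term.mk.injEq, Dt.tg.injEq] at e
    rw [e.2.2]
    exact (mem_gp.1 (hf j)).1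
  · obtain ⟨j, e⟩ := mem_tgs.1 hx
    simp at e
  · obtain ⟨j, e⟩ := mem_tgs.1 hx
    simp at e

theorem shp_Tm (h : Ok S G) (h𝒮 : 𝒮 ∈ Tm S G T n m k z) : Shp G m k z 𝒮 := by
  classical
  cases m with
  | zero =>
    rcases mem_insert.1 h𝒮 with rfl | h1
    · refine Shp.single h (by simp) rfl (fun v hv => ?_) (by simp) (by simp)
      rw [show v = z from hv, dist_self]
      positivity
    · obtain ⟨f, hf, rfl⟩ := mem_image.1 h1
      obtain ⟨f1, f2, f3⟩ := mem_filter.1 hf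
      have := Shp.tgs (G := G) (m := 0) (k := k) (z := z) (by simpa using h.Q1.2.1)
        (Fintype.mem_piFinset.1 f1) (by rw [dist_self, add_zero]; exact_mod_cast h.rr0) f2
        fun _ => f3
      simpa using this
  | succ m =>
    obtain ⟨z', hz, h1⟩ := mem_biUnion.1 h𝒮
    rw [mem_box] at hz
    have hr : (G.σ m : ℝ) + dist z' z ≤ G.rr (m + 1) := by
      have : ((G.σ m + 2 * S.ρ (m + 1) : ℕ) : ℝ) ≤ G.rr (m + 1) := by
        exact_mod_cast (by have := h.rr m; omega)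
      push_cast at this hz
      linarith
    rcases mem_insert.1 h1 with rfl | h1
    · refine Shp.single h rfl rfl (fun v hv => ?_) (by simp) (by simp)
      rw [show v = z' from hv]
      linarith [Nat.cast_nonneg (α := ℝ) (G.σ m)]
    rcases mem_union.1 h1 with h1 | h1
    · obtain ⟨f, hf, rfl⟩ := mem_image.1 h1
      refine Shp.single h rfl rfl (fun v hv => ?_) (by simp) (fun xs e => ?_)
      · obtain ⟨x, hx, rfl⟩ := hv
        obtain ⟨j, rfl⟩ := List.mem_ofFn.1 hx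
        have := (mem_gp.1 (Fintype.mem_piFinset.1 (mem_filter.1 hf).1 j)).2
        linarith [dist_triangle (f j).2.1 z' z]
      · simp only [Dt.sc.injEq] at e
        simp [← e]
    · obtain ⟨f, hf, rfl⟩ := mem_image.1 h1
      obtain ⟨f1, f2⟩ := mem_filter.1 hf
      exact Shp.tgs (h.jl m).2.2 (Fintype.mem_piFinset.1 f1) hr f2 (by simp)

lemma mem_Tg {𝒯 : Finset (Term T n)} (h : 𝒯 ∈ Tg G T n m k) {t : Term T n} (ht : t ∈ 𝒯) :
    t.cd / G.Q ^ (m + 1) = k ∧ t.lv = m ∧ t.dt = .fr := by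
  rcases mem_insert.1 h with rfl | h
  · simp at ht
  · obtain ⟨j, hj, rfl⟩ := mem_image.1 h
    rw [mem_singleton.1 ht]
    exact ⟨div_code (mem_range.1 hj), rfl, rfl⟩

lemma At.ne_fr {t : Term T n} {v : V} (h : t.At v) : t.dt ≠ .fr := fun e => by
  simp [Term.At, e] at h

theorem Shp.tag' {𝒯 : Finset (Term T n)} (h : 𝒯 ∈ Tg G T n m k) (H : Shp G m k z 𝒮) :
    Shp G m k z (𝒯 ∪ 𝒮) := by
  have key : ∀ t ∈ 𝒯 ∪ 𝒮, t.dt ≠ .fr → t ∈ 𝒮 := fun t ht hne =>
    (mem_union.1 ht).resolve_left fun h' => hne (mem_Tg h h').2.2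
  refine ⟨fun t ht => ?_, fun t ht v hv => H.loc t (key t ht (At.ne_fr hv)) v hv,
    fun t ht t' ht' v v' hv hv' => H.sep t (key t ht (At.ne_fr hv)) t' (key t' ht' (At.ne_fr hv'))
      v v' hv hv', fun t ht t' ht' h1 h2 => H.own t (key t ht h1) t' (key t' ht' h2) h1 h2,
    fun u l x hx => H.grid u l x (key _ hx (by simp)),
    fun u l xs hx => H.len u l xs (key _ hx (by simp)), fun u l l' x h1 h2 => ?_⟩
  · rcases mem_union.1 ht with h' | h'
    · exact ⟨(mem_Tg h h').1, (mem_Tg h h').2.1.le⟩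
    · exact H.cd t h'
  · have h2 := key _ h2 (by simp)
    rcases mem_union.1 h1 with h' | h'
    · exact (H.cd _ h2).2.trans (mem_Tg h h').2.1.ge
    · exact H.tag u l l' x h' h2

lemma Shp.same {ι : Type} {s : ι → V} {c : ι → ℕ} (hc : Function.Injective c)
    {f : ι → Finset (Term T n)} (H : ∀ j, Shp G m (c j) (s j) (f j)) {i j : ι} {t t' : Term T n}
    (ht : t ∈ f i) (ht' : t' ∈ f j) {l : ℕ} (hl : l ≤ m + 1)
    (e : t.cd / G.Q ^ l = t'.cd / G.Q ^ l) : i = j :=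
  hc (by rw [← ((H i).cd t ht).1, ← ((H j).cd t' ht').1]; exact div_up e hl)

theorem Shp.union (h : Ok S G) {a : ℕ} (ha : a ≤ G.Q) {s : Fin a → V}
    (h1 : ∀ j, dist (s j) z ≤ (2 * S.ρ (m + 1) : ℕ))
    (h2 : ∀ i j, i ≠ j → (G.σ m : ℝ) / 2 < dist (s i) (s j)) {f : Fin a → Finset (Term T n)}
    (H : ∀ j, Shp G m (k * G.Q + j.val) (s j) (f j)) : Shp G (m + 1) k z (univ.biUnion f) := by
  have hc : Function.Injective fun j : Fin a => k * G.Q + j.val := fun i j e =>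
    Fin.ext (by simpa using e)
  have mem : ∀ t ∈ univ.biUnion f, ∃ j, t ∈ f j := fun t ht => by simpa using ht
  have cd : ∀ j, ∀ t ∈ f j, t.cd / G.Q ^ (m + 1 + 1) = k := fun j t ht => by
    rw [pow_succ, ← Nat.div_div_eq_div_mul, ((H j).cd t ht).1, div_code (lt_of_lt_of_le j.2 ha)]
  refine ⟨fun t ht => ?_, fun t ht v hv => ?_, fun t ht t' ht' v v' hv hv' l hl hne => ?_,
    fun t ht t' ht' a1 a2 a3 a4 => ?_, fun u l x hx => ?_, fun u l xs hx => ?_,
    fun u l l' x a1 a2 => ?_⟩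
  · obtain ⟨j, hj⟩ := mem t ht
    exact ⟨cd j t hj, ((H j).cd t hj).2.trans (Nat.le_succ m)⟩
  · obtain ⟨j, hj⟩ := mem t ht
    have : ((G.rr m + 2 * S.ρ (m + 1) : ℕ) : ℝ) ≤ G.rr (m + 1) := by
      exact_mod_cast (by have := h.rr m; omega)
    have a1 := h1 j
    push_cast at this a1
    linarith [(H j).loc t hj v hv, dist_triangle v (s j) z]
  · obtain ⟨i, hi⟩ := mem t ht
    obtain ⟨j, hj⟩ := mem t' ht'
    by_cases e : i = j
    · exact (H j).sep t (e ▸ hi) t' hj v v' hv hv' l hl hne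
    · have hlm : l ≤ m := not_lt.1 fun hlm =>
        hne (div_up ((cd i t hi).trans (cd j t' hj).symm) (by omega))
      have a1 : (G.σ l : ℝ) ≤ G.σ m := by exact_mod_cast h.σ_mono hlm
      have a2 : ((8 * G.rr m : ℕ) : ℝ) ≤ G.σ m := by exact_mod_cast h.rrσ m
      have a3 := dist_triangle4 (s i) v v' (s j)
      rw [dist_comm (s i) v] at a3
      push_cast at a2
      linarith [h2 i j e, (H i).loc t hi v hv, (H j).loc t' hj v' hv']
  · obtain ⟨i, hi⟩ := mem t ht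
    obtain ⟨j, hj⟩ := mem t' ht'
    obtain rfl := Shp.same hc H hi hj (Nat.succ_le_succ ((H i).cd t hi).2) a4
    exact (H i).own t hi t' hj a1 a2 a3 a4
  · obtain ⟨j, hj⟩ := mem _ hx
    exact (H j).grid u l x hj
  · obtain ⟨j, hj⟩ := mem _ hx
    exact (H j).len u l xs hj
  · obtain ⟨i, hi⟩ := mem _ a1
    obtain ⟨j, hj⟩ := mem _ a2
    obtain rfl := Shp.same hc H hi hj le_rfl rfl
    exact (H i).tag u l l' x hi hj

lemma mem_Ps {s : Fin (ar S) → V} : s ∈ Ps S G m z ↔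
    (∀ j, dist (s j) z ≤ (2 * S.ρ (m + 1) : ℕ)) ∧
      ∀ i j, i ≠ j → (G.σ m : ℝ) / 2 < dist (s i) (s j) := by
  classical
  rw [Ps, mem_filter, Fintype.mem_piFinset]
  simp only [mem_box]

theorem shp_Fam (h : Ok S G) (h𝒮 : 𝒮 ∈ Fam S G T n m k z) : Shp G m k z 𝒮 := by
  induction m generalizing k z 𝒮 with
  | zero =>
    obtain ⟨𝒯, h1, 𝒮', h2, rfl⟩ := mem_image₂.1 h𝒮
    exact Shp.tag' h1 (shp_Tm h h2)
  | succ m ih =>
    obtain ⟨𝒯, h1, 𝒮', h2, rfl⟩ := mem_image₂.1 h𝒮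
    refine Shp.tag' h1 ?_
    rcases mem_union.1 h2 with h2 | h2
    · exact shp_Tm h h2
    · obtain ⟨s, hs, h3⟩ := mem_biUnion.1 h2
      obtain ⟨f, hf, rfl⟩ := mem_image.1 h3
      exact Shp.union h h.Q1.1 (mem_Ps.1 hs).1 (mem_Ps.1 hs).2
        fun j => ih (Fintype.mem_piFinset.1 hf j)

theorem shp_Top (h : Ok S G) (h𝒮 : 𝒮 ∈ Top S G T n m z) : Shp G (m + 1) 0 z 𝒮 := by
  rcases mem_union.1 h𝒮 with h2 | h2
  · exact shp_Tm h h2
  · obtain ⟨s, hs, h3⟩ := mem_biUnion.1 h2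
    have := Shp.union h (a := 1) (k := 0) (by have := h.Q1; omega) (s := fun _ => s) (z := z)
      (fun _ => mem_box.1 hs) (fun i j e => absurd (Subsingleton.elim i j) e) (f := fun _ => 𝒮)
      fun j => by simpa using shp_Fam h h3
    simpa using this

/-- a code carries at most one target. -/
lemma Shp.tg_eq (H : Shp G m k z 𝒮) {u l l' : ℕ} {x x' : Pv T n} (h1 : ⟨u, l, .tg x⟩ ∈ 𝒮)
    (h2 : ⟨u, l', .tg x'⟩ ∈ 𝒮) : l = l' ∧ x = x' := by
  by_contra hne
  refine (H.own _ h1 _ h2 (by simp) (by simp) (fun e => hne ?_) rfl).2.1 rfl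
  simpa using e

end Crest.Agent.N337.Tr
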