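import Crest.Agent.N337.E.MDefs

/-!
# Row 337, ENG (helper14): the total weight of the skeletons
-/

set_option autoImplicit false
set_option linter.unusedSectionVars false

namespace Crest.Agent.N337.En

open Finset Crest.MathPhysics.SpinModel Sd Rg Tr

section gen
variable {ι ι' β : Type} [DecidableEq β] {F : β → ℝ}

lemma sum_un (h : ∀ y, 0 ≤ F y) (s t : Finset β) :
    ∑ y ∈ s ∪ t, F y ≤ ∑ y ∈ s, F y + ∑ y ∈ t, F y :=
  (le_add_of_nonneg_right (sum_nonneg fun y _ => h y)).trans sum_union_inter.le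

lemma sum_ins (h : ∀ y, 0 ≤ F y) (a : β) (s : Finset β) :
    ∑ y ∈ insert a s, F y ≤ F a + ∑ y ∈ s, F y := by
  simpa only [sum_singleton, ← insert_eq] using sum_un h {a} s

lemma sum_bU (h : ∀ y, 0 ≤ F y) (s : Finset ι) (t : ι → Finset β) :
    ∑ y ∈ s.biUnion t, F y ≤ ∑ x ∈ s, ∑ y ∈ t x, F y := by
  classical
  induction s using Finset.induction_on with
  | empty => simp
  | insert a s ha ih =>
    rw [biUnion_insert, sum_insert ha]; exact (sum_un h _ _).trans (add_le_add le_rfl ih)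

lemma sum_img (h : ∀ y, 0 ≤ F y) (s : Finset ι) (f : ι → β) :
    ∑ y ∈ s.image f, F y ≤ ∑ x ∈ s, F (f x) := by
  simpa only [sum_singleton, biUnion_singleton] using sum_bU h s fun x => {f x}

lemma sum_img2 {γ : Type} [DecidableEq γ] {F : γ → ℝ} (h : ∀ y, 0 ≤ F y) (s : Finset ι)
    (t : Finset ι') (f : ι → ι' → γ) : ∑ y ∈ image₂ f s t, F y ≤ ∑ a ∈ s, ∑ b ∈ t, F (f a b) := by
  rw [← sum_product']
  exact sum_img h _ _

lemma sum_le_card {s : Finset ι} {f : ι → ℝ} {c N : ℝ} (hc : 0 ≤ c) (h : ∀ x ∈ s, f x ≤ c)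
    (hN : (s.card : ℝ) ≤ N) : ∑ x ∈ s, f x ≤ N * c :=
  (sum_le_card_nsmul s f c h).trans (by rw [nsmul_eq_mul]; exact mul_le_mul_of_nonneg_right hN hc)

lemma sum_pi_cons {N : ℕ} (s : Finset β) {F : (Fin (N + 1) → β) → ℝ} (h : ∀ f, 0 ≤ F f) :
    ∑ f ∈ Fintype.piFinset (fun _ => s), F f ≤
      ∑ y ∈ s, ∑ f ∈ Fintype.piFinset (fun _ : Fin N => s), F (Fin.cons y f) := by
  refine le_trans (sum_le_sum_of_subset_of_nonneg (fun f hf => ?_) fun f _ _ => h f)
    (sum_img2 h _ _ fun y f => Fin.cons y f)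
  rw [Fintype.mem_piFinset] at hf
  exact mem_image₂.2 ⟨f 0, hf 0, Fin.tail f, Fintype.mem_piFinset.2 fun i => hf i.succ,
    Fin.cons_self_tail f⟩

/-- total length of a chain. -/
noncomputable def tot (d : β → β → ℝ) {N : ℕ} (f : Fin N → β) : ℝ :=
  ∑ i : Fin N, ∑ j : Fin N, if j.val = i.val + 1 then d (f i) (f j) else 0

lemma tot_cons (d : β → β → ℝ) {N : ℕ} (x : β) (g : Fin (N + 1) → β) :
    tot d (Fin.cons x g : Fin (N + 2) → β) = d x (g 0) + tot d g := by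
  rw [tot, Fin.sum_univ_succ, tot]
  congr 1
  · rw [Fin.sum_univ_succ, Fin.sum_univ_succ]; simp
  · refine sum_congr rfl fun i _ => ?_
    rw [Fin.sum_univ_succ]; simp

lemma chain_sum (s : Finset β) (d : β → β → ℝ) {c : ℝ} (h0 : 0 ≤ c)
    (hc : ∀ x, ∑ y ∈ s, Real.exp (-d x y) ≤ c) (N : ℕ) (x : β) :
    ∑ f ∈ Fintype.piFinset (fun _ : Fin N => s),
      Real.exp (-tot d (Fin.cons x f : Fin (N + 1) → β)) ≤ c ^ N := by
  induction N generalizing x with
  | zero => simp [tot]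
  | succ N ih =>
    refine (sum_pi_cons s fun _ => (Real.exp_pos _).le).trans ?_
    simp only [tot_cons, Fin.cons_zero, neg_add, Real.exp_add, ← mul_sum]
    refine (sum_le_sum fun y _ => mul_le_mul_of_nonneg_left (ih y) (Real.exp_pos _).le).trans ?_
    rw [← sum_mul, pow_succ']
    exact mul_le_mul_of_nonneg_right (hc x) (pow_nonneg h0 _)

lemma geo_int (I : Finset ℤ) (x : ℤ) {c : ℝ} (hc : 0 < c) :
    ∑ t ∈ I, Real.exp (-(dist x t / c)) ≤ 2 * (1 + c) := by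
  set M := I.sup (fun t => (x - t).natAbs) + 1
  have h0 : ∀ t : ℤ, 0 ≤ Real.exp (-(dist x t / c)) := fun _ => (Real.exp_pos _).le
  have hq : Real.exp (-(1 / c)) ≤ c / (1 + c) := by
    rw [Real.exp_neg, inv_le_comm₀ (Real.exp_pos _) (by positivity), inv_div, add_div,
      div_self hc.ne']
    exact Real.add_one_le_exp _
  have hg : ∑ k ∈ range M, Real.exp (-((k : ℝ) / c)) ≤ 1 + c := by
    have h1 : c / (1 + c) < 1 := (div_lt_one (by positivity)).2 (by linarith)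
    refine (sum_le_sum fun k _ => ?_).trans (((summable_geometric_of_lt_one (by positivity)
      h1).sum_le_tsum (range M) fun _ _ => by positivity).trans ?_)
    · rw [show -((k : ℝ) / c) = k * -(1 / c) by ring, Real.exp_nat_mul]
      exact pow_le_pow_left₀ (Real.exp_pos _).le hq k
    · rw [tsum_geometric_of_lt_one (by positivity) h1]
      exact le_of_eq (by field_simp; ring)
  refine (sum_le_sum_of_subset_of_nonneg (t := (range M).image (fun k : ℕ => x + k) ∪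
    (range M).image fun k : ℕ => x - k) (fun t ht => ?_) fun t _ _ => h0 t).trans
    ((sum_un h0 _ _).trans ((add_le_add (sum_img h0 _ _) (sum_img h0 _ _)).trans ?_))
  · have := le_sup (f := fun t => (x - t).natAbs) ht
    simp only [mem_union, mem_image, mem_range]
    rcases le_total x t with h | h
    · exact Or.inl ⟨(x - t).natAbs, by omega, by omega⟩
    · exact Or.inr ⟨(x - t).natAbs, by omega, by omega⟩
  · simp only [Int.dist_eq]
    push_cast
    simp only [sub_add_cancel_left, abs_neg, sub_sub_cancel, Nat.abs_cast]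
    linarith

end gen

lemma card_box (z : V) (r : ℕ) : (box z r).card = vol r := by
  rw [Tr.box, Fintype.card_piFinset, vol, prod_congr rfl fun a _ => show _ = 2 * r + 1 by
    rw [Int.card_Icc]; omega]
  simp

lemma row_box (z x : V) (r : ℕ) {b : ℝ} (hb : 1 ≤ b) :
    ∑ v ∈ box z r, Real.exp (-(dist x v / b)) ≤ (8 * b) ^ 3 := by
  have h1 : ∀ v : V, Real.exp (-(dist x v / b)) ≤
      ∏ a, Real.exp (-(dist (x a) (v a) / (3 * b))) := fun v => by
    rw [← Real.exp_sum, Real.exp_le_exp, sum_neg_distrib, neg_le_neg_iff, ← sum_div,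
      div_le_div_iff₀ (by positivity) (by positivity), Fin.sum_univ_three]
    nlinarith [dist_le_pi_dist x v 0, dist_le_pi_dist x v 1, dist_le_pi_dist x v 2]
  refine (sum_le_sum fun v _ => h1 v).trans ?_
  rw [Tr.box, ← prod_univ_sum (fun a => Icc (z a - r) (z a + r)) fun a t =>
    Real.exp (-(dist (x a) t / (3 * b)))]
  refine (prod_le_prod (fun a _ => sum_nonneg fun _ _ => (Real.exp_pos _).le) fun a _ =>
    (geo_int _ (x a) (by positivity)).trans (show _ ≤ 8 * b by linarith)).trans (by simp)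

variable {L n T : ℕ} [NeZero T] {α κ : Type} [SemilatticeSup α] [Preorder κ]
  {S : Sys (Tor 3 L) α κ} {G : Eg} {P : Pz}

/-- cube root of the price of a term. -/
def Pz.w (P : Pz) (t : Term T n) : ℝ :=
  match t.dt with
  | .tg _ => P.wt t.lv
  | .fr => P.wf t.lv
  | .sc _ => P.ws t.lv
  | .pr _ => P.wp t.lv

namespace Nm
variable (h : Nm S G P L n T)
include h

lemma w_nn (t : Term T n) : 0 ≤ P.w t := by
  obtain ⟨u, l, _ | _ | _ | _⟩ := t
  exacts [(h.wt l).1, (h.wf l).1, (h.ws l).1, (h.wp l).1]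

lemma Wt_nn (𝒮 : Finset (Term T n)) : 0 ≤ Tr.Wt P.w 𝒮 := prod_nonneg fun t _ => h.w_nn t

lemma one_le_B : 1 ≤ P.B := le_trans (card_pos.2 ⟨0, by simp⟩) h.hB

lemma card_gp (z : V) (r : ℕ) : ((gp T n G.D z r).card : ℝ) ≤ P.B * n * vol r := by
  rw [gp, card_product, card_product, card_box, card_univ, Fintype.card_fin, mul_comm (vol r),
    ← mul_assoc]
  exact_mod_cast Nat.mul_le_mul_right _ (Nat.mul_le_mul_right _ h.hB)

lemma card_dJ (z : V) : ((dJ G T n z).card : ℝ) ≤ P.B * (n * vol G.r0) ^ G.n1 := by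
  classical
  have : dJ G T n z ⊆ (univ.filter fun s : Fin T => G.D ∣ s.val).biUnion fun s =>
      Fintype.piFinset fun _ => {s} ×ˢ (box z G.r0 ×ˢ univ) := by
    intro f hf
    obtain ⟨h1, -, h2⟩ := mem_filter.1 hf
    simp only [Fintype.mem_piFinset, gp, mem_product] at h1
    simp only [mem_biUnion, Fintype.mem_piFinset, mem_product, mem_singleton]
    by_cases k : Nonempty (Fin G.n1)
    · obtain ⟨i⟩ := k
      exact ⟨(f i).1, (h1 i).1, fun j => ⟨h2 j i, (h1 j).2⟩⟩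
    · exact ⟨0, by simp, fun j => absurd ⟨j⟩ k⟩
  have h2 := (card_le_card this).trans card_biUnion_le
  simp only [Fintype.card_piFinset, card_product, card_singleton, card_box, card_univ,
    Fintype.card_fin, prod_const, sum_const, smul_eq_mul, one_mul, mul_comm (vol _)] at h2
  exact_mod_cast h2.trans (Nat.mul_le_mul_right _ h.hB)

lemma card_dL (m : ℕ) (z : V) :
    ((dL G T n m z).card : ℝ) ≤ (P.B * n * vol (G.σ m)) ^ G.jl m := by
  classical
  refine le_trans (Nat.cast_le.2 (card_filter_le _ _)) ?_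
  simp only [Fintype.card_piFinset, prod_const, card_univ, Fintype.card_fin, Nat.cast_pow]
  exact pow_le_pow_left₀ (Nat.cast_nonneg _) (h.card_gp z _) _

lemma card_dS (ho : Tr.Ok S G) (m : ℕ) (z : V) : ((dS G T n m z).card : ℝ) ≤
    P.B * n * vol (G.σ m) * (10 ^ 5 * P.B * n * (G.A m * G.jl m) ^ 3) ^ G.Ns m := by
  classical
  have hA : (1 : ℝ) ≤ G.A m := by exact_mod_cast (ho.A m).1
  have hj : (1 : ℝ) ≤ G.jl m := by exact_mod_cast (ho.jl m).2.1
  have hB : (1 : ℝ) ≤ P.B := by exact_mod_cast h.one_le_B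
  set b : ℝ := 4 * (G.A m * G.jl m) with hb
  have b1 : 1 ≤ b := by nlinarith
  have hg := h.card_gp z (G.σ m)
  have hσ : (G.σ m : ℝ) = b * G.Ns m := by rw [Eg.σ, hb]; push_cast; ring
  unfold dS
  generalize G.σ m = σ at *
  obtain ⟨N, hN⟩ := Nat.exists_eq_add_of_le' (ho.jl m).1
  generalize G.Ns m = N' at *
  subst hN
  set d : Pv T n → Pv T n → ℝ := fun x y => dist x.2.1 y.2.1 / b with hd
  have hc : ∀ x, ∑ y ∈ gp T n G.D z σ, Real.exp (-d x y) ≤ P.B * (n * (8 * b) ^ 3) := fun x => by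
    simp only [gp, hd, sum_product, sum_const, card_univ, Fintype.card_fin, nsmul_eq_mul, ← mul_sum]
    exact mul_le_mul (by exact_mod_cast h.hB) (mul_le_mul_of_nonneg_left (row_box z _ σ b1)
      (Nat.cast_nonneg _)) (by positivity) (by positivity)
  rw [card_eq_sum_ones, Nat.cast_sum, sum_filter]
  refine (sum_le_sum (g := fun f => Real.exp (N + 1) * Real.exp (-tot d f)) fun f _ => ?_).trans ?_
  · split_ifs with k
    · rw [← Real.exp_add, Nat.cast_one, Real.one_le_exp_iff, ← sub_eq_add_neg, sub_nonneg]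
      rw [hσ, ← div_le_iff₀' (by positivity), sum_div] at k
      refine le_trans (le_of_eq (sum_congr rfl fun i _ => ?_)) (k.trans (by push_cast; rfl))
      rw [sum_div]
      exact sum_congr rfl fun j _ => by split_ifs <;> simp [hd]
    · positivity
  rw [← mul_sum]
  refine (mul_le_mul_of_nonneg_left ((sum_pi_cons _ fun _ => (Real.exp_pos _).le).trans
    (sum_le_card (by positivity) (fun y _ => chain_sum _ d (by positivity) hc N y) hg))
    (Real.exp_pos _).le).trans ?_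
  rcases Nat.eq_zero_or_pos n with rfl | hn
  · simp
  have hn' : (1 : ℝ) ≤ n := by exact_mod_cast hn
  rw [mul_left_comm]
  refine mul_le_mul_of_nonneg_left ?_ (by positivity)
  have c1 : 1 ≤ P.B * (n * (8 * b) ^ 3) := one_le_mul_of_one_le_of_one_le hB
    (one_le_mul_of_one_le_of_one_le hn' (one_le_pow₀ (by linarith)))
  calc _ ≤ 3 ^ (N + 1) * (P.B * (n * (8 * b) ^ 3)) ^ (N + 1) := by
        refine mul_le_mul ?_ (pow_le_pow_right₀ c1 (Nat.le_succ N)) (by positivity) (by positivity)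
        rw [← Nat.cast_succ, ← Real.exp_one_pow]
        exact pow_le_pow_left₀ (Real.exp_pos _).le (by linarith [Real.exp_one_lt_d9]) _
    _ ≤ _ := by
        rw [← mul_pow]
        refine pow_le_pow_left₀ (by positivity) ?_ _
        have : 0 ≤ (P.B : ℝ) * n * (G.A m * G.jl m) ^ 3 := by positivity
        rw [hb]; nlinarith

omit h in
lemma Wt_tgs (u lv : ℕ) {N : ℕ} (f : Fin N → Pv T n) :
    Tr.Wt P.w (tgs T n u lv f) = P.wt lv ^ N := by
  rw [Tr.Wt, tgs, prod_image fun i _ j _ e => Fin.ext (by simpa using congrArg Term.cd e)]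
  simp [Pz.w]

lemma sum_Tg (m k : ℕ) : ∑ 𝒮 ∈ Tg G T n m k, Tr.Wt P.w 𝒮 ≤ 1 + G.Q ^ (m + 1) * P.wf m := by
  refine (sum_ins h.Wt_nn _ _).trans (add_le_add (by simp [Tr.Wt]) ((sum_img h.Wt_nn _ _).trans ?_))
  simp [Tr.Wt, Pz.w]

lemma sum_Tm0 (k : ℕ) (z : V) : ∑ 𝒮 ∈ Tm S G T n 0 k z, Tr.Wt P.w 𝒮 ≤
    P.wp 0 + P.B * (n * vol G.r0 * P.wt 0) ^ G.n1 := by
  refine (sum_ins h.Wt_nn _ _).trans (add_le_add (by simp [Tr.Wt, Pz.w])
    ((sum_img h.Wt_nn _ _).trans ?_))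
  rw [mul_pow, ← mul_assoc]
  exact sum_le_card (pow_nonneg (h.wt 0).1 _) (fun f _ => (Wt_tgs _ _ f).le) (h.card_dJ z)

lemma tm_nn (m : ℕ) : 0 ≤ tm S G P n m := by
  have := (h.wt (m + 1)).1
  have := (h.ws (m + 1)).1
  have := (h.wp (m + 1)).1
  unfold tm; positivity

lemma sum_Tm (ho : Tr.Ok S G) (m k : ℕ) (z : V) :
    ∑ 𝒮 ∈ Tm S G T n (m + 1) k z, Tr.Wt P.w 𝒮 ≤ tm S G P n m := by
  have := (h.wt (m + 1)).1
  have := (h.ws (m + 1)).1
  have := (h.wp (m + 1)).1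
  refine (sum_bU h.Wt_nn _ _).trans (sum_le_card (by positivity) (fun z' _ => ?_)
    (by rw [card_box]))
  rw [add_assoc]
  refine (sum_ins h.Wt_nn _ _).trans (add_le_add (by simp [Tr.Wt, Pz.w])
    ((sum_un h.Wt_nn _ _).trans (add_le_add ((sum_img h.Wt_nn _ _).trans ?_)
      ((sum_img h.Wt_nn _ _).trans ?_))))
  · exact sum_le_card (h.ws _).1 (fun f _ => by simp [Tr.Wt, Pz.w]) (h.card_dS ho m z')
  · rw [mul_pow]
    exact sum_le_card (by positivity) (fun f _ => (Wt_tgs _ _ f).le) (h.card_dL m z')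

/-- a tag and the rest of the skeleton. -/
lemma sum_tag (m k : ℕ) (𝒯 : Finset (Finset (Term T n))) {c : ℝ}
    (h1 : ∀ 𝒮 ∈ 𝒯, ∀ t ∈ 𝒮, t.dt = .fr → t.lv ≠ m) (h2 : ∑ 𝒮 ∈ 𝒯, Tr.Wt P.w 𝒮 ≤ c) :
    ∑ 𝒮 ∈ image₂ (· ∪ ·) (Tg G T n m k) 𝒯, Tr.Wt P.w 𝒮 ≤ (1 + G.Q ^ (m + 1) * P.wf m) * c := by
  refine (sum_img2 h.Wt_nn _ _ _).trans (le_trans (le_of_eq ?_) (mul_le_mul (h.sum_Tg m k) h2
    (sum_nonneg fun _ _ => h.Wt_nn _) ((sum_nonneg fun _ _ => h.Wt_nn _).trans (h.sum_Tg m k))))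
  rw [sum_mul_sum]
  refine sum_congr rfl fun A hA => sum_congr rfl fun B hB => prod_union ?_
  rcases mem_insert.1 hA with rfl | hA
  · simp
  · obtain ⟨j, -, rfl⟩ := mem_image.1 hA
    exact disjoint_singleton_left.2 fun k => h1 B hB _ k rfl rfl

omit h in
lemma Tm_ne (m k : ℕ) (z : V) : ∀ 𝒮 ∈ Tm S G T n m k z, ∀ t ∈ 𝒮, t.dt ≠ .fr := by
  have key : ∀ u lv N (f : Fin N → Pv T n), ∀ t ∈ tgs T n u lv f, t.dt ≠ .fr := fun u lv N f t ht => by
    obtain ⟨j, -, rfl⟩ := mem_image.1 ht; simp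
  intro 𝒮 h𝒮 t ht
  rcases m with _ | m
  · rcases mem_insert.1 h𝒮 with rfl | k
    · rw [mem_singleton.1 ht]; simp
    · obtain ⟨f, -, rfl⟩ := mem_image.1 k; exact key _ _ _ f t ht
  · obtain ⟨z', -, k⟩ := mem_biUnion.1 h𝒮
    rcases mem_insert.1 k with rfl | k
    · rw [mem_singleton.1 ht]; simp
    rcases mem_union.1 k with k | k <;> obtain ⟨f, -, rfl⟩ := mem_image.1 k
    · rw [mem_singleton.1 ht]; simp
    · exact key _ _ _ f t ht

/-- **SUM** for a node. -/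
theorem sum_Fam (ho : Tr.Ok S G) (hS : ∀ m k z, ∀ 𝒮 ∈ Fam S G T n m k z, ∀ t ∈ 𝒮,
    t.cd / G.Q ^ (m + 1) = k ∧ t.lv ≤ m) (m : ℕ) (hm : m < G.mt) (k : ℕ) (z : V) :
    ∑ 𝒮 ∈ Fam S G T n m k z, Tr.Wt P.w 𝒮 ≤ P.φ m := by
  classical
  induction m generalizing k z with
  | zero => exact (h.sum_tag 0 k _ (fun 𝒮 h1 t h2 h3 => absurd h3 (Tm_ne 0 k z 𝒮 h1 t h2))
      (h.sum_Tm0 k z)).trans (by simpa using h.φ0)
  | succ m ih =>
    have φ0 : 0 ≤ P.φ m := (sum_nonneg fun _ _ => h.Wt_nn _).trans (ih (by omega) 0 z)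
    refine (h.sum_tag (m + 1) k _ (fun 𝒮 h1 t h2 h3 => ?_) ((sum_un h.Wt_nn _ _).trans
      (add_le_add (h.sum_Tm ho m k z) ((sum_bU h.Wt_nn _ _).trans ?_)))).trans (h.φ1 m hm)
    · rcases mem_union.1 h1 with h1 | h1
      · exact absurd h3 (Tm_ne _ k z 𝒮 h1 t h2)
      · obtain ⟨s, -, h1⟩ := mem_biUnion.1 h1
        obtain ⟨f, hf, rfl⟩ := mem_image.1 h1
        obtain ⟨j, -, h4⟩ := mem_biUnion.1 h2
        have := (hS _ _ _ _ (Fintype.mem_piFinset.1 hf j) t h4).2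
        omega
    · rw [mul_pow]
      refine sum_le_card (pow_nonneg φ0 _) (fun s _ => (sum_img h.Wt_nn _ _).trans ?_) ?_
      · have e : ∀ f ∈ Fintype.piFinset fun j : Fin (ar S) => Fam S G T n m (k * G.Q + j.val) (s j),
            Tr.Wt P.w (univ.biUnion f) = ∏ j, Tr.Wt P.w (f j) := fun f hf =>
          prod_biUnion fun i _ j _ hij => disjoint_left.2 fun t h1 h2 => hij (Fin.ext (by
            have := (hS _ _ _ _ (Fintype.mem_piFinset.1 hf i) t h1).1
            have := (hS _ _ _ _ (Fintype.mem_piFinset.1 hf j) t h2).1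
            omega))
        rw [sum_congr rfl e, ← prod_univ_sum (fun j : Fin (ar S) => Fam S G T n m (k * G.Q + j.val) (s j))
          fun _ 𝒮 => Tr.Wt P.w 𝒮]
        exact (prod_le_prod (fun j _ => sum_nonneg fun _ _ => h.Wt_nn _) fun j _ =>
          ih (by omega) _ _).trans (by simp)
      · refine le_trans (Nat.cast_le.2 (card_filter_le _ _)) ?_
        simp [card_box]

/-- **SUM** for an item. -/
theorem sum_Top (ho : Tr.Ok S G) (hS : ∀ m k z, ∀ 𝒮 ∈ Fam S G T n m k z, ∀ t ∈ 𝒮,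
    t.cd / G.Q ^ (m + 1) = k ∧ t.lv ≤ m) (m : ℕ) (hm : m < G.mt) (y : V) :
    ∑ 𝒮 ∈ Top S G T n m y, Tr.Wt P.w 𝒮 ≤ tm S G P n m + vol (2 * S.ρ (m + 1)) * P.φ m :=
  (sum_un h.Wt_nn _ _).trans (add_le_add (h.sum_Tm ho m 0 y) ((sum_bU h.Wt_nn _ _).trans
    (sum_le_card ((sum_nonneg fun _ _ => h.Wt_nn _).trans (h.sum_Fam ho hS m hm 0 y))
      (fun s _ => h.sum_Fam ho hS m hm 0 s) (by rw [card_box]))))

end Nm

end Crest.Agent.N337.En
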