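import Crest.Agent.N337.E.Seed
import Crest.Agent.N337.Rg.Defs
import Crest.Agent.N337.Free.Tor

/-!
# Row 337, ENG (helper30): routes, skeletons, realisation (definitions)

Positions live in `V = ℤ³` (sup norm) and are read on the torus through `tcast L`.
A skeleton is a finite set of terms.  The code of a term is a number in base `Q`; the node of level
`m` above the code `u` is `u / Q ^ (m + 1)`.  Births are `g 0, g 1, …, g (nb - 1)`; the state at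
time `i` is `St g i = {g 0, …, g (i - 1)}`.
-/

set_option autoImplicit false
set_option linter.unusedSectionVars false

namespace Crest.Agent.N337.Tr

open Finset Crest.MathPhysics.SpinModel Sd Rg

/-- parameters of the engine (those of the rung system are in `Rg.Sys`). -/
structure Eg where
  /-- no junk at level `mt` -/
  mt : ℕ
  /-- points of a J1 leaf, their range -/
  n1 : ℕ
  r0 : ℕ
  /-- base of the codes -/
  Q : ℕ
  /-- far balls: distance `≥ c *` radius -/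
  c : ℕ
  /-- static covering balls in a triple cell -/
  N0 : ℕ
  /-- steps per window (grid slices = multiples of `D`) -/
  D : ℕ
  /-- clean ball of a seed -/
  A : ℕ → ℕ
  /-- chains have `Ns * jl` links -/
  Ns : ℕ → ℕ
  jl : ℕ → ℕ
  /-- radius of the covering balls of all junk -/
  Sg : ℕ → ℕ
  /-- largest far ball -/
  W : ℕ → ℕ
  /-- range in which a route has to avoid the junk -/
  Rs : ℕ → ℕ
  /-- long loops -/
  Rl : ℕ → ℕ
  /-- range of the grid point of a link -/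
  lo : ℕ → ℕ
  /-- distance from a term to its seed of level `l` -/
  rr : ℕ → ℕ
  /-- range of the search of the highest failing level -/
  kp : ℕ → ℕ

namespace Eg
variable (G : Eg)
/-- separation of seeds. -/
def σ (m : ℕ) : ℕ := 4 * G.A m * (G.Ns m * G.jl m)
end Eg

section par
variable {L : ℕ} {α κ : Type} [SemilatticeSup α] [Preorder κ] (S : Sys (Tor 3 L) α κ) (G : Eg)

/-- arity. -/
def ar : ℕ := S.a1 + 1
/-- constant of the merge. -/
def Cm : ℕ := (2 * G.c + 4) ^ (G.N0 + ar S * S.N + ar S)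
/-- isolation constant of a target. -/
def Lm : ℕ := 4 * Cm S G + 2
/-- number of far balls. -/
def qf : ℕ := G.N0 + ar S * S.N + ar S + (G.N0 + 27 * S.a1)

/-- all inequalities used by the deterministic part. -/
structure Ok : Prop where
  d : ∀ x y, S.d x y = tdist x y
  c2 : 2 ≤ G.c
  lam : G.c * Lm S G + 1 ≤ S.Lam
  Q1 : ar S ≤ G.Q ∧ G.n1 ≤ G.Q ∧ 2 ≤ G.Q
  jl : ∀ m, 1 ≤ G.Ns m ∧ 1 ≤ G.jl m ∧ G.jl m ≤ G.Q ^ (m + 2)
  sep : ∀ m, 4 * Cm S G * G.σ m ≤ S.sep m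
  Sg : ∀ m, S.Lam * S.Sx m ≤ G.Sg m ∧ S.sep m ≤ S.Sx m
  W : ∀ m, Cm S G * (G.Sg m + G.σ m) ≤ G.W m
  H : ∀ m, Lm S G * G.Sg m + G.kp m ≤ S.H m
  kp : ∀ m, (G.c + 1) * G.Sg m ≤ G.kp m ∧ G.kp m ≤ S.ρ (m + 1)
  A : ∀ m, 1 ≤ G.A m ∧ 5 * S.ρ m ≤ G.A m ∧ G.lo m ≤ G.A m
  room : ∀ m, (G.N0 + 27 * S.a1 + 1) * ((G.c + 1) * G.Sg m) ≤ S.ρ (m + 1) ∧
    G.Rs m ≤ S.ρ (m + 1) ∧ G.A m ≤ G.Rs m ∧ Lm S G * G.Sg m ≤ S.ρ (m + 1)
  rr0 : G.r0 ≤ G.rr 0
  rr : ∀ m, G.rr m + 2 * S.ρ (m + 1) + G.kp m + G.σ m ≤ G.rr (m + 1)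
  rrσ : ∀ m, 8 * G.rr m ≤ G.σ m
  hL : ∀ m < G.mt, 20 * S.ρ (m + 1) < L

/-- **route datum of level `l` at `s`** for the junk `J`: a clean ball, a free axis cone, far balls. -/
def Rt (l : ℕ) (J : Tor 3 L → Prop) (s : V) : Prop :=
  ∃ (e : Fin 3 × Bool) (F : Finset (V × ℝ)), F.card ≤ qf S G ∧
    (∀ B ∈ F, (G.σ l : ℝ) ≤ B.2 ∧ B.2 ≤ G.W l ∧ G.c * B.2 ≤ dist s B.1) ∧
    ∀ p, J (tcast L p) → dist p s ≤ G.Rs l →
      ((G.A l : ℝ) < dist p s ∧ hgt e p - hgt e s < dist p s ∧ dist p s ≤ (G.c + 3) * G.W l) ∨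
        ∃ B ∈ F, dist p B.1 ≤ B.2

/-- route data at the levels `lo ≤ l < hi`. -/
def RR (lo hi : ℕ) (J : ℕ → Tor 3 L → Prop) (x : V) : Prop :=
  ∀ l, lo ≤ l → l < hi → ∃ s, dist x s ≤ G.rr l ∧ Rt S G l (J l) s

/-- **tube data** from the level `lo` on. -/
def TB (lo : ℕ) (J : ℕ → Tor 3 L → Prop) (x : V) : Prop := RR S G lo G.mt J x

/-- the static junk `U` (and everything that is not isolated from it) is sparse. -/
def UC (U : ℕ → Tor 3 L → Prop) : Prop :=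
  ∀ m < G.mt, ∀ b, (∀ y, tdist b y ≤ 4 * S.ρ (m + 1) → ¬ U (m + 1) y) →
    ∃ F : Finset (Tor 3 L), F.card ≤ G.N0 ∧ ∀ y, tdist b y ≤ 3 * S.ρ (m + 1) →
      (U m y ∨ ¬ S.Iso U m y) → ∃ f ∈ F, tdist f y ≤ G.Sg m

/-- no static junk of level `m` near `z`. -/
def Fre (U : ℕ → Tor 3 L → Prop) (m : ℕ) (z : V) : Prop :=
  ∀ p, U m (tcast L p) → (G.A m : ℝ) < dist p z

end par

/-! ### skeletons -/

/-- space-time points with a position in `ℤ³`. -/
abbrev Pv (T n : ℕ) : Type := Fin T × V × Fin n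

/-- the point of the torus. -/
def pj (L : ℕ) {T n : ℕ} (x : Pv T n) : Fin T × (Tor 3 L × Fin n) := (x.1, (tcast L x.2.1, x.2.2))

/-- target, free tag, short chain, product event. -/
inductive Dt (T n : ℕ) : Type
  | tg (x : Pv T n)
  | fr
  | sc (xs : List (Pv T n))
  | pr (z : V)

/-- code, level, datum. -/
structure Term (T n : ℕ) : Type where
  cd : ℕ
  lv : ℕ
  dt : Dt T n

noncomputable instance (T n : ℕ) : DecidableEq (Term T n) := Classical.decEq _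

/-- the box of radius `r`. -/
noncomputable def box (z : V) (r : ℕ) : Finset V := Fintype.piFinset fun a => Icc (z a - r) (z a + r)

/-- grid points over a box. -/
noncomputable def gp (T n D : ℕ) (z : V) (r : ℕ) : Finset (Pv T n) :=
  (univ.filter fun s : Fin T => D ∣ s.val) ×ˢ (box z r ×ˢ univ)

section fam
variable {L : ℕ} {α κ : Type} [SemilatticeSup α] [Preorder κ] (S : Sys (Tor 3 L) α κ) (G : Eg)
  (T n : ℕ)

/-- the targets `f j` with the codes `u + j`. -/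
noncomputable def tgs (u lv : ℕ) {N : ℕ} (f : Fin N → Pv T n) : Finset (Term T n) :=
  univ.image fun j : Fin N => ⟨u + j.val, lv, .tg (f j)⟩

open Classical in
/-- J1 data: `n1` distinct points on one grid slice. -/
noncomputable def dJ (z : V) : Finset (Fin G.n1 → Pv T n) :=
  (Fintype.piFinset fun _ => gp T n G.D z G.r0).filter fun f =>
    Function.Injective f ∧ ∀ i j, (f i).1 = (f j).1

open Classical in
/-- short chains: `Ns` grid points, total length bounded. -/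
noncomputable def dS (m : ℕ) (z : V) : Finset (Fin (G.Ns m) → Pv T n) :=
  (Fintype.piFinset fun _ => gp T n G.D z (G.σ m)).filter fun f =>
    ∑ i : Fin (G.Ns m), ∑ j : Fin (G.Ns m), (if j.val = i.val + 1 then dist (f i).2.1 (f j).2.1 else 0) ≤
      G.σ m

open Classical in
/-- long links: `jl` distinct grid points. -/
noncomputable def dL (m : ℕ) (z : V) : Finset (Fin (G.jl m) → Pv T n) :=
  (Fintype.piFinset fun _ => gp T n G.D z (G.σ m)).filter Function.Injective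

/-- terminals of the node `(m, k)` at `z`. -/
noncomputable def Tm : ℕ → ℕ → V → Finset (Finset (Term T n))
  | 0, k, z => insert {⟨k * G.Q, 0, .pr z⟩} ((dJ G T n z).image (tgs T n (k * G.Q) 0))
  | m + 1, k, z => (box z (2 * S.ρ (m + 1))).biUnion fun z' =>
      insert {⟨k * G.Q ^ (m + 2), m + 1, .pr z'⟩}
        ((dS G T n m z').image (fun f => {⟨k * G.Q ^ (m + 2), m + 1, .sc (List.ofFn f)⟩}) ∪
          (dL G T n m z').image (tgs T n (k * G.Q ^ (m + 2)) (m + 1)))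

/-- free tags of the node `(m, k)`. -/
noncomputable def Tg (m k : ℕ) : Finset (Finset (Term T n)) :=
  insert ∅ ((range (G.Q ^ (m + 1))).image fun j => {⟨k * G.Q ^ (m + 1) + j, m, .fr⟩})

open Classical in
/-- positions of the children (level `m`). -/
noncomputable def Ps (m : ℕ) (z : V) : Finset (Fin (ar S) → V) :=
  (Fintype.piFinset fun _ => box z (2 * S.ρ (m + 1))).filter fun s =>
    ∀ i j, i ≠ j → (G.σ m : ℝ) / 2 < dist (s i) (s j)

/-- **skeletons** of the node `(m, k)` at `z`. -/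
noncomputable def Fam : ℕ → ℕ → V → Finset (Finset (Term T n))
  | 0, k, z => image₂ (· ∪ ·) (Tg G T n 0 k) (Tm S G T n 0 k z)
  | m + 1, k, z => image₂ (· ∪ ·) (Tg G T n (m + 1) k) (Tm S G T n (m + 1) k z ∪
      (Ps S G m z).biUnion fun s =>
        (Fintype.piFinset fun j => Fam m (k * G.Q + j.val) (s j)).image fun f => univ.biUnion f)

/-- skeletons of an item of level `m` at `y` (virtual parent of code `0`). -/
noncomputable def Top (m : ℕ) (y : V) : Finset (Finset (Term T n)) :=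
  Tm S G T n (m + 1) 0 y ∪ (box y (2 * S.ρ (m + 1))).biUnion fun s => Fam S G T n m 0 s

/-- weight of a skeleton. -/
noncomputable def Wt {T n : ℕ} (w : Term T n → ℝ) (𝒮 : Finset (Term T n)) : ℝ := ∏ t ∈ 𝒮, w t

variable {T n}

/-- the positions of a term. -/
def Term.At (t : Term T n) (v : V) : Prop :=
  match t.dt with
  | .tg x => v = x.2.1
  | .fr => False
  | .sc xs => ∃ x ∈ xs, v = x.2.1
  | .pr z => v = z

/-- **static shape** of a skeleton below the node `(m, k)` at `z`. -/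
structure Shp (m k : ℕ) (z : V) (𝒮 : Finset (Term T n)) : Prop where
  cd : ∀ t ∈ 𝒮, t.cd / G.Q ^ (m + 1) = k ∧ t.lv ≤ m
  loc : ∀ t ∈ 𝒮, ∀ v, t.At v → dist v z ≤ G.rr m
  /-- different nodes are far apart -/
  sep : ∀ t ∈ 𝒮, ∀ t' ∈ 𝒮, ∀ v v', t.At v → t'.At v' → ∀ l, t.lv ≤ l →
    t.cd / G.Q ^ (l + 1) ≠ t'.cd / G.Q ^ (l + 1) → (G.σ l : ℝ) / 4 < dist v v'
  /-- a terminal fills its node -/
  own : ∀ t ∈ 𝒮, ∀ t' ∈ 𝒮, t.dt ≠ .fr → t'.dt ≠ .fr → t ≠ t' →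
    t.cd / G.Q ^ (t.lv + 1) = t'.cd / G.Q ^ (t.lv + 1) → t'.lv = t.lv ∧ t.cd ≠ t'.cd ∧
      ∃ x x', t.dt = .tg x ∧ t'.dt = .tg x' ∧ x ≠ x' ∧ (t.lv = 0 → x.1 = x'.1)
  grid : ∀ u l x, ⟨u, l, .tg x⟩ ∈ 𝒮 → G.D ∣ x.1.val
  len : ∀ u l xs, ⟨u, l, .sc xs⟩ ∈ 𝒮 → 1 ≤ l ∧ xs.length = G.Ns (l - 1)
  tag : ∀ u l l' x, ⟨u, l, .fr⟩ ∈ 𝒮 → ⟨u, l', .tg x⟩ ∈ 𝒮 → l' ≤ l

end fam

/-! ### realisation -/

section real
variable {L : ℕ} {α κ : Type} [SemilatticeSup α] [Preorder κ] (S : Sys (Tor 3 L) α κ) (G : Eg)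
  {T n : ℕ} {Γ : Type} [DecidableEq Γ]

/-- state at time `i`. -/
def St (g : ℕ → Γ) (i : ℕ) : Finset Γ := (range i).image g

/-- static junk and failing cells of the state `C`. -/
def Jc (U : ℕ → Tor 3 L → Prop) (Lf : Finset Γ → Tor 3 L → Prop) (C : Finset Γ) (l : ℕ)
    (y : Tor 3 L) : Prop := U l y ∨ S.Fl U (Lf C) l y

/-- the data of one configuration: points of a loop, class level, leaves, product events
(`Ev 0` = PR leaf, `Ev (m + 1)` = FAST of level `m`). -/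
structure Cf (L T n : ℕ) (Γ : Type) where
  pts : Γ → Finset (Fin T × (Tor 3 L × Fin n))
  lk : Γ → ℕ
  U : ℕ → Tor 3 L → Prop
  Lf : Finset Γ → Tor 3 L → Prop
  Ev : ℕ → V → Prop

variable (K : Cf L T n Γ)

/-- the loop `γ` leaves the ball of radius `Rl m` round `x`. -/
def Lng (m : ℕ) (γ : Γ) (x : Pv T n) : Prop :=
  ∃ y ∈ K.pts γ, G.Rl m < tdist (tcast L x.2.1) y.2.1

/-- what the deterministic part needs to know about the leaves and the births `g 0 … g (nb-1)`. -/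
structure Dyn (g : ℕ → Γ) (nb : ℕ) : Prop where
  uc : UC S G K.U
  top : ∀ y, ¬ Jc S K.U K.Lf (St g nb) G.mt y
  mono : ∀ C C' y, C ⊆ C' → K.Lf C y → K.Lf C' y
  zero : ∀ y, ¬ K.Lf ∅ y
  loc : ∀ i < nb, ∀ y, K.Lf (St g (i + 1)) y → ¬ K.Lf (St g i) y →
    ∃ v ∈ K.pts (g i), tdist y v.2.1 ≤ S.ρ 0
  leaf : ∀ i ≤ nb, ∀ z : V, K.Lf (St g i) (tcast L z) → K.Ev 0 z ∨
    ∃ f ∈ dJ G T n z, ∀ j, ∃ i' < i, pj L (f j) ∈ K.pts (g i')
  fast : ∀ m, ∀ z : V, ¬ K.Ev (m + 1) z → ∀ i < nb, ∀ v ∈ K.pts (g i),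
    tdist (tcast L z) v.2.1 ≤ S.loc m → ∃ x ∈ gp T n G.D z (G.lo m), pj L x ∈ K.pts (g i)

/-- **realisation** of a skeleton by the births before the time `t`, routes below the level `hi`. -/
structure Real (g : ℕ → Γ) (t hi : ℕ) (𝒮 : Finset (Term T n)) : Prop where
  tg : ∀ u l x, ⟨u, l, .tg x⟩ ∈ 𝒮 → ∃ i < t, pj L x ∈ K.pts (g i) ∧
    RR S G l hi (Jc S K.U K.Lf (St g i)) x.2.1 ∧ (l ≠ 0 → Lng G K (l - 1) (g i) x) ∧
    (∀ u' x', ⟨u', l, .tg x'⟩ ∈ 𝒮 → l ≠ 0 → u' / G.Q ^ (l + 1) = u / G.Q ^ (l + 1) →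
      pj L x' ∈ K.pts (g i) → u' = u) ∧
    ((∀ u' l' x', ⟨u', l', .tg x'⟩ ∈ 𝒮 → pj L x' ∈ K.pts (g i) → u ≤ u') →
      (∃ l', ⟨u, l', .fr⟩ ∈ 𝒮 ∧ K.lk (g i) ≤ l') ∨
        RR S G (max l (K.lk (g i))) hi (Jc S K.U K.Lf (St g (i + 1))) x.2.1)
  sc : ∀ u l xs, ⟨u, l, .sc xs⟩ ∈ 𝒮 → ∃ ι : Fin xs.length → ℕ, StrictMono ι ∧ ∀ j, ι j < t ∧
    pj L xs[j] ∈ K.pts (g (ι j)) ∧ ¬ Lng G K (l - 1) (g (ι j)) xs[j]
  pr : ∀ u l z, ⟨u, l, .pr z⟩ ∈ 𝒮 → K.Ev l z ∧ Fre G K.U (l - 1) z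

/-- **(Det)** a failing isolated cell has a realised skeleton at the highest failing level.
The births are disjoint loops. -/
def DetStmt : Prop :=
  ∀ (g : ℕ → Γ) (nb : ℕ), Ok S G → Dyn S G K g nb →
    (∀ i < nb, ∀ j < nb, i ≠ j → Disjoint (K.pts (g i)) (K.pts (g j))) →
    ∀ m < G.mt, ∀ x : V, (∀ l, m ≤ l → l < G.mt → S.Iso K.U l (tcast L x)) →
      S.Fl K.U (K.Lf (St g nb)) m (tcast L x) →
      ∃ l, m ≤ l ∧ l < G.mt ∧ ∃ y ∈ box x (G.kp l), ∃ 𝒮 ∈ Top S G T n l y,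
        Real S G K g nb G.mt 𝒮

end real

end Crest.Agent.N337.Tr
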