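import Crest.Agent.N337.E.Sum
import Crest.Agent.N337.E.Shape
import Crest.Agent.N337.Rg.Ult

/-!
# Row 337, ENG (helper14): (TP) for the targets of a skeleton
-/

set_option autoImplicit false
set_option linter.unusedSectionVars false

namespace Crest.Agent.N337.En

open Finset Crest.MathPhysics.SpinModel Crest.Agent.N337.Rep Sd Rg Tr Free
open Crest.Agent.N337.Gas (Lp pts wd ub lp obv)
open Crest.Agent.N337.WN (Cls Fst One Gc covL exA Exit)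

lemma St_succ {Γ : Type} [DecidableEq Γ] (g : ℕ → Γ) (i : ℕ) :
    St g (i + 1) = insert (g i) (St g i) := by rw [St, range_add_one, image_insert]; rfl

lemma sq_eq {Γ : Type} [Inhabited Γ] {l : List Γ} {i : ℕ} (h : i < l.length) : sq l i = l[i] :=
  List.getD_eq_getElem _ _ h

lemma St_sq {Γ : Type} [DecidableEq Γ] [Inhabited Γ] (l : List Γ) {i : ℕ} (h : i ≤ l.length) :
    St (sq l) i = (l.take i).toFinset := by
  induction i with
  | zero => simp [St]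
  | succ i ih =>
    rw [St_succ, ih (by omega), sq_eq h, List.take_succ_eq_append_getElem h, List.toFinset_append]
    ext; simp only [mem_insert, mem_union, List.mem_toFinset, List.mem_singleton, or_comm]

variable {L n T : ℕ} [NeZero L] [NeZero T]

lemma dist_le_tdist {v v' : V} (h : 2 * dist v v' < L) :
    dist v v' ≤ tdist (tcast L v) (tcast L v') := by
  refine (dist_pi_le_iff (Nat.cast_nonneg _)).2 fun a => ?_
  have h1 := (mul_le_mul_of_nonneg_left (dist_le_pi_dist v v' a) zero_le_two).trans_lt h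
  have h2 := tdist_le_iff.1 (le_refl (tdist (tcast L v) (tcast L v'))) a
  rw [Int.dist_eq, ← Int.cast_sub, ← Int.cast_abs] at h1 ⊢
  have h3 : 2 * |v a - v' a| < L := by exact_mod_cast h1
  rw [(ZMod.valMinAbs_spec _ (v' a - v a)).2 ⟨by simp [tcast], by
    constructor <;> cases abs_cases (v a - v' a) <;> omega⟩] at h2
  have h4 : |v a - v' a| ≤ (tdist (tcast L v) (tcast L v') : ℤ) := by
    cases abs_cases (v a - v' a) <;> omega
  exact_mod_cast h4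

lemma card_near (x : Tor 3 L) (r : ℕ) :
    (univ.filter fun y : Tor 3 L × Fin n => tdist x y.1 ≤ r).card ≤ n * vol r := by
  rw [show (univ.filter fun y : Tor 3 L × Fin n => tdist x y.1 ≤ r) =
    (univ.filter fun y => tdist x y ≤ r) ×ˢ univ by ext; simp, card_product, card_univ,
    Fintype.card_fin, mul_comm]
  exact Nat.mul_le_mul_left _ (card_ball_le x r)

variable {ex ey : Fin T → Tor 3 L × Fin n} {ξ : Fin T → Bool}

lemma ends_pts {C : Finset (Lp T (Tor 3 L × Fin n))} (h : C ⊆ Gas.L ex ey ξ) :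
    Arc.ends ex ey ξ (pts C) = 0 := by
  refine card_eq_zero.2 (filter_eq_empty_iff.2 fun v hv => not_not.2 ?_)
  obtain ⟨g, h1, h2⟩ := Gas.mem_pts.1 hv
  refine Gas.mem_pts.2 ⟨g, h1, ?_⟩
  rw [Gas.eq_lp (h h1) h2]
  exact Gas.mem_obv.2 (o_apply _ _)

lemma bs_ne {b : Fin T × (Tor 3 L × Fin n) → ℝ} {Y : ℝ} (hY : 0 < Y)
    {g : Lp T (Tor 3 L × Fin n)} (h : ub b g ≠ 0) {v : Fin T × (Tor 3 L × Fin n)} (hv : v ∈ g.2) :
    Bi.bs b Y v ≠ 0 := by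
  have := prod_ne_zero_iff.1 h v hv
  unfold Bi.bs; split_ifs; exacts [mul_ne_zero hY.ne' this, this]

variable {α κ : Type} [SemilatticeSup α] [Preorder κ] {S : Sys (Tor 3 L) α κ} {G : Eg} {P : Pz}
  {p : Fin T → ℝ} {b : Fin T × (Tor 3 L × Fin n) → ℝ} {Y : ℝ} {U : ℕ → Tor 3 L → Prop}
  {Lf : Finset (Lp T (Tor 3 L × Fin n)) → Tor 3 L → Prop} {Ev : (Fin T → Bool) → ℕ → V → Prop}
  {m : ℕ} {z : V} {𝒮 : Finset (Term T n)}

lemma TB.up {l l' : ℕ} {J : ℕ → Tor 3 L → Prop} {x : V} (h : TB S G l J x) (hl : l ≤ l') :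
    TB S G l' J x := fun k h1 h2 => h k (hl.trans h1) h2

/-- positions of a skeleton keep their distance on the torus. -/
lemma shp_dist (H : Shp G m 0 z 𝒮) (hL : 4 * G.rr m < L) {t t' : Term T n} (ht : t ∈ 𝒮)
    (ht' : t' ∈ 𝒮) {v v' : V} (h : t.At v) (h' : t'.At v') :
    dist v v' ≤ tdist (tcast L v) (tcast L v') := by
  refine dist_le_tdist ?_
  have h1 := H.loc t ht v h
  have h2 := H.loc t' ht' v' h'
  have h3 : (4 * G.rr m : ℝ) < L := by exact_mod_cast hL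
  linarith [dist_triangle_right v v' z]

lemma shp_far (H : Shp G m 0 z 𝒮) (hL : 4 * G.rr m < L) {t t' : Term T n} (ht : t ∈ 𝒮)
    (ht' : t' ∈ 𝒮) {v v' : V} (h : t.At v) (h' : t'.At v') {l : ℕ} (hl : t.lv ≤ l)
    (hc : t.cd / G.Q ^ (l + 1) ≠ t'.cd / G.Q ^ (l + 1)) :
    G.σ l < 4 * tdist (tcast L v) (tcast L v') := by
  have h1 := (H.sep t ht t' ht' v v' h h' l hl hc).trans_le (shp_dist H hL ht ht' h h')
  have h2 : (G.σ l : ℝ) < 4 * tdist (tcast L v) (tcast L v') := by linarith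
  exact_mod_cast h2

/-- price of targets and tags. -/
noncomputable def Pz.p1 (P : Pz) (t : Term T n) : ℝ :=
  match t.dt with
  | .tg _ => P.wt t.lv ^ 3
  | .fr => P.wf t.lv ^ 3
  | _ => 1

/-- the code `u` carries a tag of level `≥ k`. -/
def Fr (𝒮 : Finset (Term T n)) (u k : ℕ) : Prop := ∃ l', (⟨u, l', .fr⟩ : Term T n) ∈ 𝒮 ∧ k ≤ l'

/-- an enumeration of the targets by their codes. -/
structure Enu (𝒮 : Finset (Term T n)) (X : Finset ℕ) (lv : ℕ → ℕ) (x : ℕ → Pv T n) : Prop where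
  mem : ∀ u ∈ X, (⟨u, lv u, .tg (x u)⟩ : Term T n) ∈ 𝒮
  all : ∀ u l y, (⟨u, l, .tg y⟩ : Term T n) ∈ 𝒮 → u ∈ X

lemma exists_Enu (hn : 0 < n) (𝒮 : Finset (Term T n)) : ∃ X lv x, Enu 𝒮 X lv x := by
  classical
  have : Nonempty (Pv T n) := ⟨(0, 0, ⟨0, hn⟩)⟩
  have h : ∀ u ∈ (𝒮.filter fun t => ∃ y, t.dt = .tg y).image Term.cd, ∃ l y,
      (⟨u, l, .tg y⟩ : Term T n) ∈ 𝒮 := fun u hu => by
    obtain ⟨⟨u, l, d⟩, h1, rfl⟩ := mem_image.1 hu
    obtain ⟨h1, y, rfl⟩ := mem_filter.1 h1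
    exact ⟨l, y, h1⟩
  choose! lv x h using h
  exact ⟨_, lv, x, h, fun u l y k => mem_image.2 ⟨_, mem_filter.2 ⟨k, y, rfl⟩, rfl⟩⟩

variable {X : Finset ℕ} {lv : ℕ → ℕ} {x : ℕ → Pv T n}

open Classical in
/-- multipliers. -/
noncomputable def θ (P : Pz) (𝒮 : Finset (Term T n)) (lv : ℕ → ℕ) (u : ℕ) : ℝ :=
  if Fr 𝒮 u 0 then 1 else P.th (lv u)

open Classical in
/-- one-point rates. -/
noncomputable def γ1 (P : Pz) (𝒮 : Finset (Term T n)) (lv : ℕ → ℕ) (j u : ℕ) : ℝ :=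
  if Fr 𝒮 u (P.lev j) then 1 else P.g1 (max (lv u) (P.lev j))

/-- Green majorant. -/
noncomputable def gg (G : Eg) (P : Pz) (lv : ℕ → ℕ) (v u : ℕ) : ℝ :=
  if v / G.Q ^ (lv v + 1) = u / G.Q ^ (lv v + 1) then (if lv v = 0 then P.γ0 else 0)
  else P.γ (ell G.Q v u - 2)

namespace Nm
variable (h : Nm S G P L n T)
include h

lemma th1 (l : ℕ) : 1 ≤ P.th l := h.th.1.trans (h.th.2.1 (Nat.zero_le l))

lemma aa6 (l : ℕ) : 6 ≤ P.aa l := h.aa.1.trans (h.aa.2 (Nat.zero_le l))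

lemma g1_mem (l : ℕ) : 0 ≤ P.g1 l ∧ P.g1 l ≤ 1 := by
  unfold Pz.g1; split_ifs; exacts [h.γ0, ⟨by linarith [h.γ l], by linarith [h.γ l]⟩]

lemma θ_mem (u : ℕ) : 1 ≤ θ P 𝒮 lv u ∧ θ P 𝒮 lv u ≤ P.th (lv u) := by
  unfold θ; split_ifs; exacts [⟨le_rfl, h.th1 _⟩, ⟨h.th1 _, le_rfl⟩]

lemma wf1 (l : ℕ) : 1 ≤ P.wf l ^ 3 := le_trans (one_le_mul_of_one_le_of_one_le (h.th1 l)
  (Real.one_le_exp (by positivity))) (h.wf l).2

/-- levels of two targets in different terminals. -/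
lemma lev_of (ho : Tr.Ok S G) (H : Shp G m 0 z 𝒮) (E : Enu 𝒮 X lv x) {v u : ℕ} (hv : v ∈ X)
    (hu : u ∈ X) (hc : v / G.Q ^ (lv v + 1) ≠ u / G.Q ^ (lv v + 1)) :
    ∃ l, ell G.Q v u = l + 2 ∧ lv v ≤ l ∧ lv u ≤ l ∧ l < m ∧ v / G.Q ^ (l + 1) ≠ u / G.Q ^ (l + 1) := by
  have hQ := ho.Q1.2.2
  have h1 := (ell_le_iff hQ).not.2 hc
  have h2 := (ell_le_iff hQ).2 ((H.cd _ (E.mem v hv)).1.trans (H.cd _ (E.mem u hu)).1.symm)
  have h3 : ¬ ell G.Q u v ≤ lv u + 1 := fun k => by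
    have k1 := (ell_le_iff hQ).1 k
    have := (H.own _ (E.mem u hu) _ (E.mem v hv) (by simp) (by simp)
      (fun e => hc (by rw [show u = v from congrArg Term.cd e])) k1).1
    exact hc (by rw [show lv v = lv u from this]; exact k1.symm)
  rw [ell_comm] at h3
  obtain ⟨l, hl⟩ : ∃ l, ell G.Q v u = l + 2 := ⟨ell G.Q v u - 2, by omega⟩
  exact ⟨l, hl, by omega, by omega, by simp only at h2; omega, (ell_spec hQ hl).2⟩

lemma tgt' (ho : Tr.Ok S G) (H : Shp G m 0 z 𝒮) (hm : m ≤ G.mt) (E : Enu 𝒮 X lv x) :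
    WN.Tgt X (gg G P lv) (ell G.Q) (m + 1) (rr G.Q) ww (fun u => P.aa (lv u)) (1 / 4) (1 / 4) (1 / 2)
      (θ P 𝒮 lv) fun _ _ => True := by
  have hQ := ho.Q1.2.2
  refine tgt hQ (fun u hu => (H.cd _ (E.mem u hu)).1) (fun v u => ?_) (fun v => h.aa6 _)
    (fun u hu v hv huv => ?_) (fun v => zero_lt_one.trans_le (h.θ_mem v).1) (by norm_num)
    (by norm_num) fun v _ => le_trans (mul_le_mul_of_nonneg_right (h.θ_mem v).2
      (Real.rpow_nonneg (div_nonneg (by norm_num) (by linarith [h.aa6 (lv v)])) _)) (h.th.2.2 _)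
  · unfold gg; split_ifs; exacts [h.γ0.1, le_rfl, (h.γ _).1]
  rw [ell_comm]
  unfold gg
  split_ifs with k k'
  · have := (H.own _ (E.mem v hv) _ (E.mem u hu) (by simp) (by simp)
      (fun e => huv (congrArg Term.cd e).symm) k).1
    have h1 := (ell_le_iff hQ).2 k
    have h2 := ell_pos hQ huv.symm
    rw [show lv u = lv v from this, k', ← pow_two, show ell G.Q v u = 1 by omega]
    exact h.pair0
  · rw [mul_zero, dl]; positivity
  · obtain ⟨l, h1, h2, h3, h4, -⟩ := h.lev_of ho H E hv hu k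
    rw [h1, Nat.add_sub_cancel]
    refine le_trans (mul_le_mul_of_nonneg_right ?_ (h.γ l).1) (h.pair l (by omega))
    rw [pow_two]
    exact mul_le_mul (h.aa.2 h2) (h.aa.2 h3) (by linarith [h.aa6 (lv u)]) (by linarith [h.aa6 l])

/-- the price of one target. -/
lemma price (H : Shp G m 0 z 𝒮) (hm : m ≤ G.mt) (E : Enu 𝒮 X lv x) {u : ℕ} (hu : u ∈ X) :
    Real.exp (32 * ∑ j ∈ range P.J, θ P 𝒮 lv u * (2 * γ1 P 𝒮 lv j u) ^ (1 / 8 : ℝ)) / θ P 𝒮 lv u ≤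
      ∏ t ∈ 𝒮 with t.cd = u, P.p1 t := by
  classical
  have h1 := h.one (lv u) ((H.cd _ (E.mem u hu)).2.trans hm)
  have hm' : (⟨u, lv u, .tg (x u)⟩ : Term T n) ∈ 𝒮.filter fun t => t.cd = u :=
    mem_filter.2 ⟨E.mem u hu, rfl⟩
  have hr : ∀ t ∈ (𝒮.filter fun t => t.cd = u).erase ⟨u, lv u, .tg (x u)⟩, 1 ≤ P.p1 t := by
    rintro ⟨u', l, y | _ | _ | _⟩ ht
    · obtain ⟨k1, k2⟩ := mem_erase.1 ht
      obtain ⟨k3, k4⟩ := mem_filter.1 k2
      have k5 : u' = u := k4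
      subst u'
      obtain ⟨rfl, rfl⟩ := H.tg_eq k3 (E.mem _ hu)
      exact absurd rfl k1
    exacts [h.wf1 l, le_rfl, le_rfl]
  have w0 : 0 ≤ P.wt (lv u) ^ 3 := pow_nonneg (h.wt _).1 _
  have t1 := h.th1 (lv u)
  have g0 : ∀ j, 0 ≤ (2 * P.g1 (max (lv u) (P.lev j))) ^ (1 / 8 : ℝ) := fun j =>
    Real.rpow_nonneg (by linarith [h.g1_mem (max (lv u) (P.lev j))]) _
  rw [← mul_prod_erase _ _ hm', ← mul_sum]
  change _ ≤ P.wt (lv u) ^ 3 * _
  by_cases k : Fr 𝒮 u 0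
  · obtain ⟨l0, k0, -⟩ := id k
    obtain ⟨⟨u', l, d⟩, k1', k2⟩ := exists_max_image (𝒮.filter fun t => t.cd = u ∧ t.dt = .fr)
      Term.lv ⟨_, mem_filter.2 ⟨k0, rfl, rfl⟩⟩
    obtain ⟨k1, k3, k4⟩ := mem_filter.1 k1'
    have k5 : u' = u := k3
    subst u'
    obtain rfl : d = .fr := k4
    have s1 : ∑ j ∈ range P.J, (2 * γ1 P 𝒮 lv j u) ^ (1 / 8 : ℝ) ≤ 2 * P.nc l + 1 := by
      refine (sum_le_sum (g := fun j => (if P.lev j ≤ l then 2 else 0) +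
        (2 * P.g1 (max (lv u) (P.lev j))) ^ (1 / 8 : ℝ)) fun j _ => ?_).trans ?_
      · unfold γ1
        split_ifs with a1 a2
        · refine le_add_of_le_of_nonneg ?_ (g0 j)
          simpa using Real.rpow_le_rpow_of_exponent_le (x := 2) one_le_two (show 1 / 8 ≤ 1 by norm_num)
        · obtain ⟨l', a3, a4⟩ := a1
          exact absurd (a4.trans (k2 _ (mem_filter.2 ⟨a3, rfl, rfl⟩))) a2
        · linarith
        · linarith
      · rw [sum_add_distrib, ← sum_filter, sum_const, nsmul_eq_mul, mul_comm]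
        exact add_le_add le_rfl ((le_mul_of_one_le_left (sum_nonneg fun j _ => g0 j) t1).trans h1)
    have s2 : P.wf l ^ 3 ≤ ∏ t ∈ (𝒮.filter fun t => t.cd = u).erase ⟨u, lv u, .tg (x u)⟩, P.p1 t :=
      le_trans (by simp [Pz.p1]) (prod_le_prod_of_subset_of_one_le (s := {⟨u, l, .fr⟩})
        (singleton_subset_iff.2 (mem_erase.2 ⟨by simp, mem_filter.2 ⟨k1, rfl⟩⟩))
        (by simpa [Pz.p1] using pow_nonneg (h.wf l).1 3) fun t ht _ => hr t ht)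
    rw [θ, if_pos k, div_one, one_mul]
    calc _ ≤ Real.exp 32 * Real.exp (64 * P.nc l) := by
          rw [← Real.exp_add]; exact Real.exp_le_exp.2 (by linarith)
      _ ≤ P.th l * P.wt (lv u) ^ 3 * Real.exp (64 * P.nc l) :=
          mul_le_mul_of_nonneg_right ((h.wt _).2.trans (mul_le_mul_of_nonneg_right
            (h.th.2.1 (H.tag _ _ _ _ k1 (E.mem _ hu))) w0)) (Real.exp_pos _).le
      _ ≤ _ := by
          rw [mul_comm (P.th l), mul_assoc]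
          exact mul_le_mul_of_nonneg_left ((h.wf l).2.trans s2) w0
  · have e : ∀ j, γ1 P 𝒮 lv j u = P.g1 (max (lv u) (P.lev j)) := fun j =>
      if_neg fun ⟨l', a, _⟩ => k ⟨l', a, Nat.zero_le _⟩
    simp only [e, θ, if_neg k]
    rw [div_le_iff₀' (by linarith)]
    refine (Real.exp_le_exp.2 (by linarith)).trans ((h.wt _).2.trans
      (mul_le_mul_of_nonneg_left (le_mul_of_one_le_right w0 (one_le_prod hr)) (by linarith)))

lemma prices (H : Shp G m 0 z 𝒮) (hm : m ≤ G.mt) (E : Enu 𝒮 X lv x) :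
    Real.exp (4 * (∑ j ∈ range P.J, 1 * ∑ u ∈ X with True,
      θ P 𝒮 lv u * (2 * γ1 P 𝒮 lv j u) ^ ((1 / 4 : ℝ) / 2)) / ((1 - 1 / 2) * (1 / 4))) /
      ∏ u ∈ X, θ P 𝒮 lv u ≤ ∏ t ∈ 𝒮, P.p1 t := by
  classical
  have e : ∀ a : ℝ, 4 * a / ((1 - 1 / 2) * (1 / 4)) = 32 * a := fun a => by ring
  simp only [filter_true, one_mul, e, show (1 / 4 : ℝ) / 2 = 1 / 8 by norm_num]
  rw [sum_comm, mul_sum, Real.exp_sum, ← prod_div_distrib,
    ← prod_fiberwise_of_maps_to (s := 𝒮) (t := 𝒮.image Term.cd) fun t ht => mem_image_of_mem _ ht]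
  have p0 : ∀ t : Term T n, 0 ≤ P.p1 t := by
    rintro ⟨u, l, _ | _ | _ | _⟩
    exacts [pow_nonneg (h.wt l).1 3, pow_nonneg (h.wf l).1 3, zero_le_one, zero_le_one]
  refine (prod_le_prod (fun u _ => div_nonneg (Real.exp_pos _).le
    (zero_le_one.trans (h.θ_mem u).1)) fun u hu => h.price H hm E hu).trans
    (prod_le_prod_of_subset_of_one_le (fun u hu => mem_image.2 ⟨_, E.mem u hu, rfl⟩)
      (fun u _ => prod_nonneg fun t _ => p0 t) fun u _ hu => one_le_prod ?_)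
  rintro ⟨u', l, y | _ | _ | _⟩ ht
  · obtain ⟨k2, k3⟩ := mem_filter.1 ht
    have k5 : u' = u := k3
    subst u'
    exact absurd (E.all _ _ _ k2) hu
  exacts [h.wf1 l, le_rfl, le_rfl]

end Nm

variable (S G P U Lf b 𝒮 X lv x) in
/-- allowed births. -/
def Alw (a : List (Lp T (Tor 3 L × Fin n))) (g : Lp T (Tor 3 L × Fin n)) : Prop :=
  ub b g ≠ 0 ∧ ∀ u ∈ X, pj L (x u) ∈ g.2 → TB S G (lv u) (Jc S U Lf a.toFinset) (x u).2.1 ∧
    (lv u ≠ 0 → ∃ y ∈ g.2, G.Rl (lv u - 1) < tdist (tcast L (x u).2.1) y.2.1) ∧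
    (∀ u' ∈ X, lv u' = lv u → lv u ≠ 0 → u' / G.Q ^ (lv u + 1) = u / G.Q ^ (lv u + 1) →
      pj L (x u') ∈ g.2 → u' = u) ∧
    ((∀ u' ∈ X, pj L (x u') ∈ g.2 → u ≤ u') → Fr 𝒮 u (P.lev (Nat.log 2 (wd g))) ∨
      TB S G (max (lv u) (P.lev (Nat.log 2 (wd g)))) (Jc S U Lf (insert g a.toFinset)) (x u).2.1)

variable (S G P U Lf b 𝒮 X lv x) in
open Classical in
/-- the targets covered by a birth. -/
noncomputable def cv (a : List (Lp T (Tor 3 L × Fin n))) (g : Lp T (Tor 3 L × Fin n)) : Finset ℕ :=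
  if Alw S G P b U Lf 𝒮 X lv x a g then X.filter fun u => pj L (x u) ∈ g.2 else ∅

lemma mem_cv {a : List (Lp T (Tor 3 L × Fin n))} {g : Lp T (Tor 3 L × Fin n)} {u : ℕ} :
    u ∈ cv S G P b U Lf 𝒮 X lv x a g ↔
      Alw S G P b U Lf 𝒮 X lv x a g ∧ u ∈ X ∧ pj L (x u) ∈ g.2 := by
  unfold cv; split_ifs with h <;> simp [h]

lemma real_cov (H : Shp G m 0 z 𝒮) (E : Enu 𝒮 X lv x) {l : List (Lp T (Tor 3 L × Fin n))}
    (hl : l.Nodup) (hl' : ∀ g ∈ l, g ∈ Gas.L ex ey ξ ∧ ub b g ≠ 0)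
    (R : Real S G (cf P U Lf Ev ξ) (sq l) l.length G.mt 𝒮) :
    X ⊆ covL (cv S G P b U Lf 𝒮 X lv x) [] l := by
  intro u hu
  obtain ⟨i, hi, h1, -⟩ := R.tg _ _ _ (E.mem u hu)
  have hg := fun {i} (hi : i < l.length) => hl' _ (List.getElem_mem hi)
  refine (WN.mem_covL _ _).2 ⟨l.take i, l[i], l.drop (i + 1), by simp, mem_cv.2
    ⟨⟨(hg hi).2, fun v hv h2 => ?_⟩, hu, sq_eq hi ▸ h1⟩⟩
  obtain ⟨i', hi', k1, k2, k3, k4, k5⟩ := R.tg _ _ _ (E.mem v hv)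
  rw [sq_eq hi'] at k1
  obtain rfl : i' = i := (hl.getElem_inj_iff).1 (Gas.L_eq (hg hi').1 (hg hi).1 k1 h2)
  rw [St_succ] at k5
  rw [St_sq l hi.le] at k2 k5
  rw [sq_eq hi] at k3 k4 k5
  rw [List.nil_append]
  refine ⟨k2, k3, fun u' hu' e => k4 u' (x u') (e ▸ E.mem u' hu'), fun k => k5 fun u' l' y a1 a2 => ?_⟩
  exact k u' (E.all _ _ _ a1) ((H.tg_eq a1 (E.mem u' (E.all _ _ _ a1))).2 ▸ a2)

namespace Inp
variable (I : Inp ex ey S G P p b Y U Lf Ev) (H : Shp G m 0 z 𝒮) (hm : m ≤ G.mt) (E : Enu 𝒮 X lv x)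
include I H hm E

lemma inj : Set.InjOn (fun u => pj L (x u)) X := by
  intro u hu v hv e
  by_contra hne
  have e1 : tcast L (x u).2.1 = tcast L (x v).2.1 := congrArg (fun w => w.2.1) e
  by_cases k : u / G.Q ^ (lv u + 1) = v / G.Q ^ (lv u + 1)
  · obtain ⟨-, -, y, y', k1, k2, k3, -⟩ := H.own _ (E.mem u hu) _ (E.mem v hv) (by simp) (by simp)
      (fun e => hne (congrArg Term.cd e)) k
    have := shp_dist H (I.nm.hL m hm) (E.mem u hu) (E.mem v hv) rfl rfl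
    rw [e1, tdist_self, Nat.cast_zero, dist_le_zero] at this
    cases k1; cases k2
    exact k3 (Prod.ext (congrArg (fun w => w.1) e) (Prod.ext this (congrArg (fun w => w.2.2) e)))
  · have := shp_far H (I.nm.hL m hm) (E.mem u hu) (E.mem v hv) rfl rfl le_rfl k
    rw [e1, tdist_self] at this
    omega

lemma pairs (a : List (Lp T (Tor 3 L × Fin n))) (ξ : Fin T → Bool) (l : Lp T (Tor 3 L × Fin n))
    (h0 : Pw p ξ ≠ 0) (hA : a.toFinset ⊆ Gas.L ex ey ξ) (v : ℕ)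
    (hv : v ∈ cv S G P b U Lf 𝒮 X lv x a l) (u : ℕ) (hu : u ∈ cv S G P b U Lf 𝒮 X lv x a l)
    (hne : v ≠ u) : Gc ex ey p (Bi.bs b Y) (pts a.toFinset) ξ (pj L (x v)) (pj L (x u)) ≤
      gg G P lv v u := by
  obtain ⟨hw, hv, hv'⟩ := mem_cv.1 hv
  obtain ⟨-, hu, hu'⟩ := mem_cv.1 hu
  obtain ⟨k1, -, k2, -⟩ := hw.2 v hv hv'
  unfold gg
  split_ifs with k k'
  · obtain ⟨-, -, y, y', a1, a2, -, a3⟩ := H.own _ (E.mem v hv) _ (E.mem u hu) (by simp) (by simp)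
      (fun e => hne (congrArg Term.cd e)) k
    cases a1; cases a2
    have := I.ht.lag ξ _ _ (pj L (x v)) (pj L (x u)) h0 hA (k' ▸ k1) rfl (a3 k')
    rwa [if_neg fun e => hne (I.inj H hm E hv hu e), sub_zero] at this
  · exact absurd (k2 u hu (H.own _ (E.mem v hv) _ (E.mem u hu) (by simp) (by simp)
      (fun e => hne (congrArg Term.cd e)) k).1 k' k.symm hu').symm hne
  · obtain ⟨l, h1, h2, -, h4, h5⟩ := I.nm.lev_of I.ok H E hv hu k
    rw [h1, Nat.add_sub_cancel]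
    refine I.ht.far ξ _ _ l _ _ _ h0 hA subset_rfl (by rw [ends_pts hA]; omega) (by omega)
      (TB.up k1 h2) rfl (bs_ne I.hY.1 hw.1 hv') (bs_ne I.hY.1 hw.1 hu') ?_
    have := shp_far H (I.nm.hL m hm) (E.mem v hv) (E.mem u hu) rfl rfl h2 h5
    have := (I.nm.dd l).2.1
    change _ ≤ tdist (tcast L (x v).2.1) (tcast L (x u).2.1)
    omega

lemma one {j u : ℕ} (hu : u ∈ X) (hf : ¬ Fr 𝒮 u (P.lev j)) (a : List (Lp T (Tor 3 L × Fin n))) :
    One ex ey p b Y a.toFinset (fun l => Cls j l ∧ Fst u (cv S G P b U Lf 𝒮 X lv x a l))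
      (P.g1 (max (lv u) (P.lev j))) := by
  classical
  have hx : ∀ l, Cls j l ∧ Fst u (cv S G P b U Lf 𝒮 X lv x a l) → pj L (x u) ∈ l.2 :=
    fun l h => (mem_cv.1 h.2.1).2.2
  unfold Pz.g1
  split_ifs with k
  · refine One.ret I.hp I.hb I.hY.2 I.nm.γ0.1 hx fun ξ h0 hA _ h => ?_
    have := I.ht.lag ξ _ _ (pj L (x u)) (pj L (x u)) h0 hA ((show lv u = 0 by omega) ▸
      ((mem_cv.1 h.2.1).1.2 u hu (hx _ h)).1) rfl rfl
    rwa [if_pos rfl] at this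
  generalize hl' : max (lv u) (P.lev j) = l' at k
  refine One.exit I.hp I.hb I.hY.2 (I.nm.γ l').1 (I.nm.γ l').2 hx
    (fun v => P.dd l' ≤ tdist (tcast L (x u).2.1) v.2.1) fun ξ h0 hA _ h => ?_
  have hw := (mem_cv.1 h.2.1).1
  obtain ⟨-, k1, -, k2⟩ := hw.2 u hu (hx _ h)
  rw [(Nat.log_eq_of_pow_le_of_lt_pow h.1.1 h.1.2), hl'] at k2
  have k3 := (k2 fun u' h1 h2 => h.2.2 u' (mem_cv.2 ⟨hw, h1, h2⟩)).resolve_left hf
  have d1 := (I.nm.dd l').1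
  have hO : ¬ P.dd l' ≤ tdist (tcast L (x u).2.1) (pj L (x u)).2.1 := by
    change ¬ _ ≤ tdist _ (tcast L (x u).2.1); rw [tdist_self]; omega
  obtain ⟨N, hN⟩ : ∃ N, Exit ex ey (fun v => P.dd l' ≤ tdist (tcast L (x u).2.1) v.2.1)
      (pj L (x u)) N ξ := by
    rcases le_total (lv u) (P.lev j) with k4 | k4
    · rw [max_eq_right k4] at hl'
      refine WN.exit_of_wd hO (lt_of_le_of_lt ?_ (((I.nm.lev j).2 (hl' ▸ k)).trans_le h.1.1))
      refine (card_le_card fun y hy => ?_).trans ((card_near (tcast L (x u).2.1) (P.dd l' - 1)).trans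
        (Nat.mul_le_mul_left _ (Nat.pow_le_pow_left (by rw [hl']; omega) 3)))
      simp only [mem_filter, mem_univ, true_and] at hy ⊢
      omega
    · rw [max_eq_left k4] at hl'
      obtain ⟨y, h1, h2⟩ := k1 (hl' ▸ k)
      refine WN.exists_exit hO (Gas.mem_obv.1 h1) (le_trans ?_ h2.le)
      have := (I.nm.dd (l' - 1)).2.2.1
      rw [Nat.sub_add_cancel (by omega)] at this
      rwa [hl']
  refine ⟨N, hN, I.ht.far ξ (insert (lp ex ey ξ (pj L (x u))) a.toFinset) _ l' _ _ _ h0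
    (insert_subset (Gas.lp_mem_L _ _) hA) (union_subset (Gas.pts_mono (subset_insert _ _)) fun v hv =>
      Gas.mem_pts.2 ⟨_, mem_insert_self _ _, WN.exA_sub ex ey _ N ξ hv⟩)
    ((Arc.ends_union _ _ _).trans ?_) ?_ k3 rfl (bs_ne I.hY.1 hw.1 (hx _ h))
    (bs_ne I.hY.1 hw.1 (Gas.mem_obv.2 (LY0.o_it _ _ _))) hN.2⟩
  · rw [ends_pts hA, zero_add, ← hN.Al_eq]; exact Arc.ends_Al _ _ _ _
  · have := (H.cd _ (E.mem u hu)).2
    have := (I.nm.lev j).1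
    simp only at *
    omega

omit E in
open Classical in
/-- **(TP) for a skeleton.** -/
theorem tpc : Bi.BM ex ey p b Y (fun ξ l =>
    if Real S G (cf P U Lf Ev ξ) (sq l) l.length G.mt 𝒮 then 1 else 0) ≤ ∏ t ∈ 𝒮, P.p1 t := by
  obtain ⟨X, lv, x, E⟩ := exists_Enu I.nm.hn 𝒮
  refine le_trans (Bi.Dat.MM_mono (Bi.LD_ok I.hb I.hY.1.le I.hY.2.le) (Pw_nonneg I.hp)
    fun ξ l _ hl => ?_) ((WN.tp (cov := cv S G P b U Lf 𝒮 X lv x) I.hp I.hb I.hY.1.le I.hY.2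
      (I.nm.tgt' I.ok H hm E) (I.inj H hm E) (fun a l u h => (mem_cv.1 h).2.1)
      (fun a l u h => (mem_cv.1 h).2.2) (fun _ _ _ _ _ _ _ _ => trivial) (I.pairs H hm E)
      (fun _ l _ => I.hJ l) (μ := fun _ _ => 1) (fun _ _ => ⟨zero_le_one, le_rfl⟩) (m := fun _ => 1)
      (fun _ => zero_le_one) (fun _ _ _ _ _ => le_rfl) (fun _ _ => True) (fun _ _ _ _ _ _ => trivial)
      (γ := γ1 P 𝒮 lv) (fun j u => ?_) fun j _ u hu _ => ?_).trans (I.nm.prices H hm E))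
  · rw [WN.Ph_one]
    split_ifs with k k'
    exacts [le_rfl, absurd (real_cov H E hl.1 hl.2 k) k', zero_le_one, le_rfl]
  · unfold γ1; split_ifs; exacts [zero_le_one, (I.nm.g1_mem _).1]
  · unfold γ1
    split_ifs with k
    · obtain ⟨l', k, -⟩ := k
      exact Or.inl ⟨(if_pos ⟨l', k, Nat.zero_le _⟩).le, le_rfl⟩
    · exact Or.inr ⟨(I.nm.g1_mem _).2, I.one H hm E hu k⟩

end Inp

end Crest.Agent.N337.En
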