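import Crest.Agent.N337.E.Step

/-!
# Row 337, ENG (helper92): chains of balls in `ℤ³` (walks, shells, rays)
-/

set_option autoImplicit false
set_option linter.unusedSectionVars false

namespace Crest.Agent.N337.Tb

open Finset Sd Tr

/-- centre, radius, level. -/
abbrev Sta : Type := V × ℕ × ℕ

/-- consecutive balls. -/
def Lk (a b : Sta) : Prop := 2 * dist a.1 b.1 ≤ a.2.1 ∧ b.2.1 ≤ 2 * a.2.1 ∧ a.2.1 ≤ b.2.1

/-- a chain of free balls of total cost at most `τ`. -/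
inductive Rch (Fr : Sta → Prop) (w : ℕ → ℕ → ℝ) : Sta → Sta → ℝ → Prop
  | refl (a : Sta) {τ : ℝ} : 0 ≤ τ → Rch Fr w a a τ
  | step {a b c : Sta} {τ τ' : ℝ} : Fr a → Lk a b → Rch Fr w b c τ → w a.2.1 a.2.2 + τ ≤ τ' →
      Rch Fr w a c τ'

variable {Fr : Sta → Prop} {w : ℕ → ℕ → ℝ} {a b c : Sta} {τ τ' : ℝ}

lemma Rch.mono (h : Rch Fr w a b τ) (ht : τ ≤ τ') : Rch Fr w a b τ' := by
  cases h with
  | refl _ h => exact .refl _ (h.trans ht)
  | step h1 h2 h3 h4 => exact .step h1 h2 h3 (h4.trans ht)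

lemma Rch.trans (h : Rch Fr w a b τ) (h' : Rch Fr w b c τ') : Rch Fr w a c (τ + τ') := by
  induction h with
  | refl _ h => exact h'.mono (by linarith)
  | step h1 h2 _ h4 ih => exact .step h1 h2 (ih h') (by linarith)

lemma Rch.one (h1 : Fr a) (h2 : Lk a b) : Rch Fr w a b (w a.2.1 a.2.2) :=
  .step h1 h2 (.refl _ le_rfl) (by simp)

lemma Rch.seq (h : Rch Fr w a b τ) : ∃ (N : ℕ) (f : ℕ → Sta), f 0 = a ∧ f N = b ∧ f (N + 1) = b ∧
    (∀ i < N, Fr (f i) ∧ Lk (f i) (f (i + 1))) ∧ ∑ i ∈ range N, w (f i).2.1 (f i).2.2 ≤ τ := by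
  induction h with
  | refl a h => exact ⟨0, fun _ => a, rfl, rfl, rfl, by simp, by simpa⟩
  | @step a b c τ τ' h1 h2 _ h4 ih =>
    obtain ⟨N, f, e0, e1, e2, h5, h6⟩ := ih
    refine ⟨N + 1, fun i => Nat.casesOn i a f, rfl, e1, e2, fun i hi => ?_, ?_⟩
    · rcases i with _ | i
      · exact ⟨h1, by simpa [e0] using h2⟩
      · exact h5 i (by omega)
    · rw [sum_range_succ']
      simp only [Nat.rec_zero]
      linarith

lemma dist_walk {γ : ℕ → V} {Q : ℕ} (h : ∀ k, dist (γ k) (γ (k + 1)) ≤ Q) (a j : ℕ) :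
    dist (γ a) (γ (a + j)) ≤ (j * Q : ℕ) := by
  induction j with
  | zero => simp
  | succ j ih =>
    have := dist_triangle (γ a) (γ (a + j)) (γ (a + j + 1))
    have := h (a + j)
    push_cast at *
    rw [← add_assoc]
    linarith

/-- a walk at constant radius. -/
lemma walk {γ : ℕ → V} {Q r μ M i j : ℕ} (hw : 0 ≤ w r μ) (hQ : 1 ≤ Q) (hr : 2 * Q ≤ r)
    (h : ∀ k, dist (γ k) (γ (k + 1)) ≤ Q) (hij : i ≤ j) (hM : j ≤ i + M * r)
    (hF : ∀ k, i ≤ k → k ≤ j → Fr (γ k, r, μ)) :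
    Rch Fr w (γ i, r, μ) (γ j, r, μ) (4 * Q * M * w r μ) := by
  set Δ := r / (2 * Q) with hΔ
  have h1 : Δ * (2 * Q) ≤ r := Nat.div_mul_le_self _ _
  have h2 : r < Δ * (2 * Q) + 2 * Q := by
    have := Nat.lt_div_mul_add (a := r) (show 0 < 2 * Q by omega); omega
  have h3 : 1 ≤ Δ := (Nat.le_div_iff_mul_le (by omega)).2 (by omega)
  have key : ∀ m i, i ≤ j → j ≤ i + m * Δ → (∀ k, i ≤ k → k ≤ j → Fr (γ k, r, μ)) →
      Rch Fr w (γ i, r, μ) (γ j, r, μ) (m * w r μ) := by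
    intro m
    induction m with
    | zero => intro i a1 a2 _; rw [show i = j by omega]; exact .refl _ (by simp)
    | succ m ih =>
      intro i a1 a2 a3
      obtain ⟨t, t1, t2, t3⟩ : ∃ t, t ≤ Δ ∧ i + t ≤ j ∧ j ≤ i + t + m * Δ :=
        ⟨min Δ (j - i), by omega, by omega, by rw [add_mul] at a2; omega⟩
      refine .step (b := (γ (i + t), r, μ)) (a3 i le_rfl a1) ⟨?_, by simp only; omega, le_rfl⟩
        (ih (i + t) t2 t3 fun k k1 k2 => a3 k (by omega) k2) (by push_cast; linarith)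
      have a4 := dist_walk h i t
      have a5 : 2 * (t * Q) ≤ r := by nlinarith
      have a6 : (2 * (t * Q : ℕ) : ℝ) ≤ r := by exact_mod_cast a5
      simp only
      linarith
  have := key (4 * Q * M) i hij (hM.trans (by
    have : r ≤ 4 * Q * Δ := by nlinarith
    nlinarith)) hF
  simpa using this

/-- a move inside the box spanned by the two ends. -/
lemma move {r μ M : ℕ} (hw : 0 ≤ w r μ) (hr : 2 ≤ r) {y y' : V} (hM : dist y y' ≤ (M * r : ℕ))
    (hF : ∀ p : V, (∀ i, min (y i) (y' i) ≤ p i ∧ p i ≤ max (y i) (y' i)) → Fr (p, r, μ)) :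
    Rch Fr w (y, r, μ) (y', r, μ) (4 * M * w r μ) := by
  set γ : ℕ → V := fun k i => if y i ≤ y' i then min (y i + k) (y' i) else max (y i - k) (y' i)
  have h0 : γ 0 = y := funext fun i => by simp only [γ]; split_ifs <;> omega
  have h1 : γ (M * r) = y' := funext fun i => by
    have := dist_le_iff.1 hM i
    simp only [γ]; split_ifs <;> omega
  have := walk (Fr := Fr) (γ := γ) (Q := 1) (M := M) (i := 0) (j := M * r) hw le_rfl hr
    (fun k => dist_le_iff.2 fun i => by simp only [γ]; split_ifs <;> omega) (Nat.zero_le _)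
    (by omega) fun k _ _ => hF _ fun i => by simp only [γ]; split_ifs <;> omega
  rw [h0, h1] at this
  simpa using this

/-- the shell `D ≤ |p - x| ≤ 2 D`. -/
def Sh (x : V) (D : ℕ) (p : V) : Prop := (D : ℝ) ≤ dist p x ∧ dist p x ≤ (2 * D : ℕ)

lemma le_dist_iff {u v : V} {r : ℕ} (hr : 1 ≤ r) :
    (r : ℝ) ≤ dist u v ↔ ∃ a, r ≤ (u a - v a).natAbs := by
  obtain ⟨r, rfl⟩ : ∃ r', r = r' + 1 := ⟨r - 1, by omega⟩
  obtain ⟨t, ht⟩ := exists_nat u v
  have := dist_le_iff (u := u) (v := v) (r := r)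
  rw [ht, Nat.cast_le] at *
  constructor
  · intro h
    by_contra h1
    push Not at h1
    have := this.2 fun a => by have := h1 a; omega
    omega
  · rintro ⟨a, h⟩
    by_contra h1
    have := this.1 (by omega) a
    omega

/-- shells are connected. -/
lemma shell {r μ M D : ℕ} (hw : 0 ≤ w r μ) (hr : 2 ≤ r) (hD : 1 ≤ D) (hM : 4 * D ≤ M * r)
    {x y y' : V} (hy : Sh x D y) (hy' : Sh x D y') (hF : ∀ p, Sh x D p → Fr (p, r, μ)) :
    Rch Fr w (y, r, μ) (y', r, μ) (12 * M * w r μ) := by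
  obtain ⟨a, ha⟩ := (le_dist_iff hD).1 hy.1
  obtain ⟨a', ha'⟩ := (le_dist_iff hD).1 hy'.1
  obtain ⟨b, b1, b2⟩ := (by decide : ∀ a a' : Fin 3, ∃ b : Fin 3, b ≠ a ∧ b ≠ a') a a'
  have k := dist_le_iff.1 hy.2
  have k' := dist_le_iff.1 hy'.2
  have mv : ∀ (u u' : V) (e : Fin 3), (∀ i, (u i - x i).natAbs ≤ 2 * D) →
      (∀ i, (u' i - x i).natAbs ≤ 2 * D) → u e = u' e → D ≤ (u e - x e).natAbs →
      Rch Fr w (u, r, μ) (u', r, μ) (4 * M * w r μ) := fun u u' e c1 c2 c3 c4 =>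
    move hw hr (dist_le_iff.2 fun i => by have := c1 i; have := c2 i; omega) fun p hp =>
      hF p ⟨(le_dist_iff hD).2 ⟨e, by have := hp e; omega⟩, dist_le_iff.2 fun i => by
        have := c1 i; have := c2 i; have := hp i; omega⟩
  have up : ∀ u : V, (∀ i, (u i - x i).natAbs ≤ 2 * D) →
      ∀ i, (Function.update u b (x b + D) i - x i).natAbs ≤ 2 * D := fun u hu i => by
    by_cases h : i = b
    · subst h; rw [Function.update_self]; omega
    · rw [Function.update_of_ne h]; exact hu i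
  have := ((mv _ _ a k (up _ k) (by rw [Function.update_of_ne b1.symm]) ha).trans
    (mv _ _ b (up _ k) (up _ k') (by simp) (by rw [Function.update_self]; omega))).trans
    (mv _ _ a' (up _ k') k' (by rw [Function.update_of_ne b2.symm])
      (by rwa [Function.update_of_ne b2.symm]))
  exact this.mono (by linarith)

/-- doubling along a ray. -/
lemma dbl {γ : ℕ → V} {Q μ i : ℕ} (hw : ∀ r, 0 ≤ w r μ)
    (hw2 : ∀ r, 2 ≤ r → 4 * w (2 * r) μ ≤ 3 * w r μ) (hQ : 1 ≤ Q) (hr : 2 * Q ≤ 2 ^ i)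
    (h : ∀ k, dist (γ k) (γ (k + 1)) ≤ Q) (j : ℕ) (hij : i ≤ j)
    (hF : ∀ t k, i ≤ t → t < j → 8 * 2 ^ t ≤ k → k ≤ 16 * 2 ^ t → Fr (γ k, 2 ^ t, μ)) :
    Rch Fr w (γ (8 * 2 ^ i), 2 ^ i, μ) (γ (8 * 2 ^ j), 2 ^ j, μ)
      (132 * Q * (w (2 ^ i) μ - w (2 ^ j) μ)) := by
  induction j, hij using Nat.le_induction with
  | base => exact .refl _ (by simp)
  | succ j hij ih =>
    have a0 : 2 ^ i ≤ 2 ^ j := Nat.pow_le_pow_right two_pos hij
    have a1 := walk (Fr := Fr) (γ := γ) (M := 8) (i := 8 * 2 ^ j) (j := 16 * 2 ^ j) (hw (2 ^ j)) hQ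
      (hr.trans a0) h (by omega) (by omega) fun k k1 k2 => hF j k hij (by omega) k1 k2
    have a2 : Rch Fr w (γ (16 * 2 ^ j), 2 ^ j, μ) (γ (8 * 2 ^ (j + 1)), 2 ^ (j + 1), μ) _ :=
      .one (hF j _ hij (by omega) (by omega) le_rfl)
        ⟨by rw [show 8 * 2 ^ (j + 1) = 16 * 2 ^ j by ring]; simp, by simp only; omega,
          by simp only; omega⟩
    refine (((ih fun t k t1 t2 => hF t k t1 (by omega)).trans a1).trans a2).mono ?_
    have a3 := hw2 (2 ^ j) (by omega)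
    rw [← pow_succ'] at a3
    have a4 := hw (2 ^ j)
    have a5 : (1 : ℝ) ≤ Q := by exact_mod_cast hQ
    push_cast
    nlinarith

/-! ### rays in a cone -/

/-- the ray of slope `k / Q`. -/
def ray (s : V) (e : Fin 3 × Bool) (Q k n : ℕ) : V := fun i =>
  s i + n * (if i = e.1 then (if e.2 then (Q : ℤ) else -Q) else if i = e.1 + 1 then k else 0)

variable {s p : V} {e : Fin 3 × Bool} {Q k n : ℕ}

lemma ray_ax : (ray s e Q k n e.1 - s e.1) = if e.2 then (n * Q : ℤ) else -(n * Q) := by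
  simp only [ray, if_true]; split_ifs <;> ring

lemma ray_tr : (ray s e Q k n (e.1 + 1) - s (e.1 + 1)) = n * k := by
  have : e.1 + 1 ≠ e.1 := by generalize e.1 = a; revert a; decide
  simp [ray, this]

lemma ray_ne {i : Fin 3} (h : i ≠ e.1) : (ray s e Q k n i - s i).natAbs ≤ n * k := by
  simp only [ray, if_neg h]
  split_ifs <;> simp [Int.natAbs_mul]

lemma ray_step (hk : k ≤ Q) (n : ℕ) : dist (ray s e Q k n) (ray s e Q k (n + 1)) ≤ Q :=
  dist_le_iff.2 fun i => by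
    simp only [ray]
    push_cast
    split_ifs <;> rw [add_mul] <;> omega

lemma ray_dist (hk : k ≤ Q) : dist (ray s e Q k n) s = (n * Q : ℕ) := by
  refine le_antisymm (dist_le_iff.2 fun i => ?_) ?_
  · by_cases h : i = e.1
    · rw [h, ray_ax, ← Nat.cast_mul]; split_ifs <;> omega
    · exact (ray_ne h).trans (Nat.mul_le_mul_left _ hk)
  · rcases Nat.eq_zero_or_pos (n * Q) with h | h
    · rw [h]; simp
    · exact (le_dist_iff h).2 ⟨e.1, by rw [ray_ax, ← Nat.cast_mul]; split_ifs <;> omega⟩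

/-- the neighbourhood of a ray lies in the cone. -/
lemma ray_cone (hk : 2 * k ≤ Q) (hQ : 1 ≤ Q) {t : ℕ} (ht : 4 * t ≤ n)
    (h : dist p (ray s e Q k n) ≤ t) : dist p s ≤ hgt e p - hgt e s := by
  have h1 := dist_le_iff.1 h
  have h2 := h1 e.1
  have h3 := ray_ax (s := s) (e := e) (Q := Q) (k := k) (n := n)
  have h4 : 2 * (n * k) ≤ n * Q := by nlinarith
  have h5 : n ≤ n * Q := by nlinarith
  rw [← Nat.cast_mul] at h3
  have : hgt e p - hgt e s = ((p e.1 - s e.1).natAbs : ℕ) := by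
    rw [← Int.cast_natCast]
    unfold hgt
    split_ifs at h3 ⊢
    · rw [← Int.cast_sub]; congr 1; omega
    · rw [← Int.cast_neg, ← Int.cast_neg, ← Int.cast_sub]; congr 1; omega
  rw [this]
  refine dist_le_iff.2 fun i => ?_
  by_cases hi : i = e.1
  · rw [hi]
  · have := h1 i
    have := ray_ne (s := s) (Q := Q) (k := k) (n := n) hi
    split_ifs at h3 <;> omega

/-- a far ball meets at most one ray. -/
lemma ray_far {c : ℕ} (hc : 12 * Q + 5 ≤ c) {z p' : V} {v : ℝ} (hz : c * v ≤ dist s z)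
    {k' n' t t' : ℕ} (hk : 2 * k ≤ Q) (hk' : 2 * k' ≤ Q) (hn : n ≤ n') (hn' : 1 ≤ n')
    (ht : 4 * t ≤ n) (ht' : 4 * t' ≤ n') (h : dist p (ray s e Q k n) ≤ t)
    (h' : dist p' (ray s e Q k' n') ≤ t') (hp : dist p z ≤ v) (hp' : dist p' z ≤ v) : k = k' := by
  by_contra hne
  obtain ⟨Δ, hΔ⟩ := exists_nat (ray s e Q k n) (ray s e Q k' n')
  have a1 := dist_triangle4 (ray s e Q k n) p z (ray s e Q k' n')
  have a2 := dist_triangle z p' (ray s e Q k' n')
  have a3 := dist_triangle4 s (ray s e Q k' n') p' z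
  rw [dist_comm s (ray s e Q k' n'), ray_dist (by omega), dist_comm _ p'] at a3
  rw [dist_comm _ p] at a1
  rw [dist_comm z p'] at a2
  have b1 := dist_le_iff.1 hΔ.le e.1
  have b2 := dist_le_iff.1 hΔ.le (e.1 + 1)
  have b3 := ray_ax (s := s) (e := e) (Q := Q) (k := k) (n := n)
  have b4 := ray_ax (s := s) (e := e) (Q := Q) (k := k') (n := n')
  have b5 := ray_tr (s := s) (e := e) (Q := Q) (k := k) (n := n)
  have b6 := ray_tr (s := s) (e := e) (Q := Q) (k := k') (n := n')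
  obtain ⟨m, rfl⟩ := Nat.exists_eq_add_of_le hn
  rw [← Nat.cast_mul] at b3 b4 b5 b6
  rw [add_mul] at b4 b6
  have c1 : m * Q ≤ Δ := by split_ifs at b3 b4 <;> omega
  have c2 : 2 * (m * k) ≤ m * Q := by nlinarith
  have c3 : 2 * (n + m) ≤ 3 * Δ := by
    rcases lt_or_gt_of_ne hne with h1 | h1
    · have : n * k + m * k + (n + m) ≤ n * k' + m * k' := by nlinarith
      omega
    · have : n * k' + m * k' + (n + m) ≤ n * k + m * k := by nlinarith
      omega
  have d1 : (2 * (n + m) : ℝ) ≤ 3 * Δ := by exact_mod_cast c3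
  have d2 : (4 * t : ℝ) ≤ n := by exact_mod_cast ht
  have d3 : (4 * t' : ℝ) ≤ n + m := by exact_mod_cast ht'
  have d4 : (1 : ℝ) ≤ n + m := by exact_mod_cast hn'
  have d5 : (12 * Q + 5 : ℝ) ≤ c := by exact_mod_cast hc
  have d6 : (0 : ℝ) ≤ m := Nat.cast_nonneg _
  have d7 : (0 : ℝ) ≤ Q := Nat.cast_nonneg _
  push_cast at a3
  have e1 : (n + m : ℝ) ≤ 12 * v := by linarith
  nlinarith

/-- a ray that misses all far balls. -/
lemma exists_ray {c q : ℕ} (hc : 12 * Q + 5 ≤ c) (hq : 2 * q ≤ Q) {F : Finset (V × ℝ)}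
    (hF : F.card ≤ q) (hz : ∀ B ∈ F, c * B.2 ≤ dist s B.1) : ∃ k, 2 * k ≤ Q ∧
      ∀ (n t : ℕ) p, 1 ≤ n → 4 * t ≤ n → dist p (ray s e Q k n) ≤ t → ∀ B ∈ F, B.2 < dist p B.1 := by
  by_contra h
  push Not at h
  choose! n t p h1 h2 h3 B h4 h5 using h
  have := card_le_card_of_injOn (s := range (q + 1)) (t := F) B
    (fun k hk => h4 k (by simp at hk; omega)) fun k hk k' hk' hB => by
      have a : 2 * k ≤ Q := by simp at hk; omega
      have a' : 2 * k' ≤ Q := by simp at hk'; omega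
      have b' := h5 k' a'
      rw [← hB] at b'
      rcases le_total (n k) (n k') with h | h
      · exact ray_far hc (hz _ (h4 k a)) a a' h (h1 k' a') (h2 k a) (h2 k' a') (h3 k a) (h3 k' a')
          (h5 k a) b'
      · exact (ray_far hc (hz _ (h4 k a)) a' a h (h1 k a) (h2 k' a') (h2 k a) (h3 k' a') (h3 k a)
          b' (h5 k a)).symm
  rw [card_range] at this
  omega

end Crest.Agent.N337.Tb
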