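import Crest.Agent.N337.W.Env
import Crest.Agent.N337.Top.Kill

/-!
# Row 337, ENG leaves (helper86): one strand is a Markov chain

During its first lap the arc from `u` reads every coin once, so it is the Markov chain with kernel
`Kb`.  `walk`: the probability of `k` prescribed visits is at most `Γ ^ k` when the Green function
from one target set to the next one has mass at most `Γ`.
-/

set_option autoImplicit false
set_option linter.unusedSectionVars false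

namespace Crest.Agent.N337.Wk

open Finset Equiv Matrix Crest.Agent.N337.Rep Crest.Agent.N337.LY0 Crest.Agent.N337.Arc WN

variable {Λ : Type} [Fintype Λ] [DecidableEq Λ] {T : ℕ} [NeZero T] (ex ey : Fin T → Λ)
  {p : Fin T → ℝ} {b : Fin T × Λ → ℝ}

/-- the coins of the first `i` steps after the time of `u`. -/
def Past (u : Fin T × Λ) (i : ℕ) : Finset (Fin T) :=
  univ.filter fun s => ∃ j < i, s.val = (u.1.val + j) % T

lemma Past_mono (u : Fin T × Λ) {i j : ℕ} (h : i ≤ j) : Past u i ⊆ Past u j := fun s hs => by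
  simp only [Past, mem_filter, mem_univ, true_and] at hs ⊢
  obtain ⟨l, h1, h2⟩ := hs
  exact ⟨l, h1.trans_le h, h2⟩

lemma arc_past {u : Fin T × Λ} {i : ℕ} {ξ ξ' : Fin T → Bool} (h : ∀ s ∈ Past u i, ξ' s = ξ s) :
    ∀ j ≤ i, arc ex ey u ξ' j = arc ex ey u ξ j := by
  intro j
  induction j with
  | zero => intro; rfl
  | succ j ih =>
    intro hj
    rw [arc_succ, arc_succ, ih (by omega)]
    have := h (arc ex ey u ξ j).1 (mem_filter.2 ⟨mem_univ _, j, hj, arc_time ex ey u ξ j⟩)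
    generalize arc ex ey u ξ j = v at this ⊢
    obtain ⟨s, x⟩ := v
    rw [Sg_apply, Sg_apply, this]

lemma not_past (u : Fin T × Λ) (ξ : Fin T → Bool) {i : ℕ} (hi : i < T) :
    (arc ex ey u ξ i).1 ∉ Past u i := by
  simp only [Past, mem_filter, mem_univ, true_and, arc_time, not_exists, not_and]
  intro j hj h
  have h1 : i ≡ j [MOD T] := Nat.ModEq.add_left_cancel' _ h
  have := Nat.ModEq.eq_of_lt_of_lt h1 hi (hj.trans hi)
  omega

lemma ex_coin (p : Fin T → ℝ) (s : Fin T) (φ : Bool → ℝ) :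
    PH.ex (pb p) (fun ξ => φ (ξ s)) = p s * φ true + (1 - p s) * φ false := by
  have h := Fintype.prod_sum fun (r : Fin T) (c : Bool) => wb (p r) c * if r = s then φ c else 1
  simp only [prod_mul_distrib, prod_ite_eq', mem_univ, if_true] at h
  refine h.symm.trans ?_
  rw [prod_eq_single s (fun r _ hr => by simp [wb, hr]) (by simp)]
  simp [wb]

lemma ex_step (p : Fin T → ℝ) (h : Fin T × Λ → ℝ) (y : Fin T × Λ) :
    PH.ex (pb p) (fun ξ => h (Sg ex ey ξ y)) = ∑ v, h v * Kb ex ey p v y := by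
  obtain ⟨s, x⟩ := y
  rw [Fintype.sum_prod_type, sum_eq_single (s + 1) (fun r _ hr => by simp [Kb_apply, hr]) (by simp)]
  have := ex_coin p s fun c => h (s + 1, sg (ex s) (ey s) c x)
  simp only [Sg_apply, this, Kb_apply, if_true, mul_add, sum_add_distrib, mul_ite, mul_one,
    mul_zero, sum_ite_eq', mem_univ]
  simp [sg]; ring

/-- **Markov property** during the first lap. -/
lemma markov (hp : ∀ s, 0 ≤ p s ∧ p s ≤ 1) (u : Fin T × Λ) {i : ℕ} (hi : i < T)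
    {F : (Fin T → Bool) → ℝ} (hF : PH.Meas (E := fun _ => Bool) (fun _ => Past u i) F)
    (h : Fin T × Λ → Fin T × Λ → ℝ) :
    PH.ex (pb p) (fun ξ => F ξ * h (arc ex ey u ξ i) (arc ex ey u ξ (i + 1))) =
      PH.ex (pb p) fun ξ => F ξ * ∑ v, h (arc ex ey u ξ i) v * Kb ex ey p v (arc ex ey u ξ i) := by
  have e : ∀ (G : (Fin T → Bool) → Fin T × Λ → ℝ) ξ, F ξ * G ξ (arc ex ey u ξ i) =
      ∑ y, (F ξ * if arc ex ey u ξ i = y then 1 else 0) * G ξ y := fun G ξ => by simp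
  simp only [arc_succ]
  rw [funext (e fun ξ y => h y (Sg ex ey ξ y)),
    funext (e fun _ y => ∑ v, h y v * Kb ex ey p v y), PH.ex_sum, PH.ex_sum]
  refine sum_congr rfl fun y _ => ?_
  by_cases hy : y.1 ∈ Past u i
  · have : ∀ ξ, arc ex ey u ξ i ≠ y := fun ξ k => not_past ex ey u ξ hi (k ▸ hy)
    simp [this]
  have hm : PH.Meas (E := fun _ => Bool) (fun _ => Past u i)
      fun ξ => F ξ * if arc ex ey u ξ i = y then 1 else 0 := fun ξ ξ' k => by
    beta_reduce; rw [hF ξ ξ' k, arc_past ex ey k i le_rfl]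
  rw [Top.Kill.indep (pr_pb hp) _ hm, Top.Kill.indep (pr_pb hp) _ hm fun _ _ _ => rfl, ex_step,
    (pr_pb hp).ex_const]
  intro ξ ξ' k
  obtain ⟨s, x⟩ := y
  rw [Sg_apply, Sg_apply, k s hy]

/-- superharmonic functions give supermartingales. -/
lemma super (hp : ∀ s, 0 ≤ p s ∧ p s ≤ 1) (hb : ∀ v, 0 ≤ b v) (u : Fin T × Λ) {φ : Fin T × Λ → ℝ}
    (hφ : ∀ y, b y * ∑ v, φ v * Kb ex ey p v y ≤ φ y) {i0 : ℕ} {F : (Fin T → Bool) → ℝ}
    (hF : PH.Meas (E := fun _ => Bool) (fun _ => Past u i0) F) (h0 : ∀ ξ, 0 ≤ F ξ) {i : ℕ}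
    (h1 : i0 ≤ i) (hi : i ≤ T) :
    PH.ex (pb p) (fun ξ => (F ξ * ∏ j ∈ Ico i0 i, b (arc ex ey u ξ j)) * φ (arc ex ey u ξ i)) ≤
      PH.ex (pb p) fun ξ => F ξ * φ (arc ex ey u ξ i0) := by
  induction i, h1 using Nat.le_induction with
  | base => simp
  | succ i h1 ih =>
    refine le_trans ?_ (ih (by omega))
    rw [markov ex ey hp u hi _ fun _ => φ]
    · refine (pr_pb hp).ex_mono fun ξ => ?_
      rw [prod_Ico_succ_top h1, ← mul_assoc, mul_assoc _ (b _)]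
      exact mul_le_mul_of_nonneg_left (hφ _) (mul_nonneg (h0 ξ) (prod_nonneg fun _ _ => hb _))
    · intro ξ ξ' k
      beta_reduce
      rw [hF ξ ξ' fun s hs => k s (Past_mono u h1 hs)]
      congr 1
      exact prod_congr rfl fun j hj => by
        rw [arc_past ex ey k j (Nat.lt_succ_iff.1 (mem_Ico.1 hj).2)]

/-- multiplicative supermartingales. -/
lemma mart (hp : ∀ s, 0 ≤ p s ∧ p s ≤ 1) (u : Fin T × Λ) {a : Fin T × Λ → Fin T × Λ → ℝ}
    (h0 : ∀ y v, 0 ≤ a y v) (ha : ∀ y, ∑ v, a y v * Kb ex ey p v y ≤ 1) {i : ℕ} (hi : i ≤ T) :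
    PH.ex (pb p) (fun ξ => ∏ j ∈ range i, a (arc ex ey u ξ j) (arc ex ey u ξ (j + 1))) ≤ 1 := by
  induction i with
  | zero => simpa using ((pr_pb hp).ex_const 1).le
  | succ i ih =>
    refine le_trans ?_ (ih (by omega))
    simp only [prod_range_succ]
    rw [markov ex ey hp u hi _ a]
    · exact (pr_pb hp).ex_mono fun ξ =>
        mul_le_of_le_one_right (prod_nonneg fun _ _ => h0 _ _) (ha _)
    · exact fun ξ ξ' k => prod_congr rfl fun j hj => by
        rw [arc_past ex ey k j (mem_range.1 hj).le, arc_past ex ey k (j + 1) (mem_range.1 hj)]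

/-- the coins off `A` are switched off. -/
def lc (A : Finset (Fin T)) (ξ : Fin T → Bool) : Fin T → Bool :=
  PH.pw (E := fun _ => Bool) Aᶜ (fun _ => false) ξ

/-- their law. -/
def lq (p : Fin T → ℝ) (A : Finset (Fin T)) : Fin T → ℝ := pin p Aᶜ fun _ => false

lemma lc_mem {A : Finset (Fin T)} (ξ : Fin T → Bool) {s : Fin T} (h : s ∈ A) : lc A ξ s = ξ s :=
  PH.pw_not _ _ (by simpa using h)

lemma lc_true {A : Finset (Fin T)} {ξ : Fin T → Bool} {s : Fin T} :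
    lc A ξ s = true ↔ s ∈ A ∧ ξ s = true := by
  by_cases h : s ∈ A
  · simp [lc_mem ξ h, h]
  · simp [lc, h]

lemma lq_eq (p : Fin T → ℝ) (A : Finset (Fin T)) (s : Fin T) :
    lq p A s = if s ∈ A then p s else 0 := by
  by_cases h : s ∈ A <;> simp [lq, pin, h]

lemma lq_mem (hp : ∀ s, 0 ≤ p s ∧ p s ≤ 1) (A : Finset (Fin T)) (s : Fin T) :
    0 ≤ lq p A s ∧ lq p A s ≤ 1 := pin_mem hp _ _ s

lemma ex_lc (p : Fin T → ℝ) (A : Finset (Fin T)) (f : (Fin T → Bool) → ℝ) :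
    PH.ex (pb p) (fun ξ => f (lc A ξ)) = PH.ex (pb (lq p A)) f := C_pin Aᶜ f _

lemma lc_congr {A B : Finset (Fin T)} (hA : A ⊆ B) {ξ ξ' : Fin T → Bool}
    (h : ∀ s ∈ B, ξ' s = ξ s) : lc A ξ' = lc A ξ := funext fun s => by
  by_cases hs : s ∈ A
  · rw [lc_mem _ hs, lc_mem _ hs, h s (hA hs)]
  · simp [lc, hs]

lemma Pw_lc {A : Finset (Fin T)} {ξ : Fin T → Bool} (h : Pw p ξ ≠ 0) :
    Pw (lq p A) (lc A ξ) ≠ 0 := prod_ne_zero_iff.2 fun s _ => by
  by_cases hs : s ∈ A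
  · rw [lc_mem _ hs, lq_eq, if_pos hs]; exact prod_ne_zero_iff.1 h s (mem_univ s)
  · simp [lq_eq, lc, hs, wb]

open Classical in
/-- probability of an event of the coins. -/
noncomputable def Pe (p : Fin T → ℝ) (E : (Fin T → Bool) → Prop) : ℝ :=
  PH.ex (pb p) fun ξ => if E ξ then 1 else 0

lemma Pe_le (hp : ∀ s, 0 ≤ p s ∧ p s ≤ 1) {E : (Fin T → Bool) → Prop} {f : (Fin T → Bool) → ℝ}
    (h0 : ∀ ξ, 0 ≤ f ξ) (h1 : ∀ ξ, E ξ → 1 ≤ f ξ) : Pe p E ≤ PH.ex (pb p) f :=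
  (pr_pb hp).ex_mono fun ξ => by split_ifs with h; exacts [h1 ξ h, h0 ξ]

lemma Pe_nonneg (hp : ∀ s, 0 ≤ p s ∧ p s ≤ 1) (E : (Fin T → Bool) → Prop) : 0 ≤ Pe p E :=
  (pr_pb hp).ex_nn fun ξ => by split_ifs <;> norm_num

/-- union bound. -/
lemma Pe_union (hp : ∀ s, 0 ≤ p s ∧ p s ≤ 1) {ι : Type} (I : Finset ι)
    {E : (Fin T → Bool) → Prop} (E' : ι → (Fin T → Bool) → Prop) {ε : ℝ} {M : ℕ} (h0 : 0 ≤ ε)
    (h : ∀ ξ, E ξ → ∃ i ∈ I, E' i ξ) (h' : ∀ i ∈ I, Pe p (E' i) ≤ ε) (hM : I.card ≤ M) :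
    Pe p E ≤ M * ε := by
  classical
  have k : ∀ (i : ι) ξ, (0 : ℝ) ≤ if E' i ξ then 1 else 0 := fun i ξ => by split_ifs <;> norm_num
  refine (Pe_le hp (f := fun ξ => ∑ i ∈ I, if E' i ξ then 1 else 0)
    (fun ξ => sum_nonneg fun i _ => k i ξ) fun ξ hξ => ?_).trans ?_
  · obtain ⟨i, hi, h1⟩ := h ξ hξ
    simpa only [if_pos h1] using single_le_sum (fun i _ => k i ξ) hi
  · rw [PH.ex_sum]
    refine (sum_le_card_nsmul _ _ ε fun i hi => le_trans (le_of_eq ?_) (h' i hi)).trans ?_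
    · unfold Pe; congr
    · rw [nsmul_eq_mul]; exact mul_le_mul_of_nonneg_right (Nat.cast_le.2 hM) h0

lemma Pe_or (hp : ∀ s, 0 ≤ p s ∧ p s ≤ 1) (E E' : (Fin T → Bool) → Prop) :
    Pe p (fun ξ => E ξ ∨ E' ξ) ≤ Pe p E + Pe p E' := by
  classical
  rw [Pe, Pe, Pe, ← PH.ex_add]
  refine (pr_pb hp).ex_mono fun ξ => ?_
  by_cases h : E ξ <;> by_cases h' : E' ξ <;> simp [h, h']

lemma Pe_lc (p : Fin T → ℝ) (A : Finset (Fin T)) (E : (Fin T → Bool) → Prop) :
    Pe p (fun ξ => E (lc A ξ)) = Pe (lq p A) E := by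
  classical
  exact ex_lc p A fun ξ => if E ξ then 1 else 0

lemma Gi_super (hp : ∀ s, 0 ≤ p s ∧ p s ≤ 1) (hb : Fld b) (S : Finset (Fin T × Λ)) (y : Fin T × Λ) :
    (if y ∈ S then 1 else 0) + b y * ∑ v, (∑ z ∈ S, Gi ex ey p b z v) * Kb ex ey p v y =
      ∑ z ∈ S, Gi ex ey p b z y := by
  have h := fun z => congrFun (congrFun (Gi_mul ex ey (Zg_pos ex ey hp hb).ne') z) y
  simp only [mul_apply, diagonal_apply, mul_ite, mul_zero, sum_ite_eq', mem_univ, if_true,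
    Matrix.sub_apply, one_apply] at h
  simp only [sum_mul, mul_sum]
  rw [sum_comm, ← sum_ite_eq' S y fun _ => (1 : ℝ), ← sum_add_distrib]
  refine sum_congr rfl fun z _ => ?_
  rw [eq_comm, ← sub_eq_iff_eq_add', ← h z]
  exact sum_congr rfl fun v _ => by ring

open Classical in
/-- **prescribed visits.** -/
theorem walk (hp : ∀ s, 0 ≤ p s ∧ p s ≤ 1) (hb : Fld b) (u : Fin T × Λ) {t : ℕ → ℕ}
    (ht : Monotone t) (S : ℕ → Finset (Fin T × Λ)) {Γ : ℝ} (hΓ : 0 ≤ Γ) (k : ℕ) (hk : t k ≤ T)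
    (hS : ∀ a < k, ∀ y ∈ S a, ∑ z ∈ S (a + 1), Gi ex ey p b z y ≤ Γ) :
    PH.ex (pb p) (fun ξ => (if ∀ a ≤ k, arc ex ey u ξ (t a) ∈ S a then 1 else 0) *
      ∏ j ∈ Ico (t 0) (t k), b (arc ex ey u ξ j)) ≤ Γ ^ k := by
  have hb0 : ∀ v, 0 ≤ b v := fun v => (hb.mem v).1
  induction k with
  | zero =>
    refine ((pr_pb hp).ex_mono fun ξ => ?_).trans ((pr_pb hp).ex_const 1).le
    split_ifs <;> simp
  | succ k ih =>
    have h1 : t k ≤ t (k + 1) := ht k.le_succ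
    have h2 : t 0 ≤ t k := ht k.zero_le
    set F : (Fin T → Bool) → ℝ := fun ξ => (if ∀ a ≤ k, arc ex ey u ξ (t a) ∈ S a then 1 else 0) *
      ∏ j ∈ Ico (t 0) (t k), b (arc ex ey u ξ j) with hFd
    have h0 : ∀ ξ, 0 ≤ F ξ := fun ξ =>
      mul_nonneg (by split_ifs <;> norm_num) (prod_nonneg fun _ _ => hb0 _)
    have hG : ∀ y, 0 ≤ b y * ∑ v, (∑ z ∈ S (k + 1), Gi ex ey p b z v) * Kb ex ey p v y := fun y =>
      mul_nonneg (hb0 y) (sum_nonneg fun v _ => mul_nonneg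
        (sum_nonneg fun z _ => Gi_nonneg ex ey hp hb z v) (Kb_nonneg ex ey hp v y))
    have hF : PH.Meas (E := fun _ => Bool) (fun _ => Past u (t k)) F := fun ξ ξ' h => by
      have e : (∀ a ≤ k, arc ex ey u ξ' (t a) ∈ S a) ↔ ∀ a ≤ k, arc ex ey u ξ (t a) ∈ S a :=
        forall₂_congr fun a ha => by rw [arc_past ex ey h _ (ht ha)]
      simp only [hFd, e]
      congr 1
      exact prod_congr rfl fun j hj => by rw [arc_past ex ey h j (mem_Ico.1 hj).2.le]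
    have h3 := super ex ey hp hb0 u (φ := fun y => ∑ z ∈ S (k + 1), Gi ex ey p b z y)
      (fun y => by
        rw [← Gi_super ex ey hp hb _ y]
        exact le_add_of_nonneg_left (by split_ifs <;> norm_num)) hF h0 h1 hk
    refine le_trans ((pr_pb hp).ex_mono fun ξ => ?_) (h3.trans ?_)
    · rw [← prod_Ico_consecutive _ h2 h1, hFd, ← Gi_super ex ey hp hb]
      have h4 := hG (arc ex ey u ξ (t (k + 1)))
      have h5 : 0 ≤ (∏ j ∈ Ico (t 0) (t k), b (arc ex ey u ξ j)) *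
          ∏ j ∈ Ico (t k) (t (k + 1)), b (arc ex ey u ξ j) :=
        mul_nonneg (prod_nonneg fun _ _ => hb0 _) (prod_nonneg fun _ _ => hb0 _)
      beta_reduce
      by_cases hc : ∀ a ≤ k + 1, arc ex ey u ξ (t a) ∈ S a
      · rw [if_pos hc, if_pos fun a ha => hc a (by omega), if_pos (hc _ le_rfl), one_mul, one_mul]
        exact le_mul_of_one_le_right h5 (le_add_of_nonneg_right h4)
      · rw [if_neg hc, zero_mul]
        refine mul_nonneg (mul_nonneg (h0 ξ) (prod_nonneg fun _ _ => hb0 _)) (add_nonneg ?_ h4)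
        split_ifs <;> norm_num
    · rw [pow_succ']
      refine le_trans ((pr_pb hp).ex_mono (g := fun ξ => Γ * F ξ) fun ξ => ?_) ?_
      · by_cases hc : ∀ a ≤ k, arc ex ey u ξ (t a) ∈ S a
        · rw [mul_comm Γ]
          exact mul_le_mul_of_nonneg_left (hS k k.lt_succ_self _ (hc k le_rfl)) (h0 ξ)
        · simp [hFd, hc]
      · rw [PH.ex_mul]
        exact mul_le_mul_of_nonneg_left (ih (h1.trans hk) fun a ha => hS a (by omega)) hΓ

end Crest.Agent.N337.Wk
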